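import Vale.Agent.P087.MathlibUsed

set_option linter.all false

section

section

open MeasureTheory Filter
open scoped ENNReal NNReal

namespace Vale.Agent.P087

/-- The self-adjoint `k × k` matrix whose coordinates in the basis
`E_aa`, `(E_ab + E_ba)/√2`, `i(E_ab - E_ba)/√2` (`a < b`), orthonormal for `Tr(AB)`, are `x`. -/
noncomputable def herm (k : ℕ) (x : Fin k → Fin k → ℝ) : Matrix (Fin k) (Fin k) ℂ :=
  fun a b =>
    if a = b then (x a a : ℂ)
    else if a < b then ((x a b : ℂ) + (x b a : ℂ) * Complex.I) / ((Real.sqrt 2 : ℝ) : ℂ)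
    else ((x b a : ℂ) - (x a b : ℂ) * Complex.I) / ((Real.sqrt 2 : ℝ) : ℂ)

section Law

variable {ι : Type} [Fintype ι] [DecidableEq ι]

/-- Microstates `Γ_R(X; m, k, ε)` for a tuple with moments `μ w = τ(X_w)`. -/
def microstates (μ : List ι → ℂ) (R : ℝ) (m k : ℕ) (ε : ℝ) : Set (ι → Fin k → Fin k → ℝ) :=
  {x | (∀ j, ‖Matrix.toEuclideanCLM (n := Fin k) (𝕜 := ℂ) (herm k (x j))‖ ≤ R) ∧
    ∀ w : List ι, 1 ≤ w.length → w.length ≤ m →
      ‖(k : ℂ)⁻¹ * ((w.map fun j => herm k (x j)).prod).trace - μ w‖ < ε}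

/-- `χ_R`. -/
noncomputable def chiR (μ : List ι → ℂ) (R : ℝ) : EReal :=
  ⨅ (m : ℕ) (ε : ℝ) (_ : 0 < ε),
    limsup (fun k : ℕ =>
      ((((k : ℝ) ^ 2)⁻¹ : ℝ) : EReal) * ENNReal.log (volume (microstates μ R m k ε))
        + (((Fintype.card ι : ℝ) / 2 * Real.log k : ℝ) : EReal)) atTop

/-- Voiculescu's microstates free entropy `χ`. -/
noncomputable def chi (μ : List ι → ℂ) : EReal := ⨆ (R : ℝ) (_ : 0 < R), chiR μ R

/-- `(τ ⊗ τ)(∂_j X_w)` for a monomial. -/
def dqWord (μ : List ι → ℂ) (j : ι) (w : List ι) : ℂ :=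
  ∑ l : Fin w.length, if w.get l = j then μ (w.take l) * μ (w.drop (l + 1)) else 0

/-- `(τ ⊗ τ)(∂_j P(X))` for a noncommutative polynomial `P`. -/
noncomputable def dq (μ : List ι → ℂ) (j : ι) (p : List ι →₀ ℂ) : ℂ :=
  p.sum fun w a => a * dqWord μ j w

/-- `‖P(X)‖₂² = τ(P(X)^* P(X))`. -/
noncomputable def normSq (μ : List ι → ℂ) (p : List ι →₀ ℂ) : ℝ :=
  (p.sum fun v a => p.sum fun w b => (starRingEnd ℂ) a * b * μ (v.reverse ++ w)).re

/-- `‖ξ_j‖₂²` for the conjugate variable `ξ_j` (`∞` if it does not exist), by Riesz. -/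
noncomputable def conjNormSq (μ : List ι → ℂ) (j : ι) : ℝ≥0∞ :=
  ⨅ (C : ℝ≥0) (_ : ∀ p : List ι →₀ ℂ, ‖dq μ j p‖ ^ 2 ≤ C * normSq μ p), (C : ℝ≥0∞)

/-- Free Fisher information `Φ^*`. -/
noncomputable def fisher (μ : List ι → ℂ) : ℝ≥0∞ := ∑ j, conjNormSq μ j

/-- Nonmicrostates free entropy from the moments `ν t` of `X + √t S`. -/
noncomputable def chiStar (ν : ℝ → List ι → ℂ) : EReal :=
  ((1 / 2 : ℝ) : EReal) *
      (((∫⁻ t in Set.Ioi (0 : ℝ), (ENNReal.ofReal (Fintype.card ι / (1 + t)) - fisher (ν t)) : ℝ≥0∞) : EReal)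
        - ((∫⁻ t in Set.Ioi (0 : ℝ), (fisher (ν t) - ENNReal.ofReal (Fintype.card ι / (1 + t))) : ℝ≥0∞) : EReal))
    + (((Fintype.card ι : ℝ) / 2 * Real.log (2 * Real.pi * Real.exp 1) : ℝ) : EReal)

end Law

section VN

variable {H : Type} [NormedAddCommGroup H] [InnerProductSpace ℂ H] [CompleteSpace H]

/-- Faithful normal tracial state on a von Neumann algebra. -/
structure IsFNTState (M : VonNeumannAlgebra H) (τ : M.toStarSubalgebra →ₗ[ℂ] ℂ) : Prop where
  map_one : τ 1 = 1
  tracial : ∀ x y, τ (x * y) = τ (y * x)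
  faithful : ∀ x, τ (star x * x) = 0 → x = 0
  normal : ∃ ξ : ℕ → H, Summable (fun i => ‖ξ i‖ ^ 2) ∧
    ∀ x : M.toStarSubalgebra, τ x = ∑' i, inner ℂ (ξ i) ((x : H →L[ℂ] H) (ξ i))

/-- Free independence of a family of unital subalgebras. -/
def FreeFamily {A κ : Type} [Ring A] [Algebra ℂ A] (τ : A →ₗ[ℂ] ℂ) (B : κ → Subalgebra ℂ A) : Prop :=
  ∀ (n : ℕ) (i : Fin (n + 1) → κ) (a : Fin (n + 1) → A),
    (∀ k, a k ∈ B (i k)) → (∀ k, τ (a k) = 0) → (∀ k : Fin n, i k.castSucc ≠ i k.succ) →
      τ (List.ofFn a).prod = 0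

/-- `S` is a free family of semicircular elements of variance `1`, free from the tuple `X`. -/
structure IsFreeSemicircularFrom {A ι : Type} [Ring A] [StarRing A] [Algebra ℂ A]
    (τ : A →ₗ[ℂ] ℂ) (X S : ι → A) : Prop where
  selfAdjoint : ∀ j, IsSelfAdjoint (S j)
  even : ∀ j k, τ (S j ^ (2 * k)) = (catalan k : ℂ)
  odd : ∀ j k, τ (S j ^ (2 * k + 1)) = 0
  free : FreeFamily τ (fun o : Option ι =>
    o.elim (Algebra.adjoin ℂ (Set.range X)) (fun j => Algebra.adjoin ℂ {S j}))

/-- Joint moments of a tuple. -/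
def law {A ι : Type} [Ring A] [Algebra ℂ A] (τ : A →ₗ[ℂ] ℂ) (X : ι → A) (w : List ι) : ℂ :=
  τ (w.map X).prod

end VN

end Vale.Agent.P087
end
end

section

section

namespace Vale.Agent.P087

/-- Moments of a free family of standard semicircular elements (variance 1):
`semi (x :: w) = ∑_{w = w1 ++ x :: w2} semi w1 * semi w2`. -/
def semi {J : Type} [DecidableEq J] : List J → ℝ
  | [] => 1
  | x :: w => ∑ k : Fin w.length,
      if w.get k = x then semi (w.take k) * semi (w.drop (k + 1)) else 0
  termination_by w => w.length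
  decreasing_by
    all_goals simp only [List.length_take, List.length_drop, List.length_cons]; omega

/-- Index set of the tuple. -/
abbrev Idx (m : ℕ) := Fin m × Fin m

/-- Letters: hidden semicirculars `A_a` (`inl a`) and noise semicirculars `f_i` (`inr i`). -/
abbrev Letter (m : ℕ) := Fin m ⊕ Idx m

/-- `y i`: the word of hidden letters in `X_i = c_i A_{y i} + σ_i f_i`. -/
def yw {m : ℕ} (i : Idx m) : List (Fin m) := if i.1 = i.2 then [i.1] else [i.1, i.2, i.1]

/-- Moments of the tuple `X_i = c_i A_{y i} + s_i f_i`; `expMom c s pre w = τ(pre * X_w)`. -/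
def expMom {m : ℕ} (c s : Idx m → ℝ) : List (Letter m) → List (Idx m) → ℝ
  | pre, [] => semi pre
  | pre, i :: w => c i * expMom c s (pre ++ (yw i).map Sum.inl) w
      + s i * expMom c s (pre ++ [Sum.inr i]) w

/-- coefficient of the hidden word -/
noncomputable def coef (m : ℕ) (c θ : ℝ) (i : Idx m) : ℝ := if i.1 = i.2 then c else θ

/-- standard deviation of the noise at heat flow time `t` -/
noncomputable def sig (m : ℕ) (t : ℝ) (i : Idx m) : ℝ :=
  if i.1 = i.2 then Real.sqrt t else Real.sqrt (1 + t)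

/-- the moments of `X + √t S` -/
noncomputable def lawX (m : ℕ) (c θ t : ℝ) (w : List (Idx m)) : ℂ :=
  (expMom (coef m c θ) (sig m t) [] w : ℝ)

end Vale.Agent.P087
end
end

section

section

/-! P087, task G1: Gaussian integration by parts for polynomials. -/

open MeasureTheory Filter ProbabilityTheory
open scoped ENNReal NNReal Topology

namespace Vale.Agent.P087

/-- moments of the centred Gaussian law of variance `v` -/
noncomputable def mom (v : ℝ≥0) (n : ℕ) : ℝ := ∫ x, x ^ n ∂(gaussianReal 0 v)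

theorem integrable_pow_gaussian (v : ℝ≥0) (n : ℕ) :
    Integrable (fun x : ℝ => x ^ n) (gaussianReal 0 v) := by
  rcases Nat.eq_zero_or_pos n with rfl | hn
  · simp
  have h := memLp_id_gaussianReal (μ := 0) (v := v) (p := (n : ℝ≥0))
  have h2 := h.integrable_norm_pow (p := n) (by omega)
  refine h2.mono (by fun_prop) (Eventually.of_forall fun x => ?_)
  simp

theorem mom_one (v : ℝ≥0) : mom v 1 = 0 := by
  simp [mom]

theorem mom_succ_succ (v : ℝ≥0) (n : ℕ) : mom v (n + 2) = (n + 1) * v * mom v n := by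
  by_cases hv : v = 0
  · subst hv
    simp [mom]
  have hv' : (v : ℝ) ≠ 0 := by exact_mod_cast hv
  have hderiv : ∀ x : ℝ, HasDerivAt (gaussianPDFReal 0 v) (-(x / v) * gaussianPDFReal 0 v x) x := by
    intro x
    unfold gaussianPDFReal
    have h1 : HasDerivAt (fun x : ℝ => -(x - 0) ^ 2 / (2 * (v : ℝ))) (-(x / v)) x := by
      have := ((((hasDerivAt_id' x).sub_const (0 : ℝ)).fun_pow 2).fun_neg.div_const (2 * (v : ℝ)))
      refine this.congr_deriv ?_
      simp only [Nat.cast_ofNat, sub_zero, mul_one]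
      field_simp
      simp
    have h2 := (h1.exp).const_mul ((Real.sqrt (2 * Real.pi * v))⁻¹)
    refine h2.congr_deriv ?_
    ring
  have hint : ∀ m : ℕ, Integrable (fun x : ℝ => gaussianPDFReal 0 v x * x ^ m) := by
    intro m
    have := integrable_pow_gaussian v m
    rw [gaussianReal_of_var_ne_zero _ hv] at this
    rw [integrable_withDensity_iff_integrable_smul₀'] at this
    · refine this.congr (Eventually.of_forall fun x => ?_)
      simp [toReal_gaussianPDF]
    · fun_prop
    · exact Eventually.of_forall fun x => gaussianPDF_lt_top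
  have hibp := integral_mul_deriv_eq_deriv_mul_of_integrable
    (u := fun x : ℝ => x ^ (n + 1)) (v := gaussianPDFReal 0 v)
    (u' := fun x : ℝ => ((n + 1 : ℕ) : ℝ) * x ^ n)
    (v' := fun x => -(x / v) * gaussianPDFReal 0 v x)
    (fun x _ => by simpa using hasDerivAt_pow (n + 1) x) (fun x _ => hderiv x)
    (by
      refine ((hint (n + 2)).const_mul (-(v : ℝ)⁻¹)).congr (Eventually.of_forall fun x => ?_)
      simp only [Pi.mul_apply]
      field_simp
      ring)
    (by
      refine ((hint n).const_mul ((n + 1 : ℕ) : ℝ)).congr (Eventually.of_forall fun x => ?_)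
      simp only [Pi.mul_apply]
      ring)
    (by
      refine (hint (n + 1)).congr (Eventually.of_forall fun x => ?_)
      simp only [Pi.mul_apply]
      ring)
  unfold mom
  rw [integral_gaussianReal_eq_integral_smul hv, integral_gaussianReal_eq_integral_smul hv]
  have e1 : ∫ x, gaussianPDFReal 0 v x • x ^ (n + 2) =
      -(v : ℝ) * ∫ x, x ^ (n + 1) * (-(x / v) * gaussianPDFReal 0 v x) := by
    rw [← integral_const_mul]
    congr 1
    ext x
    rw [smul_eq_mul]
    field_simp
    ring
  have e2 : ∫ x, ((n + 1 : ℕ) : ℝ) * x ^ n * gaussianPDFReal 0 v x =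
      (n + 1) * ∫ x, gaussianPDFReal 0 v x • x ^ n := by
    rw [← integral_const_mul]
    congr 1
    ext x
    rw [smul_eq_mul]
    push_cast
    ring
  rw [e1, hibp, e2]
  ring

/-- law of a family of independent GUE matrices in coordinates, entries of variance `1/k` -/
noncomputable def gue (J : Type) [Fintype J] (k : ℕ) : Measure (J → Fin k → Fin k → ℝ) :=
  Measure.pi fun _ => Measure.pi fun _ => Measure.pi fun _ => gaussianReal 0 ((k : ℝ≥0)⁻¹)

instance (J : Type) [Fintype J] (k : ℕ) : IsProbabilityMeasure (gue J k) := by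
  unfold gue; infer_instance

section Poly

variable {J : Type} [Fintype J] (k : ℕ)

/-- index set of the coordinates -/
abbrev Co (J : Type) (k : ℕ) := J × Fin k × Fin k

/-- evaluation of polynomials in the coordinates -/
noncomputable def ev (x : J → Fin k → Fin k → ℝ) : MvPolynomial (Co J k) ℂ →ₐ[ℂ] ℂ :=
  MvPolynomial.aeval fun c => ((x c.1 c.2.1 c.2.2 : ℝ) : ℂ)

theorem ev_monomial (x : J → Fin k → Fin k → ℝ) (s : Co J k →₀ ℕ) (z : ℂ) :
    ev k x (MvPolynomial.monomial s z) =
      z * ∏ j, ∏ a, ∏ b, ((x j a b : ℝ) : ℂ) ^ s (j, a, b) := by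
  rw [ev, MvPolynomial.aeval_monomial]
  rw [Finsupp.prod_fintype _ _ (by simp)]
  rw [Fintype.prod_prod_type]
  simp_rw [Fintype.prod_prod_type]
  rfl

theorem integrable_monomial (s : Co J k →₀ ℕ) :
    Integrable (fun x : J → Fin k → Fin k → ℝ => ∏ j, ∏ a, ∏ b, ((x j a b : ℝ) : ℂ) ^ s (j, a, b))
      (gue J k) := by
  unfold gue
  apply Integrable.fintype_prod (f := fun j (y : Fin k → Fin k → ℝ) =>
    ∏ a, ∏ b, ((y a b : ℝ) : ℂ) ^ s (j, a, b))
  intro j
  apply Integrable.fintype_prod (f := fun a (y : Fin k → ℝ) => ∏ b, ((y b : ℝ) : ℂ) ^ s (j, a, b))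
  intro a
  apply Integrable.fintype_prod (f := fun b (y : ℝ) => ((y : ℝ) : ℂ) ^ s (j, a, b))
  intro b
  have := (integrable_pow_gaussian ((k : ℝ≥0)⁻¹) (s (j, a, b))).ofReal (𝕜 := ℂ)
  refine this.congr (Eventually.of_forall fun x => ?_)
  simp

theorem integral_monomial (s : Co J k →₀ ℕ) :
    ∫ x : J → Fin k → Fin k → ℝ, (∏ j, ∏ a, ∏ b, ((x j a b : ℝ) : ℂ) ^ s (j, a, b)) ∂(gue J k)
      = ∏ c, ((mom ((k : ℝ≥0)⁻¹) (s c) : ℝ) : ℂ) := by
  unfold gue
  rw [integral_fintype_prod_eq_prod (f := fun j (y : Fin k → Fin k → ℝ) =>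
    ∏ a, ∏ b, ((y a b : ℝ) : ℂ) ^ s (j, a, b)), Fintype.prod_prod_type]
  refine Finset.prod_congr rfl fun j _ => ?_
  rw [integral_fintype_prod_eq_prod (f := fun a (y : Fin k → ℝ) =>
    ∏ b, ((y b : ℝ) : ℂ) ^ s (j, a, b)), Fintype.prod_prod_type]
  refine Finset.prod_congr rfl fun a _ => ?_
  rw [integral_fintype_prod_eq_prod (f := fun b (y : ℝ) => ((y : ℝ) : ℂ) ^ s (j, a, b))]
  refine Finset.prod_congr rfl fun b _ => ?_
  rw [mom]
  refine Eq.trans ?_ (integral_ofReal (𝕜 := ℂ))
  congr 1
  ext x
  simp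

theorem integrable_ev (p : MvPolynomial (Co J k) ℂ) :
    Integrable (fun x => ev k x p) (gue J k) := by
  induction p using MvPolynomial.induction_on' with
  | monomial s z =>
    simp_rw [ev_monomial]
    exact (integrable_monomial k s).const_mul z
  | add p q hp hq =>
    simp_rw [map_add]
    exact hp.add hq

/-- expectation of polynomials in the coordinates -/
noncomputable def EE : MvPolynomial (Co J k) ℂ →ₗ[ℂ] ℂ where
  toFun p := ∫ x, ev k x p ∂(gue J k)
  map_add' p q := by
    simp_rw [map_add]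
    exact integral_add (integrable_ev k p) (integrable_ev k q)
  map_smul' z p := by
    simp_rw [map_smul]
    exact integral_smul z _

theorem EE_apply (p : MvPolynomial (Co J k) ℂ) : EE k p = ∫ x, ev k x p ∂(gue J k) := rfl

theorem EE_one : EE k (1 : MvPolynomial (Co J k) ℂ) = 1 := by
  simp [EE_apply]

theorem EE_monomial (s : Co J k →₀ ℕ) (z : ℂ) :
    EE k (MvPolynomial.monomial s z) = z * ∏ c, ((mom ((k : ℝ≥0)⁻¹) (s c) : ℝ) : ℂ) := by
  rw [EE_apply]
  simp_rw [ev_monomial]
  rw [integral_const_mul, integral_monomial]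

variable [DecidableEq J]

/-- Gaussian integration by parts -/
theorem EE_X_mul (c : Co J k) (p : MvPolynomial (Co J k) ℂ) :
    EE k (MvPolynomial.X c * p) = (k : ℂ)⁻¹ * EE k (MvPolynomial.pderiv c p) := by
  induction p using MvPolynomial.induction_on' with
  | add p q hp hq =>
    rw [mul_add, map_add, hp, hq, map_add, map_add, mul_add]
  | monomial s z =>
    rw [MvPolynomial.pderiv_monomial, EE_monomial, MvPolynomial.X, MvPolynomial.monomial_mul,
      EE_monomial, one_mul]
    rw [← Finset.mul_prod_erase Finset.univ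
      (fun c' => ((mom ((k : ℝ≥0)⁻¹) ((Finsupp.single c 1 + s : Co J k →₀ ℕ) c') : ℝ) : ℂ))
      (Finset.mem_univ c)]
    rw [← Finset.mul_prod_erase Finset.univ
      (fun c' => ((mom ((k : ℝ≥0)⁻¹) (((s - Finsupp.single c 1 : Co J k →₀ ℕ)) c') : ℝ) : ℂ))
      (Finset.mem_univ c)]
    have e1 : ∏ x ∈ Finset.univ.erase c,
        ((mom ((k : ℝ≥0)⁻¹) ((Finsupp.single c 1 + s : Co J k →₀ ℕ) x) : ℝ) : ℂ) =
        ∏ x ∈ Finset.univ.erase c, ((mom ((k : ℝ≥0)⁻¹) (s x) : ℝ) : ℂ) := by
      refine Finset.prod_congr rfl fun x hx => ?_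
      have hx' : c ≠ x := (Finset.ne_of_mem_erase hx).symm
      simp [Finsupp.single_apply, hx']
    have e2 : ∏ x ∈ Finset.univ.erase c,
        ((mom ((k : ℝ≥0)⁻¹) ((s - Finsupp.single c 1 : Co J k →₀ ℕ) x) : ℝ) : ℂ) =
        ∏ x ∈ Finset.univ.erase c, ((mom ((k : ℝ≥0)⁻¹) (s x) : ℝ) : ℂ) := by
      refine Finset.prod_congr rfl fun x hx => ?_
      have hx' : c ≠ x := (Finset.ne_of_mem_erase hx).symm
      simp [Finsupp.single_apply, hx']
    rw [e1, e2]
    have e3 : (((mom ((k : ℝ≥0)⁻¹) ((Finsupp.single c 1 + s : Co J k →₀ ℕ) c)) : ℝ) : ℂ) =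
        (k : ℂ)⁻¹ * (s c * ((mom ((k : ℝ≥0)⁻¹) ((s - Finsupp.single c 1 : Co J k →₀ ℕ) c) : ℝ) :
          ℂ)) := by
      simp only [Finsupp.coe_add, Pi.add_apply, Finsupp.single_eq_same, Finsupp.coe_tsub,
        Pi.sub_apply]
      rcases Nat.eq_zero_or_pos (s c) with h0 | h0
      · rw [h0]
        simp [mom_one]
      · obtain ⟨n, hn⟩ := Nat.exists_eq_succ_of_ne_zero h0.ne'
        rw [hn]
        have : 1 + n.succ = n + 2 := by omega
        rw [this, mom_succ_succ]
        simp only [Nat.succ_eq_add_one, Nat.add_sub_cancel]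
        push_cast
        ring
    rw [e3]
    ring

end Poly

end Vale.Agent.P087
end
end

section

section

/-! P087, task G1: the exact recursion for the joint moments of independent GUE matrices. -/

open MeasureTheory Filter ProbabilityTheory Matrix
open scoped ENNReal NNReal Topology

namespace Vale.Agent.P087

section Coef

variable {k : ℕ}

/-- coefficients of the `(a,b)` entry of `herm k x` -/
noncomputable def lc (a b : Fin k) : Fin k × Fin k → ℂ :=
  if a = b then Pi.single (a, a) 1
  else if a < b then ((Real.sqrt 2 : ℝ) : ℂ)⁻¹ •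
    (Pi.single (a, b) 1 + Complex.I • Pi.single (b, a) 1)
  else ((Real.sqrt 2 : ℝ) : ℂ)⁻¹ • (Pi.single (b, a) 1 - Complex.I • Pi.single (a, b) 1)

theorem sqrt2_inv_mul : (((Real.sqrt 2 : ℝ) : ℂ))⁻¹ * (((Real.sqrt 2 : ℝ) : ℂ))⁻¹ = 2⁻¹ := by
  rw [← mul_inv, ← Complex.ofReal_mul, Real.mul_self_sqrt (by norm_num)]
  norm_num

theorem single_dot (p q : Fin k × Fin k) :
    (Pi.single p (1 : ℂ) : Fin k × Fin k → ℂ) ⬝ᵥ Pi.single q 1 = if p = q then 1 else 0 := by
  simp [Pi.single_apply, eq_comm]

theorem lc_self (a : Fin k) : lc a a = Pi.single (a, a) 1 := by simp [lc]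

theorem lc_lt {a b : Fin k} (h : a < b) : lc a b = ((Real.sqrt 2 : ℝ) : ℂ)⁻¹ •
    (Pi.single (a, b) 1 + Complex.I • Pi.single (b, a) 1) := by
  simp [lc, h, h.ne]

theorem lc_gt {a b : Fin k} (h : b < a) : lc a b = ((Real.sqrt 2 : ℝ) : ℂ)⁻¹ •
    (Pi.single (b, a) 1 - Complex.I • Pi.single (a, b) 1) := by
  simp [lc, h.ne', h.not_gt]

theorem lc_dot (a b a' b' : Fin k) :
    lc a b ⬝ᵥ lc a' b' = if a = b' ∧ b = a' then 1 else 0 := by
  have h2 := sqrt2_inv_mul
  have hI := Complex.I_mul_I
  generalize ((Real.sqrt 2 : ℝ) : ℂ)⁻¹ = s at h2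
  rcases lt_trichotomy a b with h | h | h <;> rcases lt_trichotomy a' b' with h' | h' | h'
  · rw [lc_lt h, lc_lt h']
    simp only [smul_dotProduct, dotProduct_smul, add_dotProduct, dotProduct_add, single_dot,
      Prod.mk.injEq, smul_eq_mul]
    have h2 := sqrt2_inv_mul
    generalize ((Real.sqrt 2 : ℝ) : ℂ)⁻¹ = s at h2 ⊢
    split_ifs <;> first | (exfalso; omega) | linear_combination (0 : ℂ) |
      linear_combination s ^ 2 * hI
  · subst h'
    rw [lc_lt h, lc_self]
    simp only [smul_dotProduct, dotProduct_smul, add_dotProduct, dotProduct_add, single_dot,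
      Prod.mk.injEq, smul_eq_mul]
    split_ifs <;> first | (exfalso; omega) | linear_combination (0 : ℂ)
  · rw [lc_lt h, lc_gt h']
    simp only [smul_dotProduct, dotProduct_smul, add_dotProduct, dotProduct_sub, single_dot,
      Prod.mk.injEq, smul_eq_mul]
    have h2 := sqrt2_inv_mul
    generalize ((Real.sqrt 2 : ℝ) : ℂ)⁻¹ = s at h2 ⊢
    split_ifs <;> first | (exfalso; omega) | linear_combination (0 : ℂ) |
      linear_combination 2 * h2 - s ^ 2 * hI
  · subst h
    rw [lc_lt h', lc_self]
    simp only [smul_dotProduct, dotProduct_smul, add_dotProduct, dotProduct_add, single_dot,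
      Prod.mk.injEq, smul_eq_mul]
    split_ifs <;> first | (exfalso; omega) | linear_combination (0 : ℂ)
  · subst h
    subst h'
    rw [lc_self, lc_self, single_dot]
    simp only [Prod.mk.injEq]
  · subst h
    rw [lc_gt h', lc_self]
    simp only [smul_dotProduct, dotProduct_smul, add_dotProduct, dotProduct_sub, single_dot,
      Prod.mk.injEq, smul_eq_mul]
    split_ifs <;> first | (exfalso; omega) | linear_combination (0 : ℂ)
  · rw [lc_gt h, lc_lt h']
    simp only [smul_dotProduct, dotProduct_smul, sub_dotProduct, dotProduct_add, single_dot,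
      Prod.mk.injEq, smul_eq_mul]
    have h2 := sqrt2_inv_mul
    generalize ((Real.sqrt 2 : ℝ) : ℂ)⁻¹ = s at h2 ⊢
    split_ifs <;> first | (exfalso; omega) | linear_combination (0 : ℂ) |
      linear_combination 2 * h2 - s ^ 2 * hI
  · subst h'
    rw [lc_gt h, lc_self]
    simp only [smul_dotProduct, dotProduct_smul, sub_dotProduct, dotProduct_add, single_dot,
      Prod.mk.injEq, smul_eq_mul]
    split_ifs <;> first | (exfalso; omega) | linear_combination (0 : ℂ)
  · rw [lc_gt h, lc_gt h']
    simp only [smul_dotProduct, dotProduct_smul, sub_dotProduct, dotProduct_sub, single_dot,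
      Prod.mk.injEq, smul_eq_mul]
    have h2 := sqrt2_inv_mul
    generalize ((Real.sqrt 2 : ℝ) : ℂ)⁻¹ = s at h2 ⊢
    split_ifs <;> first | (exfalso; omega) | linear_combination (0 : ℂ) |
      linear_combination s ^ 2 * hI

theorem herm_eq (x : Fin k → Fin k → ℝ) (a b : Fin k) :
    herm k x a b = ∑ c : Fin k × Fin k, lc a b c * (x c.1 c.2 : ℂ) := by
  change _ = lc a b ⬝ᵥ (fun c => (x c.1 c.2 : ℂ))
  unfold lc herm
  by_cases h1 : a = b
  · subst h1
    simp
  · by_cases h2 : a < b
    · simp [h1, h2]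
      ring
    · simp [h1, h2]
      ring

end Coef

section Mat

variable {J : Type} [Fintype J] [DecidableEq J] (k : ℕ)

/-- the generic GUE matrix -/
noncomputable def Hm (j : J) : Matrix (Fin k) (Fin k) (MvPolynomial (Co J k) ℂ) :=
  fun a b => ∑ c : Fin k × Fin k, lc a b c • MvPolynomial.X (j, c)

/-- the derivation dual to the `(a,b)` entry of the matrix `j` -/
noncomputable def Dr (j : J) (a b : Fin k) :
    Derivation ℂ (MvPolynomial (Co J k) ℂ) (MvPolynomial (Co J k) ℂ) :=
  ∑ c : Fin k × Fin k, lc a b c • MvPolynomial.pderiv (j, c)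

theorem Dr_apply (j : J) (a b : Fin k) (p : MvPolynomial (Co J k) ℂ) :
    Dr k j a b p = ∑ c : Fin k × Fin k, lc a b c • MvPolynomial.pderiv (j, c) p := by
  have h := map_sum (Derivation.coeFnAddMonoidHom (R := ℂ) (A := MvPolynomial (Co J k) ℂ)
    (M := MvPolynomial (Co J k) ℂ)) (fun c : Fin k × Fin k => lc a b c •
      (MvPolynomial.pderiv (R := ℂ) (j, c))) Finset.univ
  have h2 := congrFun h p
  rw [Finset.sum_apply] at h2
  exact h2

theorem EE_Hm_mul (j : J) (a b : Fin k) (p : MvPolynomial (Co J k) ℂ) :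
    EE k (Hm k j a b * p) = (k : ℂ)⁻¹ * EE k (Dr k j a b p) := by
  rw [Dr_apply, Hm, Finset.sum_mul, map_sum, map_sum, Finset.mul_sum]
  refine Finset.sum_congr rfl fun c _ => ?_
  rw [smul_mul_assoc, map_smul, EE_X_mul, map_smul, smul_eq_mul, smul_eq_mul]
  ring

theorem Dr_Hm (j j' : J) (a b a' b' : Fin k) :
    Dr k j a b (Hm k j' a' b') = if j = j' ∧ a = b' ∧ b = a' then 1 else 0 := by
  have hH : Hm k j' a' b' = ∑ c : Fin k × Fin k, lc a' b' c • MvPolynomial.X (j', c) := rfl
  rw [Dr_apply, hH]
  simp_rw [map_sum, Derivation.map_smul, MvPolynomial.pderiv_X]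
  by_cases hj : j = j'
  · subst hj
    have h1 : ∀ c c' : Fin k × Fin k, (Pi.single (j, c) 1 : Co J k → MvPolynomial (Co J k) ℂ) (j, c')
        = if c = c' then 1 else 0 := by
      intro c c'
      simp [Pi.single_apply, eq_comm]
    simp_rw [h1]
    have h2 := lc_dot a b a' b'
    simp only [smul_ite, smul_zero, Finset.sum_ite_eq, Finset.mem_univ, if_true, true_and]
    have h3 : ∀ c : Fin k × Fin k, lc a b c • lc a' b' c • (1 : MvPolynomial (Co J k) ℂ) =
        (lc a b c * lc a' b' c) • (1 : MvPolynomial (Co J k) ℂ) := by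
      intro c
      rw [smul_smul]
    simp_rw [h3]
    rw [← Finset.sum_smul]
    have h4 : ∑ c, lc a b c * lc a' b' c = if a = b' ∧ b = a' then 1 else 0 := h2
    rw [h4]
    split_ifs <;> simp
  · have h1 : ∀ c c' : Fin k × Fin k,
        (Pi.single (j, c) 1 : Co J k → MvPolynomial (Co J k) ℂ) (j', c') = 0 := by
      intro c c'
      rw [Pi.single_apply, if_neg]
      simp only [Prod.mk.injEq, not_and]
      intro h
      exact absurd h.symm hj
    simp_rw [h1]
    simp [hj]

/-- words -/
noncomputable def WW (w : List J) : Matrix (Fin k) (Fin k) (MvPolynomial (Co J k) ℂ) :=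
  (w.map (Hm k)).prod

theorem WW_nil : WW k ([] : List J) = 1 := rfl

theorem WW_cons (j : J) (w : List J) : WW k (j :: w) = Hm k j * WW k w := by
  simp [WW]

theorem WW_append (v w : List J) : WW k (v ++ w) = WW k v * WW k w := by
  simp [WW]

theorem Dr_one (j : J) (a b c d : Fin k) :
    Dr k j a b ((1 : Matrix (Fin k) (Fin k) (MvPolynomial (Co J k) ℂ)) c d) = 0 := by
  rw [Matrix.one_apply]
  split_ifs
  · exact (Dr k j a b).map_one_eq_zero
  · exact map_zero _

theorem Dr_WW (j : J) (a b : Fin k) (w : List J) : ∀ c d : Fin k,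
    Dr k j a b (WW k w c d) = ∑ l : Fin w.length,
      if w.get l = j then WW k (w.take l) c b * WW k (w.drop (l + 1)) a d else 0 := by
  induction w with
  | nil =>
    intro c d
    rw [WW_nil, Dr_one]
    simp
  | cons i w ih =>
    intro c d
    rw [WW_cons, Matrix.mul_apply, map_sum]
    simp_rw [Derivation.leibniz, ih, Dr_Hm, smul_eq_mul]
    rw [Finset.sum_add_distrib]
    simp only [List.length_cons]
    rw [Fin.sum_univ_succ]
    rw [add_comm]
    congr 1
    · simp only [Fin.val_zero, List.take_zero, List.get_cons_zero, WW_nil, zero_add,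
        List.drop_succ_cons, List.drop_zero]
      by_cases hij : i = j
      · subst hij
        simp only [true_and, if_true]
        rw [Matrix.one_apply]
        by_cases hbc : b = c
        · subst hbc
          simp
        · simp [hbc, Ne.symm hbc]
      · simp [hij, Ne.symm hij]
    · simp_rw [Finset.mul_sum]
      rw [Finset.sum_comm]
      refine Finset.sum_congr rfl fun l _ => ?_
      have hg : (i :: w).get l.succ = w.get l := rfl
      have ht : (i :: w).take (l.succ : ℕ) = i :: w.take l := rfl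
      have hd : (i :: w).drop ((l.succ : ℕ) + 1) = w.drop (l + 1) := rfl
      rw [hg, ht, hd]
      by_cases hl : w.get l = j
      · simp only [if_pos hl]
        rw [WW_cons, Matrix.mul_apply, Finset.sum_mul]
        refine Finset.sum_congr rfl fun e _ => ?_
        ring
      · simp only [if_neg hl, mul_zero, Finset.sum_const_zero]

/-- product of (unnormalised) traces of words -/
noncomputable def TT (L : List (List J)) : MvPolynomial (Co J k) ℂ :=
  (L.map fun w => (WW k w).trace).prod

theorem TT_nil : TT k ([] : List (List J)) = 1 := rfl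

theorem TT_cons (w : List J) (L : List (List J)) : TT k (w :: L) = (WW k w).trace * TT k L := by
  simp [TT]

/-- the ways of pairing the letter `j` (followed by `w`) with a letter `j` of one word of the
list, merging the two words -/
def ins (j : J) (w : List J) : List (List J) → List (List (List J))
  | [] => []
  | V :: L => ((List.finRange V.length).filter (fun l => V.get l = j)).map
      (fun l : Fin V.length => (w ++ (V.drop (l + 1) ++ V.take l)) :: L) ++
        (ins j w L).map (V :: ·)

theorem list_sum_filter {A : Type*} [AddCommMonoid A] {n : ℕ} (P : Fin n → Prop) [DecidablePred P]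
    (f : Fin n → A) : (((List.finRange n).filter (fun l => P l)).map f).sum =
      ∑ l : Fin n, if P l then f l else 0 := by
  rw [← List.sum_ofFn, List.ofFn_eq_map]
  induction List.finRange n with
  | nil => simp
  | cons a t ih =>
    by_cases h : P a
    · simp [h, ih]
    · simp [h, ih]

theorem Dr_trace (j : J) (a b : Fin k) (V : List J) :
    Dr k j a b (WW k V).trace = ∑ l : Fin V.length,
      if V.get l = j then (WW k (V.drop (l + 1)) * WW k (V.take l)) a b else 0 := by
  rw [Matrix.trace, map_sum]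
  simp_rw [Matrix.diag_apply, Dr_WW]
  rw [Finset.sum_comm]
  refine Finset.sum_congr rfl fun l _ => ?_
  by_cases hl : V.get l = j
  · simp only [if_pos hl]
    rw [Matrix.mul_apply]
    refine Finset.sum_congr rfl fun e _ => ?_
    ring
  · simp only [if_neg hl, Finset.sum_const_zero]

theorem ins_sum (j : J) (w : List J) (L : List (List J)) :
    ∑ a, ∑ b, WW k w b a * Dr k j a b (TT k L) = ((ins j w L).map (TT k)).sum := by
  induction L with
  | nil =>
    simp [TT_nil, ins]
  | cons V L ih =>
    rw [ins, List.map_append, List.sum_append, List.map_map, List.map_map]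
    have e1 : ((ins j w L).map (TT k ∘ (V :: ·))).sum =
        (WW k V).trace * ∑ a, ∑ b, WW k w b a * Dr k j a b (TT k L) := by
      have : (TT k ∘ (V :: ·)) = fun Q => (WW k V).trace * TT k Q := by
        ext1 Q
        exact TT_cons k V Q
      rw [ih, ← List.sum_map_mul_left, this]
    rw [e1, list_sum_filter (fun l : Fin V.length => V.get l = j)]
    have e2 : ∀ l : Fin V.length, (if V.get l = j then
        (TT k ∘ fun l : Fin V.length => (w ++ (V.drop (l + 1) ++ V.take l)) :: L) l else 0) =
        ∑ a, ∑ b, WW k w b a * ((if V.get l = j then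
          (WW k (V.drop (l + 1)) * WW k (V.take l)) a b else 0) * TT k L) := by
      intro l
      by_cases hl : V.get l = j
      · simp only [if_pos hl, Function.comp_apply]
        rw [TT_cons, WW_append, WW_append, Matrix.trace, Finset.sum_mul, Finset.sum_comm]
        refine Finset.sum_congr rfl fun a _ => ?_
        rw [Matrix.diag_apply, Matrix.mul_apply, Finset.sum_mul]
        refine Finset.sum_congr rfl fun b _ => ?_
        ring
      · simp only [if_neg hl, zero_mul, mul_zero, Finset.sum_const_zero]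
    simp_rw [e2]
    have e3 : (∑ l : Fin V.length, ∑ a, ∑ b, WW k w b a * ((if V.get l = j then
          (WW k (V.drop (l + 1)) * WW k (V.take l)) a b else 0) * TT k L)) =
        ∑ a, ∑ b, ∑ l : Fin V.length, WW k w b a * ((if V.get l = j then
          (WW k (V.drop (l + 1)) * WW k (V.take l)) a b else 0) * TT k L) := by
      rw [Finset.sum_comm]
      refine Finset.sum_congr rfl fun a _ => ?_
      rw [Finset.sum_comm]
    rw [e3, Finset.mul_sum, ← Finset.sum_add_distrib]
    refine Finset.sum_congr rfl fun a _ => ?_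
    rw [Finset.mul_sum, ← Finset.sum_add_distrib]
    refine Finset.sum_congr rfl fun b _ => ?_
    rw [TT_cons, Derivation.leibniz, Dr_trace, smul_eq_mul, smul_eq_mul, ← Finset.mul_sum,
      ← Finset.sum_mul]
    ring

/-- unnormalised recursion -/
theorem EE_TT_cons (j : J) (w : List J) (L : List (List J)) :
    EE k (TT k ((j :: w) :: L)) = (k : ℂ)⁻¹ * (∑ l : Fin w.length,
      if w.get l = j then EE k (TT k (w.take l :: w.drop (l + 1) :: L)) else 0)
      + (k : ℂ)⁻¹ * ((ins j w L).map fun Q => EE k (TT k Q)).sum := by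
  have h1 : TT k ((j :: w) :: L) = ∑ a, ∑ b, Hm k j a b * (WW k w b a * TT k L) := by
    rw [TT_cons, WW_cons, Matrix.trace, Finset.sum_mul]
    refine Finset.sum_congr rfl fun a _ => ?_
    rw [Matrix.diag_apply, Matrix.mul_apply, Finset.sum_mul]
    refine Finset.sum_congr rfl fun b _ => ?_
    ring
  have h2 : ((ins j w L).map fun Q => EE k (TT k Q)).sum =
      EE k (∑ a, ∑ b, WW k w b a * Dr k j a b (TT k L)) := by
    rw [ins_sum, map_list_sum, List.map_map]
    rfl
  have h3 : (∑ l : Fin w.length,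
      if w.get l = j then EE k (TT k (w.take l :: w.drop (l + 1) :: L)) else 0) =
      EE k (∑ a, ∑ b, Dr k j a b (WW k w b a) * TT k L) := by
    have h0 : ∀ l : Fin w.length,
        (if w.get l = j then EE k (TT k (w.take l :: w.drop (l + 1) :: L)) else 0) =
        EE k (if w.get l = j then TT k (w.take l :: w.drop (l + 1) :: L) else 0) := by
      intro l
      by_cases hl : w.get l = j
      · rw [if_pos hl, if_pos hl]
      · rw [if_neg hl, if_neg hl, map_zero]
    simp_rw [h0]
    rw [← map_sum]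
    congr 1
    simp_rw [Dr_WW, Finset.sum_mul]
    have : ∀ a : Fin k, ∑ b : Fin k, ∑ l : Fin w.length,
        (if w.get l = j then WW k (w.take l) b b * WW k (w.drop (l + 1)) a a else 0) * TT k L =
        ∑ l : Fin w.length, ∑ b : Fin k,
        (if w.get l = j then WW k (w.take l) b b * WW k (w.drop (l + 1)) a a else 0) * TT k L :=
      fun a => Finset.sum_comm
    simp_rw [this]
    rw [Finset.sum_comm]
    refine Finset.sum_congr rfl fun l _ => ?_
    by_cases hl : w.get l = j
    · simp only [if_pos hl]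
      rw [TT_cons, TT_cons, ← mul_assoc, mul_comm (WW k (w.take l)).trace]
      simp only [Matrix.trace, Matrix.diag_apply]
      rw [Finset.sum_mul_sum, Finset.sum_mul]
      refine Finset.sum_congr rfl fun a _ => ?_
      rw [Finset.sum_mul]
      refine Finset.sum_congr rfl fun b _ => ?_
      ring
    · simp only [if_neg hl, zero_mul, Finset.sum_const_zero]
  rw [h1, h2, h3, map_sum, map_sum, map_sum, Finset.mul_sum, Finset.mul_sum,
    ← Finset.sum_add_distrib]
  refine Finset.sum_congr rfl fun a _ => ?_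
  rw [map_sum, map_sum, map_sum, Finset.mul_sum, Finset.mul_sum, ← Finset.sum_add_distrib]
  refine Finset.sum_congr rfl fun b _ => ?_
  rw [EE_Hm_mul, Derivation.leibniz, map_add, smul_eq_mul, smul_eq_mul, mul_comm (TT k L)]
  ring

end Mat

end Vale.Agent.P087
end
end

section

section

/-! Task G1. Convergence of moments of independent GUE matrices. -/

open MeasureTheory Filter ProbabilityTheory
open scoped ENNReal NNReal Topology

namespace Vale.Agent.P087

section Norm

variable {J : Type} [Fintype J] [DecidableEq J] (k : ℕ)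

/-- normalised joint moments `E ∏ tr_k (w)` -/
noncomputable def NN (L : List (List J)) : ℂ := (k : ℂ)⁻¹ ^ L.length * EE k (TT k L)

/-- the weight of a list of words -/
def wt (L : List (List J)) : ℕ := (L.map fun V => V.length + 1).sum

theorem wt_cons (V : List J) (L : List (List J)) : wt (V :: L) = V.length + 1 + wt L := by
  simp [wt]

theorem mem_ins (j : J) (w : List J) (L : List (List J)) :
    ∀ Q ∈ ins j w L, Q.length = L.length ∧ wt Q + 1 = wt L + w.length := by
  induction L with
  | nil => simp [ins]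
  | cons V L ih =>
    intro Q hQ
    rw [ins, List.mem_append, List.mem_map, List.mem_map] at hQ
    rcases hQ with ⟨l, _, rfl⟩ | ⟨Q', hQ', rfl⟩
    · have := l.2
      simp only [List.length_cons, wt_cons, List.length_append, List.length_drop,
        List.length_take]
      refine ⟨trivial, ?_⟩
      omega
    · have := ih Q' hQ'
      simp only [List.length_cons, wt_cons]
      omega

theorem NN_nil : NN k ([] : List (List J)) = 1 := by
  simp [NN, TT_nil, EE_one]

theorem NN_nil_cons (hk : k ≠ 0) (L : List (List J)) : NN k ([] :: L) = NN k L := by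
  have hk' : (k : ℂ) ≠ 0 := by exact_mod_cast hk
  have h1 : TT k (([] : List J) :: L) = (k : ℂ) • TT k L := by
    rw [TT_cons, WW_nil, Matrix.trace_one, Fintype.card_fin, Algebra.smul_def, map_natCast]
  rw [NN, NN, h1, map_smul, List.length_cons, pow_succ, smul_eq_mul]
  field_simp

theorem NN_cons (hk : k ≠ 0) (j : J) (w : List J) (L : List (List J)) :
    NN k ((j :: w) :: L) = (∑ l : Fin w.length,
      if w.get l = j then NN k (w.take l :: w.drop (l + 1) :: L) else 0)
      + (k : ℂ)⁻¹ ^ 2 * ((ins j w L).map fun Q => NN k Q).sum := by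
  have hk' : (k : ℂ) ≠ 0 := by exact_mod_cast hk
  rw [NN, EE_TT_cons, mul_add]
  congr 1
  · rw [← mul_assoc, Finset.mul_sum]
    refine Finset.sum_congr rfl fun l _ => ?_
    by_cases hl : w.get l = j
    · rw [if_pos hl, if_pos hl, NN]
      simp only [List.length_cons]
      ring
    · rw [if_neg hl, if_neg hl, mul_zero]
  · have : ((ins j w L).map fun Q => NN k Q) =
        (ins j w L).map fun Q => (k : ℂ)⁻¹ ^ L.length * EE k (TT k Q) := by
      apply List.map_congr_left
      intro Q hQ
      rw [NN, (mem_ins j w L Q hQ).1]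
    rw [this, List.sum_map_mul_left]
    simp only [List.length_cons]
    ring

theorem tendsto_list_sum {ι : Type*} (Ls : List ι) (f : ι → ℕ → ℂ) (g : ι → ℂ)
    (h : ∀ Q ∈ Ls, Tendsto (f Q) atTop (𝓝 (g Q))) :
    Tendsto (fun k => (Ls.map fun Q => f Q k).sum) atTop (𝓝 (Ls.map g).sum) := by
  induction Ls with
  | nil => simp
  | cons Q Ls ih =>
    simp only [List.map_cons, List.sum_cons]
    exact (h Q (by simp)).add (ih fun Q' hQ' => h Q' (by simp [hQ']))

omit [Fintype J] in
theorem semi_cons_gm (x : J) (w : List J) : semi (x :: w) = ∑ l : Fin w.length,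
    if w.get l = x then semi (w.take l) * semi (w.drop (l + 1)) else 0 := by
  rw [semi]

theorem tendsto_NN (n : ℕ) : ∀ L : List (List J), wt L ≤ n →
    Tendsto (fun k => NN k L) atTop (𝓝 ((L.map fun V => (semi V : ℂ)).prod)) := by
  induction n with
  | zero =>
    intro L hL
    cases L with
    | nil => simp [NN_nil]
    | cons V L => rw [wt_cons] at hL; omega
  | succ n ih =>
    intro L hL
    rcases L with _ | ⟨_ | ⟨j, w⟩, L⟩
    · simp [NN_nil]
    · rw [wt_cons] at hL
      have h1 := ih L (by simp at hL; omega)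
      have h2 : (fun k => NN k (([] : List J) :: L)) =ᶠ[atTop] fun k => NN k L := by
        filter_upwards [eventually_ne_atTop 0] with k hk
        exact NN_nil_cons k hk L
      rw [tendsto_congr' h2]
      simpa [semi] using h1
    · rw [wt_cons, List.length_cons] at hL
      have h2 : (fun k => NN k ((j :: w) :: L)) =ᶠ[atTop] fun k => (∑ l : Fin w.length,
          if w.get l = j then NN k (w.take l :: w.drop (l + 1) :: L) else 0)
          + (k : ℂ)⁻¹ ^ 2 * ((ins j w L).map fun Q => NN k Q).sum := by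
        filter_upwards [eventually_ne_atTop 0] with k hk
        exact NN_cons k hk j w L
      rw [tendsto_congr' h2]
      have h3 : Tendsto (fun k : ℕ => (k : ℂ)⁻¹ ^ 2 * ((ins j w L).map fun Q => NN k Q).sum)
          atTop (𝓝 (0 ^ 2 * ((ins j w L).map fun Q => (Q.map fun V => (semi V : ℂ)).prod).sum)) := by
        refine Tendsto.mul (Tendsto.pow ?_ 2) (tendsto_list_sum _ _ _ fun Q hQ => ?_)
        · exact tendsto_inv_atTop_nhds_zero_nat
        · apply ih
          have := (mem_ins j w L Q hQ).2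
          omega
      have h4 : Tendsto (fun k : ℕ => ∑ l : Fin w.length,
          if w.get l = j then NN k (w.take l :: w.drop (l + 1) :: L) else 0) atTop
          (𝓝 (∑ l : Fin w.length, if w.get l = j then
            ((w.take l :: w.drop (l + 1) :: L).map fun V => (semi V : ℂ)).prod else 0)) := by
        refine tendsto_finsetSum _ fun l _ => ?_
        by_cases hl : w.get l = j
        · simp only [if_pos hl]
          apply ih
          have := l.2
          simp only [wt_cons, List.length_take, List.length_drop]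
          omega
        · simp only [if_neg hl]
          exact tendsto_const_nhds
      convert h4.add h3 using 2
      rw [List.map_cons, List.prod_cons, semi_cons_gm]
      push_cast
      rw [Finset.sum_mul]
      simp only [ne_eq, OfNat.ofNat_ne_zero, not_false_eq_true, zero_pow, zero_mul, add_zero,
        List.map_cons, List.prod_cons]
      refine Finset.sum_congr rfl fun l _ => ?_
      by_cases hl : w.get l = j
      · simp only [if_pos hl]
        push_cast
        ring
      · simp only [if_neg hl]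
        push_cast
        ring

end Norm

section Herm

variable {J : Type} [Fintype J] [DecidableEq J] (k : ℕ)

theorem herm_conjTranspose (x : Fin k → Fin k → ℝ) : (herm k x).conjTranspose = herm k x := by
  ext a b
  rw [Matrix.conjTranspose_apply]
  unfold herm
  rcases lt_trichotomy a b with h | h | h
  · simp [h.ne, h.ne', h, h.not_gt]
  · subst h; simp
  · simp [h.ne, h.ne', h, h.not_gt, sub_eq_add_neg]

theorem ev_Hm (x : J → Fin k → Fin k → ℝ) (j : J) (a b : Fin k) :
    ev k x (Hm k j a b) = herm k (x j) a b := by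
  rw [herm_eq, Hm, map_sum]
  refine Finset.sum_congr rfl fun c _ => ?_
  rw [map_smul, ev, MvPolynomial.aeval_X, smul_eq_mul]

theorem ev_WW (x : J → Fin k → Fin k → ℝ) (w : List J) :
    (WW k w).map (ev k x) = (w.map fun j => herm k (x j)).prod := by
  induction w with
  | nil => simp [WW_nil]
  | cons j w ih =>
    rw [WW_cons, Matrix.map_mul, ih, List.map_cons, List.prod_cons]
    congr 1
    ext a b
    exact ev_Hm k x j a b

theorem ev_trace (x : J → Fin k → Fin k → ℝ) (w : List J) :
    ev k x (WW k w).trace = ((w.map fun j => herm k (x j)).prod).trace := by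
  rw [← ev_WW, Matrix.trace, Matrix.trace, map_sum]
  rfl

theorem conj_trace (x : J → Fin k → Fin k → ℝ) (w : List J) :
    (starRingEnd ℂ) ((w.map fun j => herm k (x j)).prod).trace =
      ((w.reverse.map fun j => herm k (x j)).prod).trace := by
  rw [starRingEnd_apply, ← Matrix.trace_conjTranspose, Matrix.conjTranspose_list_prod,
    List.map_map, List.map_reverse]
  congr 3
  apply List.map_congr_left
  intro j _
  exact herm_conjTranspose k (x j)

end Herm

theorem gue_moments {J : Type} [Fintype J] [DecidableEq J] (w : List J) :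
    Tendsto (fun k : ℕ => ∫ x, ‖(k : ℂ)⁻¹ * ((w.map fun j => herm k (x j)).prod).trace
      - (semi w : ℂ)‖ ^ 2 ∂(gue J k)) atTop (𝓝 0) := by
  have key : ∀ k : ℕ, ((∫ x, ‖(k : ℂ)⁻¹ * ((w.map fun j => herm k (x j)).prod).trace
      - (semi w : ℂ)‖ ^ 2 ∂(gue J k) : ℝ) : ℂ) =
      NN k [w, w.reverse] - semi w * NN k [w] - semi w * NN k [w.reverse]
        + semi w * semi w := by
    intro k
    have h1 : ∀ x : J → Fin k → Fin k → ℝ,
        ((‖(k : ℂ)⁻¹ * ((w.map fun j => herm k (x j)).prod).trace
      - (semi w : ℂ)‖ ^ 2 : ℝ) : ℂ) = ev k x ((k : ℂ)⁻¹ ^ 2 • TT k [w, w.reverse]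
        - (semi w * (k : ℂ)⁻¹) • TT k [w] - (semi w * (k : ℂ)⁻¹) • TT k [w.reverse]
        + ((semi w : ℂ) * semi w) • 1) := by
      intro x
      simp only [map_add, map_sub, map_smul, TT_cons, TT_nil, mul_one, map_mul, ev_trace,
        map_one, smul_eq_mul]
      rw [← conj_trace]
      push_cast
      rw [← Complex.mul_conj', map_sub, map_mul, Complex.conj_ofReal, map_inv₀,
        Complex.conj_natCast]
      ring
    have h2 : ((∫ x, ‖(k : ℂ)⁻¹ * ((w.map fun j => herm k (x j)).prod).trace
      - (semi w : ℂ)‖ ^ 2 ∂(gue J k) : ℝ) : ℂ) =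
        ∫ x, ((‖(k : ℂ)⁻¹ * ((w.map fun j => herm k (x j)).prod).trace
      - (semi w : ℂ)‖ ^ 2 : ℝ) : ℂ) ∂(gue J k) := (integral_ofReal (𝕜 := ℂ)).symm
    rw [h2]
    simp_rw [h1]
    rw [← EE_apply]
    simp only [map_add, map_sub, map_smul, smul_eq_mul, EE_one, NN, List.length_cons,
      List.length_nil]
    ring
  have hlim : Tendsto (fun k : ℕ => NN k [w, w.reverse] - semi w * NN k [w]
      - semi w * NN k [w.reverse] + (semi w : ℂ) * semi w) atTop
      (𝓝 (((([w, w.reverse] : List (List J)).map fun V => (semi V : ℂ)).prod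
        - semi w * (([w] : List (List J)).map fun V => (semi V : ℂ)).prod
        - semi w * (([w.reverse] : List (List J)).map fun V => (semi V : ℂ)).prod
        + (semi w : ℂ) * semi w))) :=
    ((((tendsto_NN _ _ le_rfl)).sub ((tendsto_NN _ _ le_rfl).const_mul _)).sub
      ((tendsto_NN _ _ le_rfl).const_mul _)).add_const _
  have h0 : (((([w, w.reverse] : List (List J)).map fun V => (semi V : ℂ)).prod
        - semi w * (([w] : List (List J)).map fun V => (semi V : ℂ)).prod
        - semi w * (([w.reverse] : List (List J)).map fun V => (semi V : ℂ)).prod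
        + (semi w : ℂ) * semi w)) = 0 := by
    simp
  rw [h0] at hlim
  simp_rw [← key] at hlim
  rw [← Complex.ofReal_zero] at hlim
  exact (Complex.continuous_re.tendsto _).comp hlim

end Vale.Agent.P087
end
end

section

section

/-! Task G2. Operator norm of a GUE matrix is bounded with high probability. -/

open MeasureTheory Filter ProbabilityTheory
open scoped ENNReal NNReal Topology

namespace Vale.Agent.P087

theorem herm_add (k : ℕ) (x y : Fin k → Fin k → ℝ) :
    herm k (x + y) = herm k x + herm k y := by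
  ext a b
  simp only [herm, Matrix.add_apply, Pi.add_apply]
  split_ifs <;> push_cast <;> ring

theorem herm_smul (k : ℕ) (r : ℝ) (x : Fin k → Fin k → ℝ) :
    herm k (r • x) = (r : ℂ) • herm k x := by
  ext a b
  simp only [herm, Matrix.smul_apply, Pi.smul_apply, smul_eq_mul]
  split_ifs <;> push_cast <;> ring

theorem norm_herm_entry (k : ℕ) (x : Fin k → Fin k → ℝ) (a b : Fin k) :
    ‖herm k x a b‖ ^ 2 ≤ x a b ^ 2 + x b a ^ 2 := by
  have h2 : ‖((Real.sqrt 2 : ℝ) : ℂ)‖ ^ 2 = 2 := by
    rw [Complex.norm_real, Real.norm_eq_abs, sq_abs, Real.sq_sqrt (by norm_num)]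
  unfold herm
  split_ifs with h h'
  · subst h
    rw [Complex.norm_real, Real.norm_eq_abs, sq_abs]
    nlinarith [sq_nonneg (x a a)]
  · rw [norm_div, div_pow, h2, Complex.sq_norm, Complex.normSq_apply]
    simp
    nlinarith [sq_nonneg (x a b), sq_nonneg (x b a)]
  · rw [norm_div, div_pow, h2, Complex.sq_norm, Complex.normSq_apply]
    simp
    nlinarith [sq_nonneg (x a b), sq_nonneg (x b a)]

theorem norm_toEuclideanCLM_apply_sq_le (k : ℕ) (A : Matrix (Fin k) (Fin k) ℂ)
    (c : EuclideanSpace ℂ (Fin k)) :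
    ‖Matrix.toEuclideanCLM (n := Fin k) (𝕜 := ℂ) A c‖ ^ 2 ≤
      (∑ a, ∑ b, ‖A a b‖ ^ 2) * ‖c‖ ^ 2 := by
  rw [EuclideanSpace.norm_sq_eq, EuclideanSpace.norm_sq_eq, Finset.sum_mul]
  refine Finset.sum_le_sum fun a _ => ?_
  have h1 : (Matrix.toEuclideanCLM (n := Fin k) (𝕜 := ℂ) A c) a = ∑ b, A a b * c b := by
    rfl
  rw [h1]
  calc ‖∑ b, A a b * c b‖ ^ 2 ≤ (∑ b, ‖A a b‖ * ‖c b‖) ^ 2 := by
        gcongr
        refine (norm_sum_le _ _).trans (le_of_eq ?_)
        simp
    _ ≤ _ := Finset.sum_mul_sq_le_sq_mul_sq _ _ _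

theorem norm_herm_apply_sq_le (k : ℕ) (x : Fin k → Fin k → ℝ) (c : EuclideanSpace ℂ (Fin k)) :
    ‖Matrix.toEuclideanCLM (n := Fin k) (𝕜 := ℂ) (herm k x) c‖ ^ 2 ≤
      2 * (∑ a, ∑ b, x a b ^ 2) * ‖c‖ ^ 2 := by
  refine (norm_toEuclideanCLM_apply_sq_le k (herm k x) c).trans ?_
  gcongr
  calc ∑ a, ∑ b, ‖herm k x a b‖ ^ 2 ≤ ∑ a, ∑ b, (x a b ^ 2 + x b a ^ 2) :=
        Finset.sum_le_sum fun a _ => Finset.sum_le_sum fun b _ => norm_herm_entry k x a b
    _ = ∑ a, ∑ b, x a b ^ 2 + ∑ a, ∑ b, x b a ^ 2 := by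
        simp only [Finset.sum_add_distrib]
    _ = 2 * ∑ a, ∑ b, x a b ^ 2 := by
        rw [Finset.sum_comm (f := fun a b => x b a ^ 2)]
        ring

/-- the real linear functional `x ↦ Re ⟨d, H(x) c⟩` -/
noncomputable def hermForm (k : ℕ) (c d : EuclideanSpace ℂ (Fin k)) :
    (Fin k → Fin k → ℝ) →ₗ[ℝ] ℝ where
  toFun x := (inner ℂ d (Matrix.toEuclideanCLM (n := Fin k) (𝕜 := ℂ) (herm k x) c)).re
  map_add' x y := by
    rw [herm_add, map_add, add_apply, inner_add_right, Complex.add_re]
  map_smul' r x := by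
    rw [herm_smul, map_smul, smul_apply, inner_smul_right]
    simp

theorem hermForm_apply (k : ℕ) (c d : EuclideanSpace ℂ (Fin k)) (x : Fin k → Fin k → ℝ) :
    hermForm k c d x = (inner ℂ d (Matrix.toEuclideanCLM (n := Fin k) (𝕜 := ℂ) (herm k x) c)).re :=
  rfl

/-- coefficients of `hermForm` -/
noncomputable def hermCoef (k : ℕ) (c d : EuclideanSpace ℂ (Fin k)) (a b : Fin k) : ℝ :=
  hermForm k c d (Pi.single a (Pi.single b 1))

theorem hermForm_eq_sum (k : ℕ) (c d : EuclideanSpace ℂ (Fin k)) (x : Fin k → Fin k → ℝ) :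
    hermForm k c d x = ∑ a, ∑ b, x a b * hermCoef k c d a b := by
  have hx : x = ∑ a, ∑ b, x a b • (Pi.single a (Pi.single b (1 : ℝ)) : Fin k → Fin k → ℝ) := by
    ext a b
    simp [Finset.sum_apply, Pi.single_apply, ite_apply]
  conv_lhs => rw [hx]
  simp [map_sum, hermCoef]

theorem sum_hermCoef_sq_le (k : ℕ) (c d : EuclideanSpace ℂ (Fin k)) :
    ∑ a, ∑ b, hermCoef k c d a b ^ 2 ≤ 2 * ‖c‖ ^ 2 * ‖d‖ ^ 2 := by
  set S := ∑ a, ∑ b, hermCoef k c d a b ^ 2 with hS
  have hS0 : 0 ≤ S := Finset.sum_nonneg fun a _ => Finset.sum_nonneg fun b _ => sq_nonneg _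
  have h1 : hermForm k c d (hermCoef k c d) = S := by
    rw [hermForm_eq_sum, hS]
    refine Finset.sum_congr rfl fun a _ => Finset.sum_congr rfl fun b _ => ?_
    ring
  have h2 := norm_herm_apply_sq_le k (hermCoef k c d) c
  have h3 : |hermForm k c d (hermCoef k c d)| ≤
      ‖d‖ * ‖Matrix.toEuclideanCLM (n := Fin k) (𝕜 := ℂ) (herm k (hermCoef k c d)) c‖ := by
    rw [hermForm_apply]
    exact (Complex.abs_re_le_norm _).trans (norm_inner_le_norm _ _)
  rw [h1, abs_of_nonneg hS0] at h3
  rw [← hS] at h2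
  clear_value S
  generalize ‖Matrix.toEuclideanCLM (n := Fin k) (𝕜 := ℂ) (herm k (hermCoef k c d)) c‖ = N at h2 h3
  generalize ‖d‖ = D at *
  generalize ‖c‖ = C at *
  have h4 : S ^ 2 ≤ (2 * C ^ 2 * D ^ 2) * S := by
    calc S ^ 2 ≤ (D * N) ^ 2 := by gcongr
      _ = D ^ 2 * N ^ 2 := by ring
      _ ≤ D ^ 2 * (2 * S * C ^ 2) := by gcongr
      _ = _ := by ring
  rcases hS0.eq_or_lt with h | h
  · rw [← h]; positivity
  · nlinarith

theorem mgf_sum_gaussian (k : ℕ) (v : ℝ≥0) (α : Fin k → Fin k → ℝ) (t : ℝ) :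
    mgf (fun x : Fin k → Fin k → ℝ => ∑ a, ∑ b, x a b * α a b)
      (Measure.pi fun _ : Fin k => Measure.pi fun _ : Fin k => gaussianReal 0 v) t =
      Real.exp (v * t ^ 2 / 2 * ∑ a, ∑ b, α a b ^ 2) := by
  unfold mgf
  have h1 : ∀ x : Fin k → Fin k → ℝ, Real.exp (t * ∑ a, ∑ b, x a b * α a b) =
      ∏ a, ∏ b, Real.exp ((t * α a b) * x a b) := by
    intro x
    simp only [← Real.exp_sum, Finset.mul_sum]
    congr 1
    refine Finset.sum_congr rfl fun a _ => Finset.sum_congr rfl fun b _ => ?_
    ring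
  simp only [h1]
  rw [integral_fintype_prod_eq_prod (𝕜 := ℝ)
    (f := fun a (y : Fin k → ℝ) => ∏ b, Real.exp ((t * α a b) * y b))]
  have h2 : ∀ a, ∫ y : Fin k → ℝ, ∏ b, Real.exp ((t * α a b) * y b)
      ∂(Measure.pi fun _ : Fin k => gaussianReal 0 v) =
      ∏ b, Real.exp (v * (t * α a b) ^ 2 / 2) := by
    intro a
    rw [integral_fintype_prod_eq_prod (𝕜 := ℝ)
      (f := fun b (z : ℝ) => Real.exp ((t * α a b) * z))]
    refine Finset.prod_congr rfl fun b _ => ?_
    have := congrFun (mgf_fun_id_gaussianReal (μ := 0) (v := v)) (t * α a b)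
    unfold mgf at this
    simpa using this
  refine (Finset.prod_congr rfl fun a _ => h2 a).trans ?_
  simp only [← Real.exp_sum]
  congr 1
  rw [Finset.mul_sum]
  refine Finset.sum_congr rfl fun a _ => ?_
  rw [Finset.mul_sum]
  refine Finset.sum_congr rfl fun b _ => ?_
  ring

theorem gaussian_tail (k : ℕ) (hk : 0 < k) (α : Fin k → Fin k → ℝ) {V M : ℝ} (hM : 0 ≤ M)
    (hV : 0 < V) (hα : ∑ a, ∑ b, α a b ^ 2 ≤ V) :
    (Measure.pi fun _ : Fin k => Measure.pi fun _ : Fin k =>
        gaussianReal 0 ((k : ℝ≥0)⁻¹)).real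
      {x : Fin k → Fin k → ℝ | M ≤ ∑ a, ∑ b, x a b * α a b} ≤
      Real.exp (-(k * M ^ 2 / (2 * V))) := by
  set μ := (Measure.pi fun _ : Fin k => Measure.pi fun _ : Fin k =>
        gaussianReal 0 ((k : ℝ≥0)⁻¹)) with hμ
  have hk' : (0 : ℝ) < k := by exact_mod_cast hk
  set t : ℝ := k * M / V with ht
  have ht0 : 0 ≤ t := by positivity
  have hm := mgf_sum_gaussian k ((k : ℝ≥0)⁻¹) α t
  rw [← hμ] at hm
  have hint : Integrable (fun x : Fin k → Fin k → ℝ =>
      Real.exp (t * ∑ a, ∑ b, x a b * α a b)) μ := by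
    rw [← mgf_pos_iff (X := fun x : Fin k → Fin k → ℝ => ∑ a, ∑ b, x a b * α a b), hm]
    exact Real.exp_pos _
  refine (measure_ge_le_exp_mul_mgf M ht0 hint).trans ?_
  rw [hm, ← Real.exp_add]
  apply Real.exp_le_exp.mpr
  have hkk : (((k : ℝ≥0)⁻¹ : ℝ≥0) : ℝ) = (k : ℝ)⁻¹ := by simp
  rw [hkk]
  calc -t * M + (k : ℝ)⁻¹ * t ^ 2 / 2 * ∑ a, ∑ b, α a b ^ 2
      ≤ -t * M + (k : ℝ)⁻¹ * t ^ 2 / 2 * V := by gcongr
    _ = -(k * M ^ 2 / (2 * V)) := by
        rw [ht]
        field_simp
        ring

theorem exists_net (E : Type*) [NormedAddCommGroup E] [NormedSpace ℝ E]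
    [FiniteDimensional ℝ E] :
    ∃ s : Finset E, (∀ c ∈ s, ‖c‖ ≤ 2) ∧ s.card ≤ 5 ^ Module.finrank ℝ E ∧
      ∀ v : E, ‖v‖ ≤ 2 → ∃ c ∈ s, ‖v - c‖ ≤ 1 := by
  classical
  let P : Finset E → Prop := fun s => (∀ c ∈ s, ‖c‖ ≤ 2) ∧
    ∀ c ∈ s, ∀ d ∈ s, c ≠ d → 1 ≤ ‖c - d‖
  let Q : ℕ → Prop := fun n => ∃ s : Finset E, P s ∧ s.card = n
  have hQ0 : Q 0 := ⟨∅, by simp [P], by simp⟩
  have hbd : ∀ n, Q n → n ≤ 5 ^ Module.finrank ℝ E := by
    rintro n ⟨s, hs, rfl⟩
    exact Besicovitch.card_le_of_separated s hs.1 hs.2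
  set n := Nat.findGreatest Q (5 ^ Module.finrank ℝ E) with hn
  have hQn : Q n := Nat.findGreatest_spec (P := Q) (Nat.zero_le _) hQ0
  obtain ⟨s, hs, hcard⟩ := hQn
  refine ⟨s, hs.1, by rw [hcard]; exact hbd n ⟨s, hs, hcard⟩, ?_⟩
  intro v hv
  by_contra hcon
  push Not at hcon
  have hvs : v ∉ s := by
    intro h
    have := hcon v h
    simp at this
    linarith
  have hP : P (insert v s) := by
    refine ⟨?_, ?_⟩
    · intro c hc
      rcases Finset.mem_insert.mp hc with rfl | hc
      · exact hv
      · exact hs.1 c hc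
    · intro c hc d hd hcd
      rcases Finset.mem_insert.mp hc with hc' | hc' <;>
        rcases Finset.mem_insert.mp hd with hd' | hd'
      · exact absurd (hc'.trans hd'.symm) hcd
      · rw [hc']; exact (hcon d hd').le
      · rw [norm_sub_rev, hd']; exact (hcon c hc').le
      · exact hs.2 c hc' d hd' hcd
  have hQ1 : Q (n + 1) := ⟨insert v s, hP, by rw [Finset.card_insert_of_notMem hvs, hcard]⟩
  have := Nat.le_findGreatest (P := Q) (hbd _ hQ1) hQ1
  omega

theorem norm_le_of_net {E : Type*} [NormedAddCommGroup E] [InnerProductSpace ℂ E]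
    (s : Finset E) (hnet : ∀ v : E, ‖v‖ ≤ 2 → ∃ c ∈ s, ‖v - c‖ ≤ 1) {M : ℝ} (w : E)
    (hM : ∀ d ∈ s, (inner ℂ d w).re ≤ M) : ‖w‖ ≤ M := by
  rcases eq_or_ne w 0 with rfl | hw
  · obtain ⟨c, hc, -⟩ := hnet 0 (by simp)
    simpa using hM c hc
  · have hw' : 0 < ‖w‖ := norm_pos_iff.mpr hw
    obtain ⟨d, hd, hd1⟩ := hnet (((2 / ‖w‖ : ℝ) : ℂ) • w) (by
      rw [norm_smul, Complex.norm_real, Real.norm_of_nonneg (by positivity)]
      field_simp
      exact le_rfl)
    have h1 : (inner ℂ (((2 / ‖w‖ : ℝ) : ℂ) • w) w).re = 2 * ‖w‖ := by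
      rw [inner_smul_left, Complex.conj_ofReal, Complex.re_ofReal_mul,
        show (inner ℂ w w).re = ‖w‖ ^ 2 from inner_self_eq_norm_sq (𝕜 := ℂ) w]
      field_simp
    have h2 : (inner ℂ (((2 / ‖w‖ : ℝ) : ℂ) • w) w).re =
        (inner ℂ d w).re + (inner ℂ (((2 / ‖w‖ : ℝ) : ℂ) • w - d) w).re := by
      rw [inner_sub_left, Complex.sub_re]; ring
    have h3 : (inner ℂ (((2 / ‖w‖ : ℝ) : ℂ) • w - d) w).re ≤ 1 * ‖w‖ := by
      refine (Complex.re_le_norm _).trans ((norm_inner_le_norm _ _).trans ?_)
      gcongr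
    have h4 := hM d hd
    linarith

theorem opNorm_le_of_net {E : Type*} [NormedAddCommGroup E] [InnerProductSpace ℂ E]
    (T : E →L[ℂ] E) (s : Finset E) (hnet : ∀ v : E, ‖v‖ ≤ 2 → ∃ c ∈ s, ‖v - c‖ ≤ 1) {M : ℝ}
    (hM : ∀ c ∈ s, ∀ d ∈ s, (inner ℂ d (T c)).re ≤ M) : ‖T‖ ≤ M := by
  have h1 : ∀ c ∈ s, ‖T c‖ ≤ M := fun c hc => norm_le_of_net s hnet (T c) (hM c hc)
  have hM0 : 0 ≤ M := by
    obtain ⟨c, hc, -⟩ := hnet 0 (by simp)
    exact (norm_nonneg _).trans (h1 c hc)
  have h2 : ‖T‖ ≤ (M + ‖T‖) / 2 := by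
    refine T.opNorm_le_bound (by positivity) fun v => ?_
    rcases eq_or_ne v 0 with rfl | hv
    · simp
    have hv' : 0 < ‖v‖ := norm_pos_iff.mpr hv
    obtain ⟨c, hc, hc1⟩ := hnet (((2 / ‖v‖ : ℝ) : ℂ) • v) (by
      rw [norm_smul, Complex.norm_real, Real.norm_of_nonneg (by positivity)]
      field_simp
      exact le_rfl)
    have h3 : ‖T (((2 / ‖v‖ : ℝ) : ℂ) • v)‖ = 2 / ‖v‖ * ‖T v‖ := by
      rw [map_smul, norm_smul, Complex.norm_real, Real.norm_of_nonneg (by positivity)]
    have h4 : ‖T (((2 / ‖v‖ : ℝ) : ℂ) • v)‖ ≤ M + ‖T‖ := by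
      have : T (((2 / ‖v‖ : ℝ) : ℂ) • v) = T c + T (((2 / ‖v‖ : ℝ) : ℂ) • v - c) := by
        rw [map_sub]; abel
      rw [this]
      refine (norm_add_le _ _).trans (add_le_add (h1 c hc) ((T.le_opNorm _).trans ?_))
      calc ‖T‖ * ‖((2 / ‖v‖ : ℝ) : ℂ) • v - c‖ ≤ ‖T‖ * 1 := by gcongr
        _ = ‖T‖ := mul_one _
    rw [h3] at h4
    have h5 : ‖T v‖ = ‖v‖ / 2 * (2 / ‖v‖ * ‖T v‖) := by field_simp
    rw [h5]
    calc ‖v‖ / 2 * (2 / ‖v‖ * ‖T v‖) ≤ ‖v‖ / 2 * (M + ‖T‖) := by gcongr
      _ = (M + ‖T‖) / 2 * ‖v‖ := by ring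
  linarith

theorem gue_norm_bound (k : ℕ) (hk : 0 < k) :
    (Measure.pi fun _ : Fin k => Measure.pi fun _ : Fin k => gaussianReal 0 ((k : ℝ≥0)⁻¹)).real
        {x : Fin k → Fin k → ℝ | 64 < ‖Matrix.toEuclideanCLM (n := Fin k) (𝕜 := ℂ) (herm k x)‖} ≤
      (1 / 2) ^ k := by
  set μ := (Measure.pi fun _ : Fin k => Measure.pi fun _ : Fin k =>
        gaussianReal 0 ((k : ℝ≥0)⁻¹)) with hμ
  have : IsProbabilityMeasure μ := by rw [hμ]; infer_instance
  obtain ⟨s, hs2, hcard, hnet⟩ := exists_net (EuclideanSpace ℂ (Fin k))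
  have hfin : Module.finrank ℝ (EuclideanSpace ℂ (Fin k)) = 2 * k := by
    rw [finrank_real_of_complex]
    simp
  have hsub : {x : Fin k → Fin k → ℝ |
      64 < ‖Matrix.toEuclideanCLM (n := Fin k) (𝕜 := ℂ) (herm k x)‖} ⊆
      ⋃ p ∈ s ×ˢ s, {x : Fin k → Fin k → ℝ | 64 ≤ ∑ a, ∑ b, x a b * hermCoef k p.1 p.2 a b} := by
    intro x hx
    by_contra hcon
    simp only [Set.mem_iUnion, Set.mem_ofPred_eq, not_exists, not_le] at hcon hx
    have := opNorm_le_of_net (Matrix.toEuclideanCLM (n := Fin k) (𝕜 := ℂ) (herm k x)) s hnet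
      (M := 64) (by
        intro c hc d hd
        have h := (hcon (c, d) (Finset.mk_mem_product hc hd)).le
        rw [← hermForm_eq_sum] at h
        exact h)
    linarith
  calc μ.real {x : Fin k → Fin k → ℝ |
      64 < ‖Matrix.toEuclideanCLM (n := Fin k) (𝕜 := ℂ) (herm k x)‖}
      ≤ μ.real (⋃ p ∈ s ×ˢ s, {x : Fin k → Fin k → ℝ |
          64 ≤ ∑ a, ∑ b, x a b * hermCoef k p.1 p.2 a b}) :=
        measureReal_mono hsub (measure_ne_top _ _)
    _ ≤ ∑ p ∈ s ×ˢ s, μ.real {x : Fin k → Fin k → ℝ |
          64 ≤ ∑ a, ∑ b, x a b * hermCoef k p.1 p.2 a b} := measureReal_biUnion_finset_le _ _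
    _ ≤ ∑ p ∈ s ×ˢ s, Real.exp (-(k * 64 ^ 2 / (2 * 32))) := by
        refine Finset.sum_le_sum fun p hp => ?_
        refine gaussian_tail k hk _ (by norm_num) (by norm_num) ?_
        refine (sum_hermCoef_sq_le k p.1 p.2).trans ?_
        have h1 := hs2 _ (Finset.mem_product.mp hp).1
        have h2 := hs2 _ (Finset.mem_product.mp hp).2
        calc 2 * ‖p.1‖ ^ 2 * ‖p.2‖ ^ 2 ≤ 2 * 2 ^ 2 * 2 ^ 2 := by gcongr
          _ = 32 := by norm_num
    _ = (s.card : ℝ) ^ 2 * Real.exp (-(k * 64 ^ 2 / (2 * 32))) := by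
        rw [Finset.sum_const, Finset.card_product, nsmul_eq_mul]
        push_cast
        ring
    _ ≤ ((5 : ℝ) ^ (2 * k)) ^ 2 * Real.exp (-(k * 64 ^ 2 / (2 * 32))) := by
        gcongr
        rw [hfin] at hcard
        exact_mod_cast hcard
    _ = (625 * Real.exp (-64)) ^ k := by
        rw [mul_pow, ← Real.exp_nat_mul]
        congr 1
        · rw [← pow_mul, show (625 : ℝ) = 5 ^ 4 by norm_num, ← pow_mul]
          congr 1
          ring
        · congr 1
          ring
    _ ≤ (1 / 2) ^ k := by
        gcongr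
        rw [Real.exp_neg]
        have h1 : (1250 : ℝ) ≤ Real.exp 64 := by
          have h2 : (2 : ℝ) ≤ Real.exp 1 := by
            have := Real.add_one_le_exp (1 : ℝ)
            linarith
          calc (1250 : ℝ) ≤ 2 ^ 64 := by norm_num
            _ ≤ (Real.exp 1) ^ 64 := by gcongr
            _ = Real.exp 64 := by rw [← Real.exp_nat_mul]; norm_num
        have h3 := Real.exp_pos 64
        rw [← div_eq_mul_inv, div_le_div_iff₀ h3 (by norm_num)]
        linarith

theorem gue_norm : ∃ R0 : ℝ, 0 < R0 ∧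
    Tendsto (fun k : ℕ =>
      (Measure.pi fun _ : Fin k => Measure.pi fun _ : Fin k => gaussianReal 0 ((k : ℝ≥0)⁻¹))
        {x : Fin k → Fin k → ℝ | R0 < ‖Matrix.toEuclideanCLM (n := Fin k) (𝕜 := ℂ) (herm k x)‖})
      atTop (𝓝 0) := by
  refine ⟨64, by norm_num, ?_⟩
  have h0 : Tendsto (fun k : ℕ => ENNReal.ofReal ((1 / 2 : ℝ) ^ k)) atTop (𝓝 0) := by
    have h := tendsto_pow_atTop_nhds_zero_of_lt_one (r := (1 / 2 : ℝ)) (by norm_num) (by norm_num)
    simpa using ENNReal.tendsto_ofReal h
  refine tendsto_of_tendsto_of_tendsto_of_le_of_le' tendsto_const_nhds h0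
    (Eventually.of_forall fun _ => zero_le) ?_
  filter_upwards [eventually_gt_atTop 0] with k hk
  rw [← ofReal_measureReal (by finiteness)]
  exact ENNReal.ofReal_le_ofReal (gue_norm_bound k hk)

end Vale.Agent.P087
end
end

section

section

/-! Task G3, part 1: measure theory. Bounded density of product Gaussians, shears. -/

open MeasureTheory Filter ProbabilityTheory
open scoped ENNReal NNReal Topology

namespace Vale.Agent.P087

/-- comparison of product measures -/
theorem pi_le_smul {ι : Type*} [Fintype ι] {α : ι → Type*} [∀ i, MeasurableSpace (α i)]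
    (μ ν : ∀ i, Measure (α i)) (D : ι → ℝ≥0∞) (hD0 : ∀ i, D i ≠ 0) (hDt : ∀ i, D i ≠ ∞)
    (h : ∀ i, μ i ≤ D i • ν i) : Measure.pi μ ≤ (∏ i, D i) • Measure.pi ν := by
  have hP0 : (∏ i, D i) ≠ 0 := Finset.prod_ne_zero_iff.2 (fun i _ => hD0 i)
  have hPt : (∏ i, D i) ≠ ∞ := ENNReal.prod_ne_top (fun i _ => hDt i)
  have key : (∏ i, D i)⁻¹ • OuterMeasure.pi (fun i => (μ i).toOuterMeasure) ≤
      OuterMeasure.pi (fun i => (ν i).toOuterMeasure) := by
    rw [OuterMeasure.le_pi]
    intro s _
    rw [_root_.smul_apply, smul_eq_mul]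
    calc (∏ i, D i)⁻¹ * OuterMeasure.pi (fun i => (μ i).toOuterMeasure) (Set.univ.pi s)
        ≤ (∏ i, D i)⁻¹ * ∏ i, (μ i).toOuterMeasure (s i) := by
          gcongr
          exact OuterMeasure.pi_pi_le _ s
      _ ≤ (∏ i, D i)⁻¹ * ∏ i, (D i * (ν i).toOuterMeasure (s i)) := by
          gcongr with i _
          have := h i (s i)
          simpa using this
      _ = ∏ i, (ν i).toOuterMeasure (s i) := by
          rw [Finset.prod_mul_distrib, ← mul_assoc, ENNReal.inv_mul_cancel hP0 hPt, one_mul]
  refine Measure.le_iff.2 (fun s hs => ?_)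
  rw [Measure.smul_apply, smul_eq_mul, Measure.pi, Measure.pi, toMeasure_apply _ _ hs,
    toMeasure_apply _ _ hs]
  have h1 := key s
  rw [_root_.smul_apply, smul_eq_mul] at h1
  calc OuterMeasure.pi (fun i => (μ i).toOuterMeasure) s
      = (∏ i, D i) * ((∏ i, D i)⁻¹ * OuterMeasure.pi (fun i => (μ i).toOuterMeasure) s) := by
        rw [← mul_assoc, ENNReal.mul_inv_cancel hP0 hPt, one_mul]
    _ ≤ (∏ i, D i) * OuterMeasure.pi (fun i => (ν i).toOuterMeasure) s := by gcongr

/-- density bound of a Gaussian -/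
theorem gaussianReal_le (v : ℝ≥0) (hv : v ≠ 0) :
    gaussianReal 0 v ≤ ENNReal.ofReal (Real.sqrt (2 * Real.pi * v))⁻¹ • volume := by
  rw [gaussianReal_of_var_ne_zero 0 hv]
  refine Measure.le_iff.2 (fun s hs => ?_)
  rw [withDensity_apply _ hs, Measure.smul_apply, smul_eq_mul]
  calc ∫⁻ a in s, gaussianPDF 0 v a ≤ ∫⁻ _a in s, ENNReal.ofReal (Real.sqrt (2 * Real.pi * v))⁻¹ := by
        refine lintegral_mono (fun a => ?_)
        rw [gaussianPDF, gaussianPDFReal_def]
        refine ENNReal.ofReal_le_ofReal ?_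
        have h1 : Real.exp (-(a - 0) ^ 2 / (2 * v)) ≤ 1 := by
          rw [Real.exp_le_one_iff]
          apply div_nonpos_of_nonpos_of_nonneg
          · nlinarith [sq_nonneg (a - 0)]
          · positivity
        calc (Real.sqrt (2 * Real.pi * v))⁻¹ * Real.exp (-(a - 0) ^ 2 / (2 * v))
            ≤ (Real.sqrt (2 * Real.pi * v))⁻¹ * 1 := by gcongr
          _ = _ := mul_one _
    _ = _ := by rw [setLIntegral_const]

/-- shear invariance of the volume -/
theorem volume_shear {ι : Type*} [Fintype ι] (p : ι → Prop) [DecidablePred p] (k : ℕ)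
    (F : (ι → Fin k → Fin k → ℝ) → ι → Fin k → Fin k → ℝ) (hF : Measurable F)
    (hFp : ∀ x i, p i → F x i = 0) (hFdep : ∀ x y, (∀ i, p i → x i = y i) → F x = F y) :
    MeasurePreserving (fun x i => x i + F x i)
      (volume : Measure (ι → Fin k → Fin k → ℝ)) volume := by
  classical
  let X : Type := Fin k → Fin k → ℝ
  let e := MeasurableEquiv.piEquivPiSubtypeProd (fun _ : ι => Fin k → Fin k → ℝ) p
  have he : MeasurePreserving e volume volume :=
    volume_preserving_piEquivPiSubtypeProd (fun _ : ι => Fin k → Fin k → ℝ) p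
  -- extension by zero
  let z : ({i // p i} → Fin k → Fin k → ℝ) → ι → Fin k → Fin k → ℝ := fun u => e.symm (u, 0)
  have hz : Measurable z := e.symm.measurable.comp (measurable_id.prodMk measurable_const)
  let G : ({i // p i} → Fin k → Fin k → ℝ) → ({i // ¬ p i} → Fin k → Fin k → ℝ) →
      ({i // ¬ p i} → Fin k → Fin k → ℝ) := fun u v =>
    v + fun i : {i // ¬ p i} => F (z u) i
  have hG : MeasurePreserving (fun q : ({i // p i} → Fin k → Fin k → ℝ) ×
      ({i // ¬ p i} → Fin k → Fin k → ℝ) => (id q.1, G q.1 q.2))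
      (volume.prod volume) (volume.prod volume) := by
    refine (MeasurePreserving.id volume).skew_product ?_ (Eventually.of_forall fun u => ?_)
    · refine Measurable.add measurable_snd ?_
      refine measurable_pi_lambda _ (fun i => ?_)
      exact (measurable_pi_apply (i : ι)).comp (hF.comp (hz.comp measurable_fst))
    · have h1 : (volume : Measure (Fin k → ℝ)).IsAddRightInvariant := inferInstance
      have h2 : (volume : Measure (Fin k → Fin k → ℝ)).IsAddRightInvariant :=
        Measure.pi.isAddRightInvariant _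
      have h3 : (volume : Measure ({i // ¬ p i} → Fin k → Fin k → ℝ)).IsAddRightInvariant :=
        Measure.pi.isAddRightInvariant _
      exact map_add_right_eq_self volume _
  have h := (he.symm e).comp (hG.comp he)
  have hfun : (fun (x : ι → Fin k → Fin k → ℝ) i => x i + F x i) =
      e.symm ∘ (fun q => (id q.1, G q.1 q.2)) ∘ e := by
    funext x
    rw [Function.comp_apply, Function.comp_apply, MeasurableEquiv.eq_symm_apply]
    have hzx : F (z (fun i => x i)) = F x := by
      apply hFdep
      intro i hi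
      change (if h : p i then x i else (0 : Fin k → Fin k → ℝ)) = x i
      rw [dif_pos hi]
    refine Prod.ext ?_ ?_
    · funext i
      change x i + F x i = x i
      rw [hFp x i i.2, add_zero]
    · funext i
      change x i + F x i = x i + F (z (fun i => x i)) i
      rw [hzx]
  rw [hfun]
  exact h

/-- density bound for a family of Gaussian matrices -/
theorem pi_gaussian_le {ι : Type*} [Fintype ι] (k : ℕ) (v : ι → ℝ≥0) (hv : ∀ i, v i ≠ 0) :
    (Measure.pi fun i : ι => Measure.pi fun _ : Fin k => Measure.pi fun _ : Fin k =>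
      gaussianReal 0 (v i)) ≤
    (∏ i, ENNReal.ofReal (Real.sqrt (2 * Real.pi * v i))⁻¹ ^ (k * k)) •
      (volume : Measure (ι → Fin k → Fin k → ℝ)) := by
  have hD0 : ∀ i, ENNReal.ofReal (Real.sqrt (2 * Real.pi * v i))⁻¹ ≠ 0 := by
    intro i
    have h1 : (0 : ℝ) < v i := by
      have := hv i
      positivity
    rw [Ne, ENNReal.ofReal_eq_zero, not_le]
    positivity
  refine pi_le_smul _ _ _ (fun i => pow_ne_zero _ (hD0 i))
    (fun i => ENNReal.pow_ne_top ENNReal.ofReal_ne_top) (fun i => ?_)
  have h2 : (Measure.pi fun _ : Fin k => gaussianReal 0 (v i)) ≤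
      (∏ _a : Fin k, ENNReal.ofReal (Real.sqrt (2 * Real.pi * v i))⁻¹) •
        (volume : Measure (Fin k → ℝ)) :=
    pi_le_smul _ _ _ (fun _ => hD0 i) (fun _ => ENNReal.ofReal_ne_top)
      (fun _ => gaussianReal_le _ (hv i))
  have hP0 : (∏ _a : Fin k, ENNReal.ofReal (Real.sqrt (2 * Real.pi * v i))⁻¹) ≠ 0 :=
    Finset.prod_ne_zero_iff.2 (fun _ _ => hD0 i)
  have hPt : (∏ _a : Fin k, ENNReal.ofReal (Real.sqrt (2 * Real.pi * v i))⁻¹) ≠ ∞ :=
    ENNReal.prod_ne_top (fun _ _ => ENNReal.ofReal_ne_top)
  have h3 := pi_le_smul (fun _ : Fin k => Measure.pi fun _ : Fin k => gaussianReal 0 (v i))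
    (fun _ : Fin k => (volume : Measure (Fin k → ℝ))) _ (fun _ => hP0) (fun _ => hPt)
    (fun _ => h2)
  simp only [Finset.prod_const, Finset.card_univ, Fintype.card_fin, ← pow_mul] at h3
  exact h3

/-- scaling of Gaussian matrices -/
theorem measurePreserving_scale {ι : Type*} [Fintype ι] (k : ℕ) (v : ℝ≥0) (s : ι → ℝ) :
    MeasurePreserving (fun (x : ι → Fin k → Fin k → ℝ) i => s i • x i)
      (Measure.pi fun _ : ι => Measure.pi fun _ : Fin k => Measure.pi fun _ : Fin k =>
        gaussianReal 0 v)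
      (Measure.pi fun i : ι => Measure.pi fun _ : Fin k => Measure.pi fun _ : Fin k =>
        gaussianReal 0 (⟨s i ^ 2, sq_nonneg _⟩ * v)) := by
  refine measurePreserving_pi (f := fun (i : ι) (y : Fin k → Fin k → ℝ) => s i • y) _ _
    (fun i => ?_)
  refine measurePreserving_pi (f := fun (_ : Fin k) (y : Fin k → ℝ) => s i • y) _ _ (fun _ => ?_)
  refine measurePreserving_pi (f := fun (_ : Fin k) (y : ℝ) => s i • y) _ _ (fun _ => ?_)
  refine ⟨measurable_const_mul (s i), ?_⟩
  have := gaussianReal_map_const_mul (μ := 0) (v := v) (s i)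
  rw [mul_zero] at this
  exact this

/-- main comparison: law of a scaled and sheared Gaussian family -/
theorem gaussian_preimage_le {ι : Type*} [Fintype ι] (p : ι → Prop) [DecidablePred p] (k : ℕ)
    (v : ℝ≥0) (hv : v ≠ 0) (s : ι → ℝ) (hs : ∀ i, 0 < s i)
    (F : (ι → Fin k → Fin k → ℝ) → ι → Fin k → Fin k → ℝ) (hF : Measurable F)
    (hFp : ∀ x i, p i → F x i = 0) (hFdep : ∀ x y, (∀ i, p i → x i = y i) → F x = F y)
    (E : Set (ι → Fin k → Fin k → ℝ)) :
    (Measure.pi fun _ : ι => Measure.pi fun _ : Fin k => Measure.pi fun _ : Fin k =>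
        gaussianReal 0 v) ((fun x i => s i • x i + F (fun j => s j • x j) i) ⁻¹' E) ≤
      (∏ i, ENNReal.ofReal (Real.sqrt (2 * Real.pi * (s i ^ 2 * v)))⁻¹ ^ (k * k)) * volume E := by
  set E' := toMeasurable volume E with hE'
  have hEE' : E ⊆ E' := subset_toMeasurable _ _
  have hE'm : MeasurableSet E' := measurableSet_toMeasurable _ _
  have hvol : volume E' = volume E := measure_toMeasurable _
  have h1 := measurePreserving_scale k v s
  have h2 := volume_shear p k F hF hFp hFdep
  have hsh : MeasurableSet ((fun (x : ι → Fin k → Fin k → ℝ) i => x i + F x i) ⁻¹' E') :=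
    h2.measurable hE'm
  have h3 := h1.measure_preimage hsh.nullMeasurableSet
  have hsv : ∀ i, (⟨s i ^ 2, sq_nonneg _⟩ * v : ℝ≥0) ≠ 0 := by
    intro i
    refine mul_ne_zero ?_ hv
    intro h
    have h4 : s i ^ 2 = 0 := congrArg NNReal.toReal h
    exact (pow_pos (hs i) 2).ne' h4
  have h4 := pi_gaussian_le (ι := ι) k (fun i => ⟨s i ^ 2, sq_nonneg _⟩ * v) hsv
  calc _ ≤ (Measure.pi fun _ : ι => Measure.pi fun _ : Fin k => Measure.pi fun _ : Fin k =>
        gaussianReal 0 v) ((fun x i => s i • x i) ⁻¹'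
          ((fun (x : ι → Fin k → Fin k → ℝ) i => x i + F x i) ⁻¹' E')) := by
        refine measure_mono (fun x hx => ?_)
        exact hEE' hx
    _ = _ := h3
    _ ≤ _ := h4 _
    _ = _ := by
        rw [Measure.smul_apply, smul_eq_mul, h2.measure_preimage hE'm.nullMeasurableSet, hvol]
        congr 1

end Vale.Agent.P087
end
end

section

section

/-! Task G3, part 2: algebra of the matrices `herm`. -/

open MeasureTheory Filter ProbabilityTheory
open scoped ENNReal NNReal Topology

namespace Vale.Agent.P087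

theorem sqrt_two_ne : ((Real.sqrt 2 : ℝ) : ℂ) ≠ 0 := by
  rw [Complex.ofReal_ne_zero]
  positivity

theorem herm_diag (k : ℕ) (x : Fin k → Fin k → ℝ) (a : Fin k) : herm k x a a = (x a a : ℂ) := by
  simp [herm]

theorem herm_lt (k : ℕ) (x : Fin k → Fin k → ℝ) {a b : Fin k} (h : a < b) :
    herm k x a b = ((x a b : ℂ) + (x b a : ℂ) * Complex.I) / ((Real.sqrt 2 : ℝ) : ℂ) := by
  simp [herm, h.ne, h]

theorem herm_gt (k : ℕ) (x : Fin k → Fin k → ℝ) {a b : Fin k} (h : b < a) :
    herm k x a b = ((x b a : ℂ) - (x a b : ℂ) * Complex.I) / ((Real.sqrt 2 : ℝ) : ℂ) := by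
  simp [herm, h.ne', not_lt.2 h.le]

theorem herm_add_lh (k : ℕ) (x y : Fin k → Fin k → ℝ) : herm k (x + y) = herm k x + herm k y := by
  ext a b
  rw [Matrix.add_apply]
  rcases lt_trichotomy a b with h | h | h
  · rw [herm_lt k _ h, herm_lt k _ h, herm_lt k _ h]
    simp only [Pi.add_apply, Complex.ofReal_add]
    ring
  · subst h
    rw [herm_diag, herm_diag, herm_diag]
    simp
  · rw [herm_gt k _ h, herm_gt k _ h, herm_gt k _ h]
    simp only [Pi.add_apply, Complex.ofReal_add]
    ring

theorem herm_smul_lh (k : ℕ) (c : ℝ) (x : Fin k → Fin k → ℝ) :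
    herm k (c • x) = (c : ℂ) • herm k x := by
  ext a b
  rw [Matrix.smul_apply, smul_eq_mul]
  rcases lt_trichotomy a b with h | h | h
  · rw [herm_lt k _ h, herm_lt k _ h]
    simp only [Pi.smul_apply, smul_eq_mul, Complex.ofReal_mul]
    ring
  · subst h
    rw [herm_diag, herm_diag]
    simp
  · rw [herm_gt k _ h, herm_gt k _ h]
    simp only [Pi.smul_apply, smul_eq_mul, Complex.ofReal_mul]
    ring

theorem herm_isHermitian (k : ℕ) (x : Fin k → Fin k → ℝ) : (herm k x).IsHermitian := by
  ext a b
  rw [Matrix.conjTranspose_apply]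
  rcases lt_trichotomy a b with h | h | h
  · rw [herm_lt k _ h, herm_gt k _ h]
    simp [sub_eq_add_neg]
  · subst h
    rw [herm_diag]
    simp
  · rw [herm_gt k _ h, herm_lt k _ h]
    simp [sub_eq_add_neg]

/-- inverse of `herm` on Hermitian matrices -/
noncomputable def hermInv (k : ℕ) (H : Matrix (Fin k) (Fin k) ℂ) : Fin k → Fin k → ℝ :=
  fun a b => if a = b then (H a a).re else if a < b then Real.sqrt 2 * (H a b).re
    else Real.sqrt 2 * (H b a).im

theorem herm_hermInv (k : ℕ) (H : Matrix (Fin k) (Fin k) ℂ) (hH : H.IsHermitian) :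
    herm k (hermInv k H) = H := by
  have h2 := sqrt_two_ne
  ext a b
  have hab : star (H b a) = H a b := hH.apply a b
  rcases lt_trichotomy a b with h | h | h
  · rw [herm_lt k _ h, div_eq_iff h2]
    simp only [hermInv, h.ne, h.ne', if_false, h, if_true, not_lt.2 h.le, Complex.ofReal_mul]
    conv_rhs => rw [← Complex.re_add_im (H a b)]
    ring
  · subst h
    rw [herm_diag]
    simp only [hermInv, if_true]
    apply Complex.ext
    · simp
    · have := congrArg Complex.im hab
      simp at this
      simp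
      linarith
  · rw [herm_gt k _ h, div_eq_iff h2]
    simp only [hermInv, h.ne, h.ne', if_false, h, if_true, not_lt.2 h.le, Complex.ofReal_mul]
    rw [← hab]
    apply Complex.ext
    · simp
      ring
    · simp
      ring

theorem measurable_hermInv (k : ℕ) {α : Type*} [MeasurableSpace α]
    (f : α → Matrix (Fin k) (Fin k) ℂ) (hf : ∀ a b, Measurable fun x => f x a b) :
    Measurable fun x => hermInv k (f x) := by
  refine measurable_pi_lambda _ (fun a => measurable_pi_lambda _ (fun b => ?_))
  unfold hermInv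
  split_ifs
  · exact Complex.measurable_re.comp (hf _ _)
  · exact (Complex.measurable_re.comp (hf _ _)).const_mul _
  · exact (Complex.measurable_im.comp (hf _ _)).const_mul _

theorem measurable_herm (k : ℕ) {α : Type*} [MeasurableSpace α] (f : α → Fin k → Fin k → ℝ)
    (hf : Measurable f) (a b : Fin k) : Measurable fun x => herm k (f x) a b := by
  have h : ∀ a b, Measurable fun x => ((f x a b : ℝ) : ℂ) := fun a b =>
    Complex.measurable_ofReal.comp ((measurable_pi_apply b).comp ((measurable_pi_apply a).comp hf))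
  rcases lt_trichotomy a b with hab | hab | hab
  · simp only [herm_lt k _ hab]
    exact ((h _ _).add ((h _ _).mul_const _)).div_const _
  · subst hab
    simp only [herm_diag]
    exact h _ _
  · simp only [herm_gt k _ hab]
    exact ((h _ _).sub ((h _ _).mul_const _)).div_const _

theorem measurable_mul_entries (k : ℕ) {α : Type*} [MeasurableSpace α]
    (f g : α → Matrix (Fin k) (Fin k) ℂ) (hf : ∀ a b, Measurable fun x => f x a b)
    (hg : ∀ a b, Measurable fun x => g x a b) (a b : Fin k) :
    Measurable fun x => (f x * g x) a b := by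
  simp only [Matrix.mul_apply]
  exact Finset.measurable_sum _ (fun c _ => (hf a c).mul (hg c b))

/-- sandwich `A B A` -/
noncomputable def sand (k : ℕ) (x y : Fin k → Fin k → ℝ) : Matrix (Fin k) (Fin k) ℂ :=
  herm k x * herm k y * herm k x

theorem sand_isHermitian (k : ℕ) (x y : Fin k → Fin k → ℝ) : (sand k x y).IsHermitian := by
  unfold sand
  have h1 := herm_isHermitian k x
  have h2 := herm_isHermitian k y
  rw [Matrix.IsHermitian, Matrix.conjTranspose_mul, Matrix.conjTranspose_mul, h1.eq, h2.eq,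
    Matrix.mul_assoc]

variable {m : ℕ}

/-- the matrices of the tuple -/
noncomputable def Xm (c θ : ℝ) (k : ℕ) (x : Idx m → Fin k → Fin k → ℝ) (i : Idx m) :
    Matrix (Fin k) (Fin k) ℂ :=
  if i.1 = i.2 then (c : ℂ) • herm k (x i)
  else (θ : ℂ) • sand k (x (i.1, i.1)) (x (i.2, i.2)) + herm k (x i)

/-- the scaling factors -/
noncomputable def scl (c : ℝ) (i : Idx m) : ℝ := if i.1 = i.2 then c else 1

/-- the shear -/
noncomputable def shr (c θ : ℝ) (k : ℕ) (y : Idx m → Fin k → Fin k → ℝ) (i : Idx m) :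
    Fin k → Fin k → ℝ :=
  if i.1 = i.2 then 0 else (θ / c ^ 3) • hermInv k (sand k (y (i.1, i.1)) (y (i.2, i.2)))

theorem herm_psi (c θ : ℝ) (hc : c ≠ 0) (k : ℕ) (x : Idx m → Fin k → Fin k → ℝ) (i : Idx m) :
    herm k (scl c i • x i + shr c θ k (fun j => scl c j • x j) i) = Xm c θ k x i := by
  unfold Xm scl shr
  split_ifs with h
  · rw [add_zero, herm_smul_lh]
  · rw [one_smul, herm_add_lh, herm_smul_lh, herm_hermInv _ _ (sand_isHermitian _ _ _)]
    simp only [if_true]
    have h1 : sand k (c • x (i.1, i.1)) (c • x (i.2, i.2)) =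
        ((c : ℂ) ^ 3) • sand k (x (i.1, i.1)) (x (i.2, i.2)) := by
      unfold sand
      rw [herm_smul_lh, herm_smul_lh]
      simp only [Matrix.smul_mul, Matrix.mul_smul, smul_smul]
      congr 1
      ring
    rw [h1, smul_smul, add_comm]
    congr 2
    have hc' : (c : ℂ) ≠ 0 := Complex.ofReal_ne_zero.2 hc
    push_cast
    field_simp

theorem measurable_shr (c θ : ℝ) (k : ℕ) : Measurable (shr (m := m) c θ k) := by
  refine measurable_pi_lambda _ (fun i => ?_)
  unfold shr
  split_ifs with h
  · exact measurable_const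
  · have key : Measurable fun y : Idx m → Fin k → Fin k → ℝ =>
        hermInv k (sand k (y (i.1, i.1)) (y (i.2, i.2))) := ?_
    · exact key.const_smul (θ / c ^ 3)
    refine measurable_hermInv k _ (fun a b => ?_)
    unfold sand
    refine measurable_mul_entries k _ _ (fun a b => measurable_mul_entries k _ _ ?_ ?_ a b) ?_ a b
    · exact fun a b => measurable_herm k _ (measurable_pi_apply _) a b
    · exact fun a b => measurable_herm k _ (measurable_pi_apply _) a b
    · exact fun a b => measurable_herm k _ (measurable_pi_apply _) a b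

theorem shr_diag (c θ : ℝ) (k : ℕ) (x : Idx m → Fin k → Fin k → ℝ) (i : Idx m)
    (hi : i.1 = i.2) : shr c θ k x i = 0 := by
  unfold shr
  rw [if_pos hi]

theorem shr_dep (c θ : ℝ) (k : ℕ) (x y : Idx m → Fin k → Fin k → ℝ)
    (h : ∀ i : Idx m, i.1 = i.2 → x i = y i) : shr c θ k x = shr c θ k y := by
  funext i
  unfold shr
  rw [h (i.1, i.1) rfl, h (i.2, i.2) rfl]

theorem norm_Xm_le (c θ R0 : ℝ) (hc : 0 ≤ c) (hR0 : 0 ≤ R0) (k : ℕ)
    (x : Idx m → Fin k → Fin k → ℝ)
    (hx : ∀ i, ‖Matrix.toEuclideanCLM (n := Fin k) (𝕜 := ℂ) (herm k (x i))‖ ≤ R0) (i : Idx m) :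
    ‖Matrix.toEuclideanCLM (n := Fin k) (𝕜 := ℂ) (Xm c θ k x i)‖ ≤ c * R0 + |θ| * R0 ^ 3 + R0 := by
  unfold Xm
  split_ifs with h
  · rw [map_smul]
    calc _ ≤ ‖(c : ℂ)‖ * ‖Matrix.toEuclideanCLM (n := Fin k) (𝕜 := ℂ) (herm k (x i))‖ :=
          norm_smul_le _ _
      _ ≤ c * R0 := by
          rw [Complex.norm_real, Real.norm_of_nonneg hc]
          gcongr
          exact hx i
      _ ≤ _ := by
          have : 0 ≤ |θ| * R0 ^ 3 := by positivity
          linarith
  · rw [map_add, map_smul, sand, map_mul, map_mul]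
    set A := Matrix.toEuclideanCLM (n := Fin k) (𝕜 := ℂ) (herm k (x (i.1, i.1))) with hA
    set B := Matrix.toEuclideanCLM (n := Fin k) (𝕜 := ℂ) (herm k (x (i.2, i.2))) with hB
    set C := Matrix.toEuclideanCLM (n := Fin k) (𝕜 := ℂ) (herm k (x i)) with hC
    calc ‖(θ : ℂ) • (A * B * A) + C‖ ≤ ‖(θ : ℂ) • (A * B * A)‖ + ‖C‖ := norm_add_le _ _
      _ ≤ ‖(θ : ℂ)‖ * ‖A * B * A‖ + ‖C‖ := by gcongr; exact norm_smul_le (θ : ℂ) (A * B * A)
      _ ≤ |θ| * (R0 ^ 3) + R0 := by
          rw [Complex.norm_real, Real.norm_eq_abs]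
          have h1 : ‖A * B * A‖ ≤ R0 ^ 3 := by
            calc ‖A * B * A‖ ≤ ‖A * B‖ * ‖A‖ := norm_mul_le _ _
              _ ≤ (‖A‖ * ‖B‖) * ‖A‖ := by gcongr; exact norm_mul_le _ _
              _ ≤ (R0 * R0) * R0 := by
                  gcongr
                  · exact hx _
                  · exact hx _
                  · exact hx _
              _ = R0 ^ 3 := by ring
          gcongr
          exact hx i
      _ ≤ _ := by
          have : 0 ≤ c * R0 := by positivity
          linarith

end Vale.Agent.P087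
end
end

section

section

/-! Task G3, part 3: convergence in probability of the moments of the tuple. -/

open MeasureTheory Filter ProbabilityTheory
open scoped ENNReal NNReal Topology

namespace Vale.Agent.P087

/-- all moments finite -/
def AllLp {Ω : Type*} [MeasurableSpace Ω] (μ : Measure Ω) (f : Ω → ℂ) : Prop :=
  ∀ n : ℕ, MemLp f n μ

section AllLp

variable {Ω : Type*} [MeasurableSpace Ω] {μ : Measure Ω} {f g : Ω → ℂ}

theorem AllLp.add (hf : AllLp μ f) (hg : AllLp μ g) : AllLp μ (fun x => f x + g x) :=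
  fun n => (hf n).add (hg n)

theorem AllLp.sub (hf : AllLp μ f) (hg : AllLp μ g) : AllLp μ (fun x => f x - g x) :=
  fun n => (hf n).sub (hg n)

theorem AllLp.mul (hf : AllLp μ f) (hg : AllLp μ g) : AllLp μ (fun x => f x * g x) := by
  intro n
  have h : ENNReal.HolderTriple ((2 * n : ℕ) : ℝ≥0∞) ((2 * n : ℕ) : ℝ≥0∞) (n : ℝ≥0∞) := by
    constructor
    push_cast
    rw [ENNReal.mul_inv (Or.inl two_ne_zero) (Or.inl ENNReal.ofNat_ne_top), ← add_mul,
      ENNReal.inv_two_add_inv_two, one_mul]
  exact (hg (2 * n)).mul (hf (2 * n))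

theorem AllLp.const [IsFiniteMeasure μ] (c : ℂ) : AllLp μ (fun _ => c) :=
  fun _ => memLp_const c

theorem AllLp.sum {ι : Type*} (s : Finset ι) {F : ι → Ω → ℂ} (h : ∀ i ∈ s, AllLp μ (F i)) :
    AllLp μ (fun x => ∑ i ∈ s, F i x) :=
  fun n => memLp_finsetSum s (fun i hi => h i hi n)

theorem AllLp.integrable_sq (hf : AllLp μ f) : Integrable (fun x => ‖f x‖ ^ 2) μ :=
  (hf 2).integrable_norm_pow (by norm_num)

end AllLp

variable {J : Type} [Fintype J]

instance isProb_gue (k : ℕ) : IsProbabilityMeasure (gue J k) := by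
  unfold gue
  infer_instance

theorem measurePreserving_gue_eval (k : ℕ) (j : J) :
    MeasurePreserving (fun x : J → Fin k → Fin k → ℝ => x j) (gue J k)
      (Measure.pi fun _ : Fin k => Measure.pi fun _ : Fin k => gaussianReal 0 ((k : ℝ≥0)⁻¹)) :=
  measurePreserving_eval _ j

theorem allLp_coord (k : ℕ) (j : J) (a b : Fin k) :
    AllLp (gue J k) (fun x => ((x j a b : ℝ) : ℂ)) := by
  intro n
  have h1 := measurePreserving_gue_eval (J := J) k j
  have h2 : MeasurePreserving (fun y : Fin k → Fin k → ℝ => y a)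
      (Measure.pi fun _ : Fin k => Measure.pi fun _ : Fin k => gaussianReal 0 ((k : ℝ≥0)⁻¹))
      (Measure.pi fun _ : Fin k => gaussianReal 0 ((k : ℝ≥0)⁻¹)) := measurePreserving_eval _ a
  have h3 : MeasurePreserving (fun y : Fin k → ℝ => y b)
      (Measure.pi fun _ : Fin k => gaussianReal 0 ((k : ℝ≥0)⁻¹))
      (gaussianReal 0 ((k : ℝ≥0)⁻¹)) := measurePreserving_eval _ b
  have h4 : MemLp (id : ℝ → ℝ) (n : ℝ≥0∞) (gaussianReal 0 ((k : ℝ≥0)⁻¹)) := by
    have := memLp_id_gaussianReal (μ := 0) (v := (k : ℝ≥0)⁻¹) (n : ℝ≥0)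
    simpa using this
  have h5 : MemLp (fun x : J → Fin k → Fin k → ℝ => x j a b) (n : ℝ≥0∞) (gue J k) :=
    h4.comp_measurePreserving ((h3.comp h2).comp h1)
  exact h5.ofReal

theorem allLp_herm (k : ℕ) (j : J) (a b : Fin k) :
    AllLp (gue J k) (fun x => herm k (x j) a b) := by
  have hI : AllLp (gue J k) (fun _ => Complex.I) := AllLp.const _
  have hs : AllLp (gue J k) (fun _ => (((Real.sqrt 2 : ℝ) : ℂ))⁻¹) := AllLp.const _
  rcases lt_trichotomy a b with h | h | h
  · simp only [herm_lt k _ h, div_eq_mul_inv]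
    exact ((allLp_coord k j a b).add ((allLp_coord k j b a).mul hI)).mul hs
  · subst h
    simp only [herm_diag]
    exact allLp_coord k j a a
  · simp only [herm_gt k _ h, div_eq_mul_inv]
    exact ((allLp_coord k j b a).sub ((allLp_coord k j a b).mul hI)).mul hs

theorem allLp_word (k : ℕ) (w : List J) (a b : Fin k) :
    AllLp (gue J k) (fun x => (w.map fun j => herm k (x j)).prod a b) := by
  induction w generalizing a b with
  | nil =>
    simp only [List.map_nil, List.prod_nil]
    exact AllLp.const _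
  | cons j w ih =>
    simp only [List.map_cons, List.prod_cons, Matrix.mul_apply]
    exact AllLp.sum _ (fun c _ => (allLp_herm k j a c).mul (ih c b))

theorem allLp_trace (k : ℕ) (w : List J) (z : ℂ) :
    AllLp (gue J k) (fun x => (k : ℂ)⁻¹ * ((w.map fun j => herm k (x j)).prod).trace - z) := by
  refine AllLp.sub (AllLp.mul (AllLp.const _) ?_) (AllLp.const _)
  simp only [Matrix.trace, Matrix.diag_apply]
  exact AllLp.sum _ (fun a _ => allLp_word k w a a)

/-- convergence in probability to zero -/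
def CP (Z : (k : ℕ) → (J → Fin k → Fin k → ℝ) → ℂ) : Prop :=
  ∀ δ : ℝ, 0 < δ → Tendsto (fun k => gue J k {x | δ ≤ ‖Z k x‖}) atTop (𝓝 0)

theorem cp_of_word [DecidableEq J] (w : List J) :
    CP (fun k (x : J → Fin k → Fin k → ℝ) =>
      (k : ℂ)⁻¹ * ((w.map fun j => herm k (x j)).prod).trace - (semi w : ℂ)) := by
  intro δ hδ
  have h := gue_moments w
  have h1 : Tendsto (fun k : ℕ => ENNReal.ofReal
      ((∫ x, ‖(k : ℂ)⁻¹ * ((w.map fun j => herm k (x j)).prod).trace
      - (semi w : ℂ)‖ ^ 2 ∂(gue J k)) / δ ^ 2)) atTop (𝓝 0) := by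
    have := ENNReal.tendsto_ofReal (h.div_const (δ ^ 2))
    simpa using this
  refine tendsto_of_tendsto_of_tendsto_of_le_of_le tendsto_const_nhds h1 (fun _ => zero_le)
    (fun k => ?_)
  have h2 := mul_meas_ge_le_integral_of_nonneg (μ := gue J k)
    (f := fun x => ‖(k : ℂ)⁻¹ * ((w.map fun j => herm k (x j)).prod).trace
      - (semi w : ℂ)‖ ^ 2) (Eventually.of_forall fun x => by positivity)
    (allLp_trace k w (semi w : ℂ)).integrable_sq (δ ^ 2)
  have h3 : {x : J → Fin k → Fin k → ℝ | δ ≤ ‖(k : ℂ)⁻¹ *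
      ((w.map fun j => herm k (x j)).prod).trace - (semi w : ℂ)‖} ⊆
      {x | δ ^ 2 ≤ ‖(k : ℂ)⁻¹ * ((w.map fun j => herm k (x j)).prod).trace
      - (semi w : ℂ)‖ ^ 2} := by
    intro x hx
    exact pow_le_pow_left₀ hδ.le hx 2
  refine (measure_mono h3).trans ?_
  rw [← ofReal_measureReal]
  refine ENNReal.ofReal_le_ofReal ?_
  rw [le_div_iff₀ (by positivity)]
  linarith

theorem CP.add {Z Z' : (k : ℕ) → (J → Fin k → Fin k → ℝ) → ℂ} (h : CP Z) (h' : CP Z') :
    CP (fun k x => Z k x + Z' k x) := by
  intro δ hδ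
  have h1 := (h (δ / 2) (by linarith)).add (h' (δ / 2) (by linarith))
  rw [add_zero] at h1
  refine tendsto_of_tendsto_of_tendsto_of_le_of_le tendsto_const_nhds h1 (fun _ => zero_le)
    (fun k => ?_)
  refine (measure_mono ?_).trans (measure_union_le _ _)
  intro x hx
  simp only [Set.mem_ofPred_eq, Set.mem_union] at hx ⊢
  by_contra hcon
  push Not at hcon
  have := norm_add_le (Z k x) (Z' k x)
  linarith

theorem CP.const_mul {Z : (k : ℕ) → (J → Fin k → Fin k → ℝ) → ℂ} (h : CP Z) (c : ℂ) :
    CP (fun k x => c * Z k x) := by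
  intro δ hδ
  have h1 := h (δ / (‖c‖ + 1)) (by positivity)
  refine tendsto_of_tendsto_of_tendsto_of_le_of_le tendsto_const_nhds h1 (fun _ => zero_le)
    (fun k => measure_mono ?_)
  intro x hx
  simp only [Set.mem_ofPred_eq] at hx ⊢
  rw [div_le_iff₀ (by positivity)]
  rw [norm_mul] at hx
  nlinarith [norm_nonneg (Z k x), norm_nonneg c]

theorem semi_map_lm {J J' : Type} [DecidableEq J] [DecidableEq J'] (f : J → J') :
    ∀ (n : ℕ) (w : List J), w.length ≤ n → (∀ x ∈ w, ∀ y ∈ w, f x = f y → x = y) →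
      semi (w.map f) = semi w
  | _, [], _, _ => by rw [List.map_nil, semi, semi]
  | 0, x :: w, h, _ => by simp at h
  | n + 1, x :: w, h, hinj => by
      rw [List.map_cons, semi, semi]
      refine Fintype.sum_equiv (finCongr (List.length_map f)) _ _ (fun i => ?_)
      have h1 : (w.map f).get i = f (w.get (finCongr (List.length_map f) i)) := by
        simp
      have hmem : w.get (finCongr (List.length_map f) i) ∈ w := List.get_mem _ _
      have h2 : (w.map f).get i = f x ↔ w.get (finCongr (List.length_map f) i) = x := by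
        rw [h1]
        constructor
        · intro h
          exact hinj _ (List.mem_cons_of_mem _ hmem) _ List.mem_cons_self h
        · intro h
          rw [h]
      have hlen : w.length ≤ n := by simpa using h
      have h3 : semi ((w.map f).take i) = semi (w.take i) := by
        rw [← List.map_take]
        refine semi_map_lm f n _ ?_ ?_
        · rw [List.length_take]
          omega
        · intro y hy z hz
          exact hinj _ (List.mem_cons_of_mem _ (List.mem_of_mem_take hy)) _
            (List.mem_cons_of_mem _ (List.mem_of_mem_take hz))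
      have h4 : semi ((w.map f).drop (i + 1)) = semi (w.drop (i + 1)) := by
        rw [← List.map_drop]
        refine semi_map_lm f n _ ?_ ?_
        · rw [List.length_drop]
          omega
        · intro y hy z hz
          exact hinj _ (List.mem_cons_of_mem _ (List.mem_of_mem_drop hy)) _
            (List.mem_cons_of_mem _ (List.mem_of_mem_drop hz))
      by_cases hc : w.get (finCongr (List.length_map f) i) = x
      · rw [if_pos (h2.2 hc), if_pos hc, h3, h4]
        rfl
      · rw [if_neg (fun h => hc (h2.1 h)), if_neg hc]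

variable {m : ℕ}

/-- Gaussian index of a letter -/
def psi : Letter m → Idx m := Sum.elim (fun a => (a, a)) id

/-- letters used: hidden letters and off-diagonal noise letters -/
def OkL : Letter m → Prop := Sum.elim (fun _ => True) (fun i => i.1 ≠ i.2)

theorem psi_inj {l l' : Letter m} (hl : OkL l) (hl' : OkL l') (h : psi l = psi l') : l = l' := by
  rcases l with a | i <;> rcases l' with b | j
  · have : (a, a) = (b, b) := h
    rw [(Prod.mk.inj this).1]
  · have h1 : (a, a) = j := h
    have h2 : j.1 ≠ j.2 := hl'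
    rw [← h1] at h2
    exact absurd rfl h2
  · have h1 : i = (b, b) := h
    have h2 : i.1 ≠ i.2 := hl
    rw [h1] at h2
    exact absurd rfl h2
  · have h1 : i = j := h
    rw [h1]

/-- traces of words in the letters followed by a word in the tuple -/
noncomputable def TW (c θ : ℝ) (k : ℕ) (x : Idx m → Fin k → Fin k → ℝ) (pre : List (Letter m))
    (w : List (Idx m)) : ℂ :=
  (k : ℂ)⁻¹ * ((pre.map fun l => herm k (x (psi l))).prod * (w.map (Xm c θ k x)).prod).trace

theorem Xm_eq (c θ : ℝ) (k : ℕ) (x : Idx m → Fin k → Fin k → ℝ) (i : Idx m) :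
    Xm c θ k x i = (coef m c θ i : ℂ) •
      (((yw i).map (Sum.inl : Fin m → Letter m)).map fun l => herm k (x (psi l))).prod +
      (sig m 0 i : ℂ) • herm k (x i) := by
  unfold Xm coef sig yw sand
  split_ifs with h
  · have hi : i = (i.1, i.1) := Prod.ext rfl h.symm
    rw [Real.sqrt_zero, Complex.ofReal_zero, zero_smul, add_zero]
    simp only [List.map_cons, List.map_nil, List.prod_cons, List.prod_nil, mul_one, psi,
      Sum.elim_inl]
    rw [← hi]
  · rw [add_zero, Real.sqrt_one, Complex.ofReal_one, one_smul]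
    simp only [List.map_cons, List.map_nil, List.prod_cons, List.prod_nil, mul_one, psi,
      Sum.elim_inl, Matrix.mul_assoc]

theorem TW_cons (c θ : ℝ) (k : ℕ) (x : Idx m → Fin k → Fin k → ℝ) (pre : List (Letter m))
    (i : Idx m) (w : List (Idx m)) :
    TW c θ k x pre (i :: w) =
      (coef m c θ i : ℂ) * TW c θ k x (pre ++ (yw i).map Sum.inl) w +
      (sig m 0 i : ℂ) * TW c θ k x (pre ++ [Sum.inr i]) w := by
  unfold TW
  rw [List.map_cons, List.prod_cons, Xm_eq]
  simp only [List.map_append, List.prod_append, List.map_cons, List.map_nil, List.prod_cons,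
    List.prod_nil, mul_one, psi, Sum.elim_inr, id]
  rw [add_mul, mul_add, Matrix.trace_add, Matrix.smul_mul, Matrix.mul_smul, Matrix.trace_smul,
    Matrix.smul_mul, Matrix.mul_smul, Matrix.trace_smul, smul_eq_mul, smul_eq_mul,
    Matrix.mul_assoc, Matrix.mul_assoc]
  ring

theorem cp_TW (c θ : ℝ) : ∀ (w : List (Idx m)) (pre : List (Letter m)), (∀ l ∈ pre, OkL l) →
    CP (fun k (x : Idx m → Fin k → Fin k → ℝ) =>
      TW c θ k x pre w - (expMom (coef m c θ) (sig m 0) pre w : ℂ))
  | [], pre, hpre => by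
      have h := cp_of_word (pre.map psi)
      rw [semi_map_lm psi pre.length pre le_rfl
        (fun l hl l' hl' h => psi_inj (hpre l hl) (hpre l' hl') h)] at h
      have h2 : (fun k (x : Idx m → Fin k → Fin k → ℝ) =>
          TW c θ k x pre [] - (expMom (coef m c θ) (sig m 0) pre [] : ℂ)) =
          (fun k (x : Idx m → Fin k → Fin k → ℝ) =>
          (k : ℂ)⁻¹ * (((pre.map psi).map fun j => herm k (x j)).prod).trace - (semi pre : ℂ)) := by
        funext k x
        rw [TW, expMom, List.map_nil, List.prod_nil, mul_one, List.map_map]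
        rfl
      rw [h2]
      exact h
  | i :: w, pre, hpre => by
      have hsplit : (fun k (x : Idx m → Fin k → Fin k → ℝ) =>
          TW c θ k x pre (i :: w) - (expMom (coef m c θ) (sig m 0) pre (i :: w) : ℂ)) =
          (fun k (x : Idx m → Fin k → Fin k → ℝ) =>
          (coef m c θ i : ℂ) * (TW c θ k x (pre ++ (yw i).map Sum.inl) w -
            (expMom (coef m c θ) (sig m 0) (pre ++ (yw i).map Sum.inl) w : ℂ)) +
          (sig m 0 i : ℂ) * (TW c θ k x (pre ++ [Sum.inr i]) w -
            (expMom (coef m c θ) (sig m 0) (pre ++ [Sum.inr i]) w : ℂ))) := by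
        funext k x
        rw [TW_cons, expMom]
        push_cast
        ring
      rw [hsplit]
      have h1 := cp_TW c θ w (pre ++ (yw i).map Sum.inl) (by
        intro l hl
        rw [List.mem_append] at hl
        rcases hl with hl | hl
        · exact hpre l hl
        · rw [List.mem_map] at hl
          obtain ⟨a, _, rfl⟩ := hl
          exact trivial)
      refine (h1.const_mul _).add ?_
      by_cases hi : i.1 = i.2
      · have hs : (sig m 0 i : ℂ) = 0 := by
          rw [sig, if_pos hi, Real.sqrt_zero, Complex.ofReal_zero]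
        rw [hs]
        intro δ hδ
        have : ∀ k : ℕ, {x : Idx m → Fin k → Fin k → ℝ | δ ≤ ‖(0 : ℂ) * (TW c θ k x
            (pre ++ [Sum.inr i]) w -
            (expMom (coef m c θ) (sig m 0) (pre ++ [Sum.inr i]) w : ℂ))‖} = ∅ := by
          intro k
          ext x
          simp only [zero_mul, norm_zero, Set.mem_ofPred_eq, Set.mem_empty_iff_false, iff_false,
            not_le]
          exact hδ
        simp only [this, measure_empty]
        exact tendsto_const_nhds
      · have h2 := cp_TW c θ w (pre ++ [Sum.inr i]) (by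
          intro l hl
          rw [List.mem_append] at hl
          rcases hl with hl | hl
          · exact hpre l hl
          · rw [List.mem_singleton] at hl
            subst hl
            exact hi)
        exact h2.const_mul _

theorem cp_moment (c θ : ℝ) (w : List (Idx m)) :
    CP (fun k (x : Idx m → Fin k → Fin k → ℝ) =>
      (k : ℂ)⁻¹ * ((w.map (Xm c θ k x)).prod).trace - lawX m c θ 0 w) := by
  have h := cp_TW c θ w [] (fun l hl => absurd hl List.not_mem_nil)
  simp only [TW, List.map_nil, List.prod_nil, one_mul] at h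
  exact h

end Vale.Agent.P087
end
end

section

section

/-! Task G3. `χ > -∞` for the model tuple. -/

open MeasureTheory Filter ProbabilityTheory
open scoped ENNReal NNReal Topology

namespace Vale.Agent.P087

/-- with probability tending to one, the random matrices are microstates -/
theorem eventually_half_le (m : ℕ) (c θ R0 : ℝ)
    (hnorm : Tendsto (fun k : ℕ =>
      (Measure.pi fun _ : Fin k => Measure.pi fun _ : Fin k => gaussianReal 0 ((k : ℝ≥0)⁻¹))
        {x : Fin k → Fin k → ℝ | R0 < ‖Matrix.toEuclideanCLM (n := Fin k) (𝕜 := ℂ) (herm k x)‖})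
      atTop (𝓝 0)) (M : ℕ) (ε : ℝ) (hε : 0 < ε) :
    ∀ᶠ k : ℕ in atTop, (1 / 2 : ℝ≥0∞) ≤ gue (Idx m) k {x |
      (∀ j, ‖Matrix.toEuclideanCLM (n := Fin k) (𝕜 := ℂ) (herm k (x j))‖ ≤ R0) ∧
      ∀ w : List (Idx m), 1 ≤ w.length → w.length ≤ M →
        ‖(k : ℂ)⁻¹ * ((w.map (Xm c θ k x)).prod).trace - lawX m c θ 0 w‖ < ε} := by
  have hfin : {w : List (Idx m) | w.length ≤ M}.Finite := List.finite_length_le _ _
  set W := hfin.toFinset with hW
  have hN : ∀ j : Idx m, Tendsto (fun k : ℕ => gue (Idx m) k {x |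
      R0 < ‖Matrix.toEuclideanCLM (n := Fin k) (𝕜 := ℂ) (herm k (x j))‖}) atTop (𝓝 0) := by
    intro j
    refine tendsto_of_tendsto_of_tendsto_of_le_of_le tendsto_const_nhds hnorm
      (fun _ => zero_le) (fun k => ?_)
    have h1 := measurePreserving_gue_eval (J := Idx m) k j
    exact h1.measure_preimage_le {x : Fin k → Fin k → ℝ |
      R0 < ‖Matrix.toEuclideanCLM (n := Fin k) (𝕜 := ℂ) (herm k x)‖}
  have hsum : Tendsto (fun k : ℕ => (∑ j : Idx m, gue (Idx m) k {x |
      R0 < ‖Matrix.toEuclideanCLM (n := Fin k) (𝕜 := ℂ) (herm k (x j))‖}) +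
      ∑ w ∈ W, gue (Idx m) k {x |
        ε ≤ ‖(k : ℂ)⁻¹ * ((w.map (Xm c θ k x)).prod).trace - lawX m c θ 0 w‖})
      atTop (𝓝 0) := by
    have h1 := tendsto_finsetSum Finset.univ (fun j (_ : j ∈ Finset.univ) => hN j)
    have h2 := tendsto_finsetSum W (fun w (_ : w ∈ W) => cp_moment c θ w ε hε)
    have h3 := h1.add h2
    simpa using h3
  have hev := hsum.eventually (gt_mem_nhds (show (0 : ℝ≥0∞) < 1 / 2 by simp))
  filter_upwards [hev] with k hk
  set G : Set (Idx m → Fin k → Fin k → ℝ) := {x |
      (∀ j, ‖Matrix.toEuclideanCLM (n := Fin k) (𝕜 := ℂ) (herm k (x j))‖ ≤ R0) ∧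
      ∀ w : List (Idx m), 1 ≤ w.length → w.length ≤ M →
        ‖(k : ℂ)⁻¹ * ((w.map (Xm c θ k x)).prod).trace - lawX m c θ 0 w‖ < ε} with hG
  have hcompl : gue (Idx m) k Gᶜ ≤ 1 / 2 := by
    refine le_trans ?_ hk.le
    have hsub : Gᶜ ⊆ (⋃ j : Idx m, {x : Idx m → Fin k → Fin k → ℝ |
        R0 < ‖Matrix.toEuclideanCLM (n := Fin k) (𝕜 := ℂ) (herm k (x j))‖}) ∪
        (⋃ w ∈ W, {x : Idx m → Fin k → Fin k → ℝ |
          ε ≤ ‖(k : ℂ)⁻¹ * ((w.map (Xm c θ k x)).prod).trace - lawX m c θ 0 w‖}) := by
      intro x hx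
      by_contra hcon
      apply hx
      simp only [Set.mem_union, Set.mem_iUnion, Set.mem_ofPred_eq, not_or, not_exists, not_lt,
        not_le] at hcon
      refine ⟨hcon.1, fun w _ hw => hcon.2 w ?_⟩
      rw [hW, Set.Finite.mem_toFinset]
      exact hw
    refine (measure_mono hsub).trans ((measure_union_le _ _).trans ?_)
    exact add_le_add (measure_iUnion_fintype_le _ _) (measure_biUnion_finset_le _ _)
  have hone : (1 : ℝ≥0∞) ≤ gue (Idx m) k G + gue (Idx m) k Gᶜ := by
    have h1 : gue (Idx m) k Set.univ = 1 := measure_univ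
    rw [← h1, ← Set.union_compl_self G]
    exact measure_union_le _ _
  by_contra hlt
  rw [not_le] at hlt
  have : gue (Idx m) k G + gue (Idx m) k Gᶜ < 1 / 2 + 1 / 2 :=
    ENNReal.add_lt_add_of_lt_of_le (by
      refine ne_top_of_le_ne_top ?_ hcompl
      simp) hlt hcompl
  rw [ENNReal.add_halves] at this
  exact absurd hone (not_le.2 this)

theorem bot_lt_chi (m : ℕ) (hm : 0 < m) (c θ : ℝ) (hc : 0 < c) :
    ⊥ < chi (lawX m c θ 0) := by
  obtain ⟨R0, hR0, hnorm⟩ := gue_norm
  set R := c * R0 + |θ| * R0 ^ 3 + R0 with hR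
  have hRpos : 0 < R := by positivity
  set N : ℝ := (Fintype.card (Idx m) : ℝ) with hN
  set L : ℝ := -Real.log 2 + N / 2 * Real.log (2 * Real.pi) +
    ∑ i : Idx m, Real.log (scl c i) with hL
  have hscl : ∀ i : Idx m, 0 < scl c i := by
    intro i
    unfold scl
    split_ifs
    · exact hc
    · exact one_pos
  suffices h : (L : EReal) ≤ chiR (lawX m c θ 0) R by
    refine lt_of_lt_of_le (EReal.bot_lt_coe L) (h.trans ?_)
    unfold chi
    exact le_iSup₂_of_le R hRpos le_rfl
  unfold chiR
  refine le_iInf fun M => le_iInf fun ε => le_iInf fun hε => ?_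
  refine le_limsup_of_frequently_le (Eventually.frequently ?_)
  filter_upwards [eventually_half_le m c θ R0 hnorm M ε hε, eventually_ge_atTop 1] with k hk hk1
  have hkpos : (0 : ℝ) < k := by exact_mod_cast hk1
  set Γ := microstates (lawX m c θ 0) R M k ε with hΓ
  have hv : ((k : ℝ≥0)⁻¹) ≠ 0 := by
    rw [Ne, inv_eq_zero, Nat.cast_eq_zero]
    omega
  have h1 := gaussian_preimage_le (fun i : Idx m => i.1 = i.2) k ((k : ℝ≥0)⁻¹) hv (scl c) hscl
    (shr c θ k) (measurable_shr c θ k) (fun x i hi => shr_diag c θ k x i hi)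
    (fun x y h => shr_dep c θ k x y h) Γ
  have h2 : (1 / 2 : ℝ≥0∞) ≤ gue (Idx m) k
      ((fun x i => scl c i • x i + shr c θ k (fun j => scl c j • x j) i) ⁻¹' Γ) := by
    refine hk.trans (measure_mono ?_)
    rintro x ⟨hx1, hx2⟩
    refine ⟨fun j => ?_, fun w hw1 hw2 => ?_⟩
    · change ‖Matrix.toEuclideanCLM (n := Fin k) (𝕜 := ℂ)
        (herm k (scl c j • x j + shr c θ k (fun j => scl c j • x j) j))‖ ≤ R
      rw [herm_psi c θ hc.ne']
      exact norm_Xm_le c θ R0 hc.le hR0.le k x hx1 j
    · have h3 : (fun j => herm k ((fun (x : Idx m → Fin k → Fin k → ℝ) i => scl c i • x i +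
          shr c θ k (fun j => scl c j • x j) i) x j)) = Xm c θ k x := by
        funext j
        exact herm_psi c θ hc.ne' k x j
      change ‖(k : ℂ)⁻¹ * ((w.map (fun j => herm k ((fun (x : Idx m → Fin k → Fin k → ℝ) i =>
        scl c i • x i + shr c θ k (fun j => scl c j • x j) i) x j))).prod).trace -
        lawX m c θ 0 w‖ < ε
      rw [h3]
      exact hx2 w hw1 hw2
  have h3 := h2.trans h1
  -- the constant
  set q : Idx m → ℝ := fun i => (Real.sqrt (2 * Real.pi * (scl c i ^ 2 * ((k : ℝ≥0)⁻¹ : ℝ≥0))))⁻¹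
    with hq
  have hqpos : ∀ i, 0 < q i := by
    intro i
    have := hscl i
    have h4 : (0 : ℝ) < ((k : ℝ≥0)⁻¹ : ℝ≥0) := by
      have := hv
      positivity
    simp only [hq]
    positivity
  set P : ℝ := ∏ i, q i ^ (k * k) with hP
  have hPpos : 0 < P := Finset.prod_pos (fun i _ => pow_pos (hqpos i) _)
  have hPE : (∏ i, ENNReal.ofReal (q i) ^ (k * k)) = ENNReal.ofReal P := by
    rw [hP, ENNReal.ofReal_prod_of_nonneg (fun i _ => (pow_pos (hqpos i) _).le)]
    refine Finset.prod_congr rfl (fun i _ => ?_)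
    rw [ENNReal.ofReal_pow (hqpos i).le]
  have h4 : ENNReal.ofReal (1 / (2 * P)) ≤ volume Γ := by
    have h5 : (1 / 2 : ℝ≥0∞) ≤ ENNReal.ofReal P * volume Γ := by
      rw [← hPE]
      exact h3
    have h6 : ENNReal.ofReal (1 / (2 * P)) = (1 / 2 : ℝ≥0∞) / ENNReal.ofReal P := by
      rw [show 1 / (2 * P) = (1 / 2) / P by field_simp, ENNReal.ofReal_div_of_pos hPpos]
      congr 1
      rw [ENNReal.ofReal_div_of_pos (by norm_num)]
      simp
    rw [h6]
    refine ENNReal.div_le_of_le_mul ?_
    rw [mul_comm]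
    exact h5
  have h7 : ((Real.log (1 / (2 * P)) : ℝ) : EReal) ≤ ENNReal.log (volume Γ) := by
    rw [← ENNReal.log_ofReal_of_pos (by positivity)]
    exact ENNReal.log_monotone h4
  have h8 : ((((k : ℝ) ^ 2)⁻¹ : ℝ) : EReal) * ((Real.log (1 / (2 * P)) : ℝ) : EReal) ≤
      ((((k : ℝ) ^ 2)⁻¹ : ℝ) : EReal) * ENNReal.log (volume Γ) :=
    mul_le_mul_of_nonneg_left h7 (EReal.coe_nonneg.2 (by positivity))
  refine le_trans ?_ (add_le_add_left h8 _)
  rw [← EReal.coe_mul, ← EReal.coe_add, EReal.coe_le_coe_iff]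
  have hlogq : ∀ i, Real.log (q i) =
      -(1 / 2) * (Real.log (2 * Real.pi) + 2 * Real.log (scl c i) - Real.log k) := by
    intro i
    have hs := hscl i
    have hpi := Real.pi_pos
    simp only [hq]
    rw [Real.log_inv, Real.log_sqrt (by positivity), NNReal.coe_inv, NNReal.coe_natCast,
      Real.log_mul (by positivity) (by positivity),
      Real.log_mul (show scl c i ^ 2 ≠ 0 by positivity) (show (k : ℝ)⁻¹ ≠ 0 by positivity),
      Real.log_pow, Real.log_inv]
    push_cast
    ring
  have hlogP : Real.log P = (k * k : ℝ) * ∑ i, Real.log (q i) := by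
    rw [hP, Real.log_prod (fun i _ => (pow_pos (hqpos i) _).ne'), Finset.mul_sum]
    refine Finset.sum_congr rfl (fun i _ => ?_)
    rw [Real.log_pow]
    push_cast
    ring
  have hsumq : ∑ i, Real.log (q i) = -(1 / 2) * (N * Real.log (2 * Real.pi) +
      2 * ∑ i : Idx m, Real.log (scl c i) - N * Real.log k) := by
    simp only [hlogq]
    rw [← Finset.mul_sum, Finset.sum_sub_distrib, Finset.sum_add_distrib, ← Finset.mul_sum,
      Finset.sum_const, Finset.sum_const, Finset.card_univ, nsmul_eq_mul, nsmul_eq_mul, hN]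
  have h9 : Real.log (1 / (2 * P)) = -Real.log 2 - Real.log P := by
    rw [one_div, Real.log_inv, Real.log_mul (by norm_num) hPpos.ne']
    ring
  rw [h9, hlogP, hsumq, hL]
  have hk2 : ((k : ℝ) ^ 2)⁻¹ ≤ 1 := by
    have : (1 : ℝ) ≤ (k : ℝ) ^ 2 := by
      have h1k : (1 : ℝ) ≤ k := by exact_mod_cast hk1
      nlinarith
    exact inv_le_one_of_one_le₀ this
  have hlog2 : 0 ≤ Real.log 2 := Real.log_nonneg (by norm_num)
  have h10 : ((k : ℝ) ^ 2)⁻¹ * (-Real.log 2 - (k * k : ℝ) * (-(1 / 2) * (N * Real.log (2 * Real.pi) +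
      2 * ∑ i : Idx m, Real.log (scl c i) - N * Real.log k))) + N / 2 * Real.log k =
      -(((k : ℝ) ^ 2)⁻¹ * Real.log 2) + N / 2 * Real.log (2 * Real.pi) +
      ∑ i : Idx m, Real.log (scl c i) := by
    field_simp
    ring
  rw [h10]
  nlinarith

end Vale.Agent.P087
end
end

section

section

/-! Task U. Upper bound for the microstates entropy. -/

open MeasureTheory Filter
open scoped ENNReal NNReal

namespace Vale.Agent.P087

theorem integral_gauss_mat (k : ℕ) (b : ℝ) (hb : 0 < b) :
    Integrable (fun x : Fin k → Fin k → ℝ => ∏ i, ∏ j, Real.exp (-b * x i j ^ 2)) ∧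
    ∫ x : Fin k → Fin k → ℝ, ∏ i, ∏ j, Real.exp (-b * x i j ^ 2)
      = (Real.sqrt (Real.pi / b)) ^ (k ^ 2) := by
  constructor
  · exact Integrable.fintype_prod (f := fun i (y : Fin k → ℝ) => ∏ j, Real.exp (-b * y j ^ 2))
      (fun i => Integrable.fintype_prod (f := fun j (z : ℝ) => Real.exp (-b * z ^ 2))
        (fun j => integrable_exp_neg_mul_sq hb))
  · rw [integral_fintype_prod_volume_eq_pow
        (fun y : Fin k → ℝ => ∏ j, Real.exp (-b * y j ^ 2)),
      integral_fintype_prod_volume_eq_pow (fun z : ℝ => Real.exp (-b * z ^ 2)),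
      integral_gaussian]
    simp [← pow_mul, pow_two]

/-- volume of a Euclidean ball in matrix coordinates -/
theorem volume_ball_le (k : ℕ) (hk : 0 < k) (r : ℝ) (hr : 0 < r) :
    volume {x : Fin k → Fin k → ℝ | ∑ a, ∑ b, x a b ^ 2 ≤ k * r} ≤
      ENNReal.ofReal ((2 * Real.pi * Real.exp 1 * r / k) ^ ((k : ℝ) ^ 2 / 2)) := by
  have hk' : (0 : ℝ) < k := by exact_mod_cast hk
  set b : ℝ := k / (2 * r) with hb
  have hb0 : 0 < b := by positivity
  obtain ⟨hi, he⟩ := integral_gauss_mat k b hb0
  have hmeas : MeasurableSet {x : Fin k → Fin k → ℝ | ∑ a, ∑ b, x a b ^ 2 ≤ k * r} := by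
    apply measurableSet_le
    · fun_prop
    · fun_prop
  calc volume {x : Fin k → Fin k → ℝ | ∑ a, ∑ b, x a b ^ 2 ≤ k * r}
      = ∫⁻ x, Set.indicator {x : Fin k → Fin k → ℝ | ∑ a, ∑ b, x a b ^ 2 ≤ k * r}
          (fun _ => (1 : ℝ≥0∞)) x := by
        rw [lintegral_indicator hmeas]; simp
    _ ≤ ∫⁻ x : Fin k → Fin k → ℝ, ENNReal.ofReal (Real.exp ((k : ℝ) ^ 2 / 2)
          * ∏ i, ∏ j, Real.exp (-b * x i j ^ 2)) := by
        apply lintegral_mono
        intro x
        by_cases hx : x ∈ {x : Fin k → Fin k → ℝ | ∑ a, ∑ b, x a b ^ 2 ≤ k * r}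
        · rw [Set.indicator_of_mem hx]
          rw [ENNReal.one_le_ofReal]
          simp_rw [← Real.exp_sum]
          rw [← Real.exp_add]
          apply Real.one_le_exp
          have hx' : ∑ a, ∑ b, x a b ^ 2 ≤ k * r := hx
          have : ∑ i, ∑ j, -b * x i j ^ 2 = -b * ∑ i, ∑ j, x i j ^ 2 := by
            simp_rw [Finset.mul_sum]
          rw [this]
          have h2 : b * ∑ i, ∑ j, x i j ^ 2 ≤ b * (k * r) :=
            mul_le_mul_of_nonneg_left hx' hb0.le
          have h3 : b * (k * r) = (k : ℝ) ^ 2 / 2 := by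
            rw [hb]; field_simp
          linarith
        · rw [Set.indicator_of_notMem hx]
          exact zero_le
    _ = ENNReal.ofReal (∫ x : Fin k → Fin k → ℝ, Real.exp ((k : ℝ) ^ 2 / 2)
          * ∏ i, ∏ j, Real.exp (-b * x i j ^ 2)) := by
        rw [ofReal_integral_eq_lintegral_ofReal (hi.const_mul _)]
        filter_upwards with x
        positivity
    _ = ENNReal.ofReal ((2 * Real.pi * Real.exp 1 * r / k) ^ ((k : ℝ) ^ 2 / 2)) := by
        congr 1
        rw [integral_const_mul, he]
        have h1 : Real.exp ((k : ℝ) ^ 2 / 2) = (Real.exp 1) ^ ((k : ℝ) ^ 2 / 2) := by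
          rw [← Real.exp_mul, one_mul]
        have h2 : (Real.sqrt (Real.pi / b)) ^ (k ^ 2) = (Real.pi / b) ^ ((k : ℝ) ^ 2 / 2) := by
          rw [Real.sqrt_eq_rpow, ← Real.rpow_natCast, ← Real.rpow_mul (by positivity)]
          congr 1
          push_cast
          ring
        rw [h1, h2, ← Real.mul_rpow (by positivity) (by positivity)]
        congr 1
        rw [hb]
        field_simp

theorem semi_cons_range {J : Type} [DecidableEq J] (x : J) (w : List J) :
    semi (x :: w) = ∑ k ∈ Finset.range w.length,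
      if w[k]? = some x then semi (w.take k) * semi (w.drop (k + 1)) else 0 := by
  rw [semi, ← Fin.sum_univ_eq_sum_range (fun k => if w[k]? = some x then
    semi (w.take k) * semi (w.drop (k + 1)) else 0)]
  apply Finset.sum_congr rfl
  intro k _
  simp

theorem semi_nil_cu {J : Type} [DecidableEq J] : semi ([] : List J) = 1 := by rw [semi]

theorem lawX_diag (m : ℕ) (c θ : ℝ) (a : Fin m) : lawX m c θ 0 [(a,a),(a,a)] = (c^2 : ℝ) := by
  simp [lawX, expMom, coef, sig, yw, semi_cons_range, semi_nil_cu]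
  ring

theorem lawX_off (m : ℕ) (c θ : ℝ) (a b : Fin m) (hab : a ≠ b) :
    lawX m c θ 0 [(a,b),(a,b)] = (θ^2 + 1 : ℝ) := by
  simp [lawX, expMom, coef, sig, yw, semi_cons_range, semi_nil_cu, Finset.sum_range_succ, hab, hab.symm]
  ring

theorem lawX_off4 (m : ℕ) (c θ : ℝ) (a b : Fin m) (hab : a ≠ b) :
    lawX m c θ 0 [(a,b),(a,a),(b,b),(a,a)] = (θ * c ^ 3 : ℝ) := by
  simp [lawX, expMom, coef, sig, yw, semi_cons_range, semi_nil_cu, Finset.sum_range_succ, hab, hab.symm]
  left
  ring

theorem lawX_off4' (m : ℕ) (c θ : ℝ) (a b : Fin m) (hab : a ≠ b) :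
    lawX m c θ 0 [(a,a),(b,b),(a,a),(a,b)] = (θ * c ^ 3 : ℝ) := by
  simp [lawX, expMom, coef, sig, yw, semi_cons_range, semi_nil_cu, Finset.sum_range_succ, hab, hab.symm]
  ring

theorem lawX_off6 (m : ℕ) (c θ : ℝ) (a b : Fin m) (hab : a ≠ b) :
    lawX m c θ 0 [(a,a),(b,b),(a,a),(a,a),(b,b),(a,a)] = (c ^ 6 : ℝ) := by
  simp [lawX, expMom, coef, sig, yw, semi_cons_range, semi_nil_cu, Finset.sum_range_succ, hab, hab.symm]
  ring


/-- coordinates of a (Hermitian) matrix -/
noncomputable def coords (k : ℕ) (H : Matrix (Fin k) (Fin k) ℂ) : Fin k → Fin k → ℝ :=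
  fun a b => if a = b then (H a a).re
    else if a < b then Real.sqrt 2 * (H a b).re else Real.sqrt 2 * (H b a).im

theorem herm_isHermitian_cu (k : ℕ) (x : Fin k → Fin k → ℝ) : (herm k x).IsHermitian := by
  ext a b
  rw [Matrix.conjTranspose_apply]
  unfold herm
  rcases lt_trichotomy a b with h | h | h
  · simp [h, h.ne, h.ne', not_lt.mpr h.le]
  · subst h; simp
  · simp [h, h.ne, h.ne', not_lt.mpr h.le, Complex.ext_iff]

theorem herm_coords (k : ℕ) (H : Matrix (Fin k) (Fin k) ℂ) (hH : H.IsHermitian) :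
    herm k (coords k H) = H := by
  have h2 : (Real.sqrt 2 : ℝ) ≠ 0 := by positivity
  ext a b
  unfold herm coords
  have hba : H b a = (starRingEnd ℂ) (H a b) := by
    rw [← hH.apply b a]; rfl
  rcases lt_trichotomy a b with h | h | h
  · simp only [h.ne, h, h.ne', not_lt.mpr h.le, if_true, if_false]
    rw [div_eq_iff (by exact_mod_cast h2)]
    apply Complex.ext <;> simp <;> ring
  · subst h
    simp only [if_true]
    have := hH.apply a a
    apply Complex.ext
    · simp
    · simp
      have := congrArg Complex.im this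
      simp at this
      linarith
  · simp only [h.ne, h, h.ne', not_lt.mpr h.le, if_true, if_false]
    rw [div_eq_iff (by exact_mod_cast h2)]
    have hba' : H a b = (starRingEnd ℂ) (H b a) := by
      rw [← hH.apply a b]; rfl
    rw [hba']
    apply Complex.ext <;> simp <;> ring

theorem herm_sub (k : ℕ) (x y : Fin k → Fin k → ℝ) :
    herm k (x - y) = herm k x - herm k y := by
  ext a b
  rw [Matrix.sub_apply]
  unfold herm
  rcases lt_trichotomy a b with h | h | h
  · simp [h, h.ne]; ring
  · subst h; simp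
  · simp [h.ne', not_lt.mpr h.le]; ring

theorem herm_mul_herm (k : ℕ) (x : Fin k → Fin k → ℝ) (a b : Fin k) :
    herm k x a b * herm k x b a = (((x a b ^ 2 + x b a ^ 2) / 2 : ℝ) : ℂ) := by
  have h2 : ((Real.sqrt 2 : ℝ) : ℂ) * ((Real.sqrt 2 : ℝ) : ℂ) = 2 := by
    rw [← Complex.ofReal_mul, Real.mul_self_sqrt (by norm_num)]; norm_num
  have hI : Complex.I * Complex.I = -1 := Complex.I_mul_I
  unfold herm
  rcases lt_trichotomy a b with h | h | h
  · simp only [h.ne, h, h.ne', not_lt.mpr h.le, if_true, if_false]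
    rw [div_mul_div_comm, h2]
    push_cast
    congr 1
    linear_combination (-(x b a : ℂ) ^ 2) * hI
  · subst h; simp; ring
  · simp only [h.ne, h, h.ne', not_lt.mpr h.le, if_true, if_false]
    rw [div_mul_div_comm, h2]
    push_cast
    congr 1
    linear_combination (-(x a b : ℂ) ^ 2) * hI

theorem trace_herm_sq (k : ℕ) (x : Fin k → Fin k → ℝ) :
    (herm k x * herm k x).trace = ((∑ a, ∑ b, x a b ^ 2 : ℝ) : ℂ) := by
  simp only [Matrix.trace, Matrix.diag, Matrix.mul_apply]
  simp_rw [herm_mul_herm, ← Complex.ofReal_sum]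
  congr 1
  simp_rw [add_div, Finset.sum_add_distrib]
  rw [Finset.sum_comm (f := fun a b => x b a ^ 2 / 2)]
  rw [← Finset.sum_add_distrib]
  apply Finset.sum_congr rfl
  intro a _
  rw [← Finset.sum_add_distrib]
  apply Finset.sum_congr rfl
  intro b _
  ring


theorem norm_comb {z1 z2 z3 z4 m1 m2 m3 m4 : ℂ} {s ε : ℝ}
    (h1 : ‖z1 - m1‖ < ε) (h2 : ‖z2 - m2‖ < ε) (h3 : ‖z3 - m3‖ < ε) (h4 : ‖z4 - m4‖ < ε) :
    ‖(z1 - s * z2 - s * z3 + s ^ 2 * z4) - (m1 - s * m2 - s * m3 + s ^ 2 * m4)‖
      ≤ (1 + 2 * |s| + s ^ 2) * ε := by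
  have e : (z1 - s * z2 - s * z3 + s ^ 2 * z4) - (m1 - s * m2 - s * m3 + s ^ 2 * m4)
      = (z1 - m1) - s * (z2 - m2) - s * (z3 - m3) + s ^ 2 * (z4 - m4) := by ring
  rw [e]
  have n2 : ‖(s : ℂ) * (z2 - m2)‖ ≤ |s| * ε := by
    rw [norm_mul, Complex.norm_real, Real.norm_eq_abs]
    exact mul_le_mul_of_nonneg_left h2.le (abs_nonneg _)
  have n3 : ‖(s : ℂ) * (z3 - m3)‖ ≤ |s| * ε := by
    rw [norm_mul, Complex.norm_real, Real.norm_eq_abs]
    exact mul_le_mul_of_nonneg_left h3.le (abs_nonneg _)
  have n4 : ‖(s : ℂ) ^ 2 * (z4 - m4)‖ ≤ s ^ 2 * ε := by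
    rw [norm_mul, norm_pow, Complex.norm_real, Real.norm_eq_abs, sq_abs]
    exact mul_le_mul_of_nonneg_left h4.le (sq_nonneg _)
  calc ‖(z1 - m1) - s * (z2 - m2) - s * (z3 - m3) + s ^ 2 * (z4 - m4)‖
      ≤ ‖(z1 - m1) - s * (z2 - m2) - s * (z3 - m3)‖ + ‖(s : ℂ) ^ 2 * (z4 - m4)‖ := norm_add_le _ _
    _ ≤ ‖(z1 - m1) - s * (z2 - m2)‖ + ‖(s : ℂ) * (z3 - m3)‖ + ‖(s : ℂ) ^ 2 * (z4 - m4)‖ := by
        gcongr; exact norm_sub_le _ _
    _ ≤ ‖z1 - m1‖ + ‖(s : ℂ) * (z2 - m2)‖ + ‖(s : ℂ) * (z3 - m3)‖ + ‖(s : ℂ) ^ 2 * (z4 - m4)‖ := by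
        gcongr; exact norm_sub_le _ _
    _ ≤ ε + |s| * ε + |s| * ε + s ^ 2 * ε := by
        have := h1.le
        gcongr
    _ = _ := by ring

/-- the coordinates of `(θ / c³) X_aa X_bb X_aa` -/
noncomputable def shear (k : ℕ) (s : ℝ) (p q : Fin k → Fin k → ℝ) : Fin k → Fin k → ℝ :=
  coords k ((s : ℂ) • (herm k p * herm k q * herm k p))

theorem herm_shear (k : ℕ) (s : ℝ) (p q : Fin k → Fin k → ℝ) :
    herm k (shear k s p q) = (s : ℂ) • (herm k p * herm k q * herm k p) := by
  apply herm_coords
  have hp := herm_isHermitian_cu k p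
  have hq := herm_isHermitian_cu k q
  unfold Matrix.IsHermitian at *
  rw [Matrix.conjTranspose_smul, Matrix.conjTranspose_mul, Matrix.conjTranspose_mul, hp, hq]
  simp [Matrix.mul_assoc]

theorem micro_diag {m k : ℕ} {c θ R ε : ℝ} (hk : 0 < k)
    {x : Idx m → Fin k → Fin k → ℝ} (hx : x ∈ microstates (lawX m c θ 0) R 6 k ε) (a : Fin m) :
    ∑ i, ∑ j, x (a, a) i j ^ 2 ≤ k * (c ^ 2 + ε) := by
  have hk' : (0 : ℝ) < k := by exact_mod_cast hk
  have h := hx.2 [(a, a), (a, a)] (by simp) (by simp)
  rw [lawX_diag] at h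
  simp only [List.map_cons, List.map_nil, List.prod_cons, List.prod_nil, mul_one] at h
  rw [trace_herm_sq] at h
  have h' : |(k : ℝ)⁻¹ * (∑ i, ∑ j, x (a, a) i j ^ 2) - c ^ 2| < ε := by
    rw [← Real.norm_eq_abs, ← Complex.norm_real]
    push_cast
    push_cast at h
    exact h
  have h2 := (abs_lt.mp h').2
  have h3 : (k : ℝ)⁻¹ * (∑ i, ∑ j, x (a, a) i j ^ 2) ≤ c ^ 2 + ε := by linarith
  rw [inv_mul_le_iff₀ hk'] at h3
  exact h3

theorem micro_off {m k : ℕ} {c θ R ε : ℝ} (hk : 0 < k) (hc : 0 < c)
    {x : Idx m → Fin k → Fin k → ℝ} (hx : x ∈ microstates (lawX m c θ 0) R 6 k ε) (a b : Fin m)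
    (hab : a ≠ b) :
    ∑ i, ∑ j, (x (a, b) - shear k (θ / c ^ 3) (x (a, a)) (x (b, b))) i j ^ 2
      ≤ k * (1 + (1 + 2 * |θ / c ^ 3| + (θ / c ^ 3) ^ 2) * ε) := by
  have hk' : (0 : ℝ) < k := by exact_mod_cast hk
  have h1 := hx.2 [(a, b), (a, b)] (by simp) (by simp)
  have h2 := hx.2 [(a, b), (a, a), (b, b), (a, a)] (by simp) (by simp)
  have h3 := hx.2 [(a, a), (b, b), (a, a), (a, b)] (by simp) (by simp)
  have h4 := hx.2 [(a, a), (b, b), (a, a), (a, a), (b, b), (a, a)] (by simp) (by simp)
  rw [lawX_off m c θ a b hab] at h1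
  rw [lawX_off4 m c θ a b hab] at h2
  rw [lawX_off4' m c θ a b hab] at h3
  rw [lawX_off6 m c θ a b hab] at h4
  simp only [List.map_cons, List.map_nil, List.prod_cons, List.prod_nil, mul_one] at h1 h2 h3 h4
  have h := norm_comb (s := θ / c ^ 3) h1 h2 h3 h4
  set s := θ / c ^ 3 with hs
  have hθ : θ = s * c ^ 3 := by rw [hs]; field_simp
  set A := herm k (x (a, a)) with hA
  set B := herm k (x (b, b)) with hB
  set X := herm k (x (a, b)) with hX
  have key : ((k : ℂ)⁻¹ * (X * X).trace - s * ((k : ℂ)⁻¹ * (X * (A * (B * A))).trace)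
      - s * ((k : ℂ)⁻¹ * (A * (B * (A * X))).trace)
      + (s : ℂ) ^ 2 * ((k : ℂ)⁻¹ * (A * (B * (A * (A * (B * A))))).trace))
      = (k : ℂ)⁻¹ * ((∑ i, ∑ j, (x (a, b) - shear k s (x (a, a)) (x (b, b))) i j ^ 2 : ℝ) : ℂ) := by
    rw [← trace_herm_sq, herm_sub, herm_shear, ← hA, ← hB, ← hX]
    have : (X - (s : ℂ) • (A * B * A)) * (X - (s : ℂ) • (A * B * A))
        = X * X - (s : ℂ) • (X * (A * (B * A))) - (s : ℂ) • (A * (B * (A * X)))
          + ((s : ℂ) ^ 2) • (A * (B * (A * (A * (B * A))))) := by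
      simp only [sub_mul, mul_sub, Matrix.smul_mul, Matrix.mul_smul, Matrix.mul_assoc, smul_smul,
        pow_two]
      abel
    rw [this]
    simp only [Matrix.trace_add, Matrix.trace_sub, Matrix.trace_smul, smul_eq_mul]
    ring
  have hm : (((θ ^ 2 + 1 : ℝ) : ℂ) - s * ((θ * c ^ 3 : ℝ) : ℂ) - s * ((θ * c ^ 3 : ℝ) : ℂ)
      + (s : ℂ) ^ 2 * ((c ^ 6 : ℝ) : ℂ)) = ((1 : ℝ) : ℂ) := by
    rw [hθ]; push_cast; ring
  rw [key, hm] at h
  have h' : |(k : ℝ)⁻¹ * (∑ i, ∑ j, (x (a, b) - shear k s (x (a, a)) (x (b, b))) i j ^ 2) - 1|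
      ≤ (1 + 2 * |s| + s ^ 2) * ε := by
    rw [← Real.norm_eq_abs, ← Complex.norm_real]
    push_cast
    push_cast at h
    exact h
  have h2 := (abs_le.mp h').2
  have h3 : (k : ℝ)⁻¹ * (∑ i, ∑ j, (x (a, b) - shear k s (x (a, a)) (x (b, b))) i j ^ 2)
      ≤ 1 + (1 + 2 * |s| + s ^ 2) * ε := by linarith
  rw [inv_mul_le_iff₀ hk'] at h3
  exact h3

theorem continuous_herm (k : ℕ) : Continuous (herm k) := by
  unfold herm
  apply continuous_matrix
  intro a b
  rcases lt_trichotomy a b with h | h | h
  · simp only [h.ne, h, if_true, if_false]; fun_prop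
  · subst h; simp only [if_true]; fun_prop
  · simp only [h.ne', not_lt.mpr h.le, if_false]; fun_prop

theorem continuous_coords (k : ℕ) : Continuous (coords k) := by
  unfold coords
  apply continuous_pi
  intro a
  apply continuous_pi
  intro b
  rcases lt_trichotomy a b with h | h | h
  · simp only [h.ne, h, if_true, if_false]; fun_prop
  · subst h; simp only [if_true]; fun_prop
  · simp only [h.ne', not_lt.mpr h.le, if_false]; fun_prop

theorem continuous_shear (k : ℕ) (s : ℝ) :
    Continuous (fun p : (Fin k → Fin k → ℝ) × (Fin k → Fin k → ℝ) => shear k s p.1 p.2) := by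
  unfold shear
  apply (continuous_coords k).comp
  have := continuous_herm k
  exact (((this.comp continuous_fst).matrix_mul (this.comp continuous_snd)).matrix_mul
    (this.comp continuous_fst)).const_smul (s : ℂ)

/-- general shear-volume inequality -/
theorem volume_shear_le {κ κ' E : Type} [Fintype κ] [Fintype κ']
    [NormedAddCommGroup E] [NormedSpace ℝ E] [FiniteDimensional ℝ E] [MeasureSpace E]
    [BorelSpace E] [(volume : Measure E).IsAddHaarMeasure] [SigmaFinite (volume : Measure E)]
    (F : (κ → E) → κ' → E) (hF : Continuous F) (B1 B2 : Set E) (hB1 : MeasurableSet B1)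
    (hB2 : MeasurableSet B2) :
    volume {p : (κ → E) × (κ' → E) | (∀ i, p.1 i ∈ B1) ∧ ∀ j, p.2 j - F p.1 j ∈ B2}
      ≤ (volume B1) ^ (Fintype.card κ) * (volume B2) ^ (Fintype.card κ') := by
  have hm : MeasurableSet {p : (κ → E) × (κ' → E) | (∀ i, p.1 i ∈ B1) ∧
      ∀ j, p.2 j - F p.1 j ∈ B2} := by
    have h1 : Measurable fun p : (κ → E) × (κ' → E) => p.1 := measurable_fst
    have h2 : Measurable fun p : (κ → E) × (κ' → E) => p.2 := measurable_snd
    have hF' : Measurable fun p : (κ → E) × (κ' → E) => F p.1 := hF.measurable.comp measurable_fst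
    have he : {p : (κ → E) × (κ' → E) | (∀ i, p.1 i ∈ B1) ∧ ∀ j, p.2 j - F p.1 j ∈ B2}
        = (⋂ i, (fun p : (κ → E) × (κ' → E) => p.1 i) ⁻¹' B1)
          ∩ (⋂ j, (fun p : (κ → E) × (κ' → E) => p.2 j - F p.1 j) ⁻¹' B2) := by
      ext p; simp
    rw [he]
    apply MeasurableSet.inter
    · exact MeasurableSet.iInter (fun i => (measurable_pi_apply i).comp h1 hB1)
    · exact MeasurableSet.iInter (fun j =>
        (((measurable_pi_apply j).comp h2).sub ((measurable_pi_apply j).comp hF')) hB2)
  rw [Measure.volume_eq_prod, Measure.prod_apply hm]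
  calc ∫⁻ u, volume (Prod.mk u ⁻¹' {p : (κ → E) × (κ' → E) | (∀ i, p.1 i ∈ B1) ∧
        ∀ j, p.2 j - F p.1 j ∈ B2})
      ≤ ∫⁻ u, Set.indicator (Set.univ.pi fun _ : κ => B1)
          (fun _ => (volume B2) ^ (Fintype.card κ')) u := by
        apply lintegral_mono
        intro u
        by_cases hu : u ∈ Set.univ.pi fun _ : κ => B1
        · rw [Set.indicator_of_mem hu]
          have : Prod.mk u ⁻¹' {p : (κ → E) × (κ' → E) | (∀ i, p.1 i ∈ B1) ∧
              ∀ j, p.2 j - F p.1 j ∈ B2} ⊆ (fun v => v - F u) ⁻¹' (Set.univ.pi fun _ : κ' => B2) := by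
            intro v hv
            simp only [Set.mem_preimage, Set.mem_ofPred_eq] at hv
            simp only [Set.mem_preimage, Set.mem_univ_pi]
            intro j
            exact hv.2 j
          calc _ ≤ volume ((fun v => v - F u) ⁻¹' (Set.univ.pi fun _ : κ' => B2)) :=
                measure_mono this
            _ = volume (Set.univ.pi fun _ : κ' => B2) := by
                simp_rw [sub_eq_add_neg]
                rw [measure_preimage_add_right]
            _ = _ := by rw [volume_pi_pi]; simp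
        · rw [Set.indicator_of_notMem hu]
          have : Prod.mk u ⁻¹' {p : (κ → E) × (κ' → E) | (∀ i, p.1 i ∈ B1) ∧
              ∀ j, p.2 j - F p.1 j ∈ B2} = ∅ := by
            ext v
            simp only [Set.mem_preimage, Set.mem_ofPred_eq, Set.mem_empty_iff_false, iff_false]
            intro hv
            exact hu (by simpa using hv.1)
          simp only [this, measure_empty, le_refl]
    _ = _ := by
        rw [lintegral_indicator (MeasurableSet.univ_pi fun _ => hB1), setLIntegral_const,
          volume_pi_pi, mul_comm]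
        simp


theorem card_diag (m : ℕ) : Fintype.card {i : Idx m // i.1 = i.2} = m := by
  have e : {i : Idx m // i.1 = i.2} ≃ Fin m :=
    { toFun := fun i => i.1.1
      invFun := fun a => ⟨(a, a), rfl⟩
      left_inv := by
        rintro ⟨⟨a, b⟩, h⟩
        simp only at h
        subst h
        rfl
      right_inv := fun a => rfl }
  rw [Fintype.card_congr e, Fintype.card_fin]

theorem card_off (m : ℕ) : Fintype.card {i : Idx m // ¬ i.1 = i.2} = m ^ 2 - m := by
  rw [Fintype.card_subtype_compl, card_diag, Fintype.card_prod, Fintype.card_fin, pow_two]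

noncomputable def shearMap (m k : ℕ) (s : ℝ) (u : {i : Idx m // i.1 = i.2} → Fin k → Fin k → ℝ) :
    {i : Idx m // ¬ i.1 = i.2} → Fin k → Fin k → ℝ := fun j =>
  shear k s (u ⟨(j.1.1, j.1.1), rfl⟩) (u ⟨(j.1.2, j.1.2), rfl⟩)

theorem continuous_shearMap (m k : ℕ) (s : ℝ) : Continuous (shearMap m k s) := by
  refine continuous_pi fun j => ?_
  have h1 : Continuous (fun u : ({i : Idx m // i.1 = i.2} → Fin k → Fin k → ℝ) =>
      (u ⟨(j.1.1, j.1.1), rfl⟩, u ⟨(j.1.2, j.1.2), rfl⟩)) :=
    Continuous.prodMk (continuous_apply _) (continuous_apply _)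
  have h2 := (continuous_shear k s).comp h1
  simp only [Function.comp_def] at h2
  simp only [shearMap]
  exact h2

theorem volume_micro_le {m k : ℕ} {c θ R ε : ℝ} (hk : 0 < k) (hc : 0 < c) (hε : 0 < ε) :
    volume (microstates (lawX m c θ 0) R 6 k ε) ≤
      ENNReal.ofReal ((2 * Real.pi * Real.exp 1 * (c ^ 2 + ε) / k) ^ ((k : ℝ) ^ 2 / 2)) ^ m *
      ENNReal.ofReal ((2 * Real.pi * Real.exp 1
        * (1 + (1 + 2 * |θ / c ^ 3| + (θ / c ^ 3) ^ 2) * ε) / k) ^ ((k : ℝ) ^ 2 / 2))
        ^ (m ^ 2 - m) := by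
  set K := (1 + 2 * |θ / c ^ 3| + (θ / c ^ 3) ^ 2) with hK
  have hK0 : 0 < K := by positivity
  set B1 : Set (Fin k → Fin k → ℝ) := {x | ∑ a, ∑ b, x a b ^ 2 ≤ k * (c ^ 2 + ε)} with hB1
  set B2 : Set (Fin k → Fin k → ℝ) := {x | ∑ a, ∑ b, x a b ^ 2 ≤ k * (1 + K * ε)} with hB2
  have mB1 : MeasurableSet B1 := by
    apply measurableSet_le
    · fun_prop
    · fun_prop
  have mB2 : MeasurableSet B2 := by
    apply measurableSet_le
    · fun_prop
    · fun_prop
  set F := shearMap m k (θ / c ^ 3) with hFdef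
  have hF : Continuous F := continuous_shearMap m k _
  have hmp := volume_preserving_piEquivPiSubtypeProd
    (fun _ : Idx m => Fin k → Fin k → ℝ) (fun i => i.1 = i.2)
  set e := MeasurableEquiv.piEquivPiSubtypeProd
        (fun _ : Idx m => Fin k → Fin k → ℝ) (fun i => i.1 = i.2) with he
  have e1 : ∀ x i, (e x).1 i = x i.1 := fun x i => rfl
  have e2 : ∀ x i, (e x).2 i = x i.1 := fun x i => rfl
  have hsub : microstates (lawX m c θ 0) R 6 k ε ⊆ e ⁻¹'
      {p | (∀ i, p.1 i ∈ B1) ∧ ∀ j, p.2 j - F p.1 j ∈ B2} := by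
    intro x hx
    rw [Set.mem_preimage, Set.mem_ofPred_eq]
    constructor
    · rintro ⟨⟨a, b⟩, h⟩
      simp only at h
      subst h
      rw [e1, hB1, Set.mem_ofPred_eq]
      exact micro_diag hk hx a
    · rintro ⟨⟨a, b⟩, h⟩
      rw [e2, hB2, Set.mem_ofPred_eq]
      have : F (e x).1 ⟨(a, b), h⟩ = shear k (θ / c ^ 3) (x (a, a)) (x (b, b)) := rfl
      rw [this]
      exact micro_off hk hc hx a b h
  calc volume (microstates (lawX m c θ 0) R 6 k ε)
      ≤ _ := measure_mono hsub
    _ = volume {p : ({i : Idx m // i.1 = i.2} → Fin k → Fin k → ℝ) ×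
          ({i : Idx m // ¬ i.1 = i.2} → Fin k → Fin k → ℝ) |
          (∀ i, p.1 i ∈ B1) ∧ ∀ j, p.2 j - F p.1 j ∈ B2} := hmp.measure_preimage_equiv _
    _ ≤ (volume B1) ^ (Fintype.card {i : Idx m // i.1 = i.2})
        * (volume B2) ^ (Fintype.card {i : Idx m // ¬ i.1 = i.2}) :=
        volume_shear_le F hF B1 B2 mB1 mB2
    _ ≤ _ := by
        rw [card_diag, card_off]
        have h1 := volume_ball_le k hk (c ^ 2 + ε) (by positivity)
        have h2 := volume_ball_le k hk (1 + K * ε) (by positivity)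
        gcongr

theorem chi_le (m : ℕ) (c θ : ℝ) (hc : 0 < c) :
    chi (lawX m c θ 0) ≤
      (((m : ℝ) / 2 * Real.log (2 * Real.pi * Real.exp 1 * c ^ 2)
        + ((m : ℝ) ^ 2 - m) / 2 * Real.log (2 * Real.pi * Real.exp 1) : ℝ) : EReal) := by
  set K := (1 + 2 * |θ / c ^ 3| + (θ / c ^ 3) ^ 2) with hK
  have hK0 : 0 < K := by positivity
  let C : ℝ → ℝ := fun ε => (m : ℝ) / 2 * Real.log (2 * Real.pi * Real.exp 1 * (c ^ 2 + ε))
        + ((m : ℝ) ^ 2 - m) / 2 * Real.log (2 * Real.pi * Real.exp 1 * (1 + K * ε))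
  have hC : ∀ R ε : ℝ, 0 < ε → chiR (lawX m c θ 0) R ≤ (C ε : EReal) := by
    intro R ε hε
    apply iInf_le_of_le 6
    apply iInf_le_of_le ε
    apply iInf_le_of_le hε
    apply limsup_le_of_le (by isBoundedDefault)
    filter_upwards [eventually_gt_atTop 0] with k hk
    have hk' : (0 : ℝ) < k := by exact_mod_cast hk
    have hv := volume_micro_le (m := m) (θ := θ) (R := R) hk hc hε
    rw [← hK] at hv
    set V1 := (2 * Real.pi * Real.exp 1 * (c ^ 2 + ε) / k) ^ ((k : ℝ) ^ 2 / 2) with hV1
    set V2 := (2 * Real.pi * Real.exp 1 * (1 + K * ε) / k) ^ ((k : ℝ) ^ 2 / 2) with hV2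
    have p1 : 0 < V1 := by positivity
    have p2 : 0 < V2 := by positivity
    rw [← ENNReal.ofReal_pow p1.le, ← ENNReal.ofReal_pow p2.le,
      ← ENNReal.ofReal_mul (by positivity)] at hv
    have hl := ENNReal.log_monotone hv
    rw [ENNReal.log_ofReal_of_pos (by positivity)] at hl
    have hlog : Real.log (V1 ^ m * V2 ^ (m ^ 2 - m)) =
        (m : ℝ) * ((k : ℝ) ^ 2 / 2 * (Real.log (2 * Real.pi * Real.exp 1 * (c ^ 2 + ε))
          - Real.log k))
        + ((m : ℝ) ^ 2 - m) * ((k : ℝ) ^ 2 / 2 * (Real.log (2 * Real.pi * Real.exp 1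
          * (1 + K * ε)) - Real.log k)) := by
      rw [Real.log_mul (by positivity) (by positivity), Real.log_pow, Real.log_pow, hV1, hV2,
        Real.log_rpow (by positivity), Real.log_rpow (by positivity),
        Real.log_div (by positivity) (by positivity), Real.log_div (by positivity) (by positivity),
        Nat.cast_sub (by nlinarith [Nat.zero_le m, Nat.le_self_pow two_ne_zero m])]
      push_cast
      ring
    rw [hlog] at hl
    have hcard : (Fintype.card (Idx m) : ℝ) = (m : ℝ) ^ 2 := by
      rw [Fintype.card_prod, Fintype.card_fin]; push_cast; ring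
    rw [hcard]
    calc ((((k : ℝ) ^ 2)⁻¹ : ℝ) : EReal)
            * ENNReal.log (volume (microstates (lawX m c θ 0) R 6 k ε))
            + (((m : ℝ) ^ 2 / 2 * Real.log k : ℝ) : EReal)
        ≤ ((((k : ℝ) ^ 2)⁻¹ : ℝ) : EReal) * (((m : ℝ) * ((k : ℝ) ^ 2 / 2
            * (Real.log (2 * Real.pi * Real.exp 1 * (c ^ 2 + ε)) - Real.log k))
        + ((m : ℝ) ^ 2 - m) * ((k : ℝ) ^ 2 / 2 * (Real.log (2 * Real.pi * Real.exp 1
          * (1 + K * ε)) - Real.log k)) : ℝ) : EReal)
            + (((m : ℝ) ^ 2 / 2 * Real.log k : ℝ) : EReal) := by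
          gcongr
      _ = (C ε : EReal) := by
          rw [← EReal.coe_mul, ← EReal.coe_add]
          congr 1
          simp only [C]
          field_simp
          ring
  apply iSup_le
  intro R
  apply iSup_le
  intro hR
  have ht : Tendsto (fun ε => (C ε : EReal)) (nhdsWithin 0 (Set.Ioi 0)) (nhds (C 0 : EReal)) := by
    apply (continuous_coe_real_ereal.tendsto _).comp
    apply Tendsto.mono_left _ nhdsWithin_le_nhds
    apply ContinuousAt.tendsto
    simp only [C]
    apply ContinuousAt.add
    · apply ContinuousAt.mul continuousAt_const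
      apply ContinuousAt.log
      · fun_prop
      · positivity
    · apply ContinuousAt.mul continuousAt_const
      apply ContinuousAt.log
      · fun_prop
      · positivity
  have h0 : C 0 = (m : ℝ) / 2 * Real.log (2 * Real.pi * Real.exp 1 * c ^ 2)
        + ((m : ℝ) ^ 2 - m) / 2 * Real.log (2 * Real.pi * Real.exp 1) := by
    simp [C]
  rw [← h0]
  apply ge_of_tendsto ht
  filter_upwards [self_mem_nhdsWithin] with ε hε
  exact hC R ε hε

end Vale.Agent.P087
end
end

section

section

/-! Full Fock space over an orthonormal family indexed by `J`: `ℓ²(List J)`. -/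

open scoped InnerProductSpace

namespace Vale.Agent.P087

/-- The full Fock space `ℓ²(List J)`. -/
abbrev Fock (J : Type) : Type := lp (fun _ : List J => ℂ) 2

section
variable {J : Type} [DecidableEq J]

/-- basis vector `δ_w` -/
noncomputable def bas (w : List J) : Fock J := lp.single 2 w (1 : ℂ)

/-- the Hilbert basis `(δ_w)` -/
noncomputable def hb (J : Type) [DecidableEq J] : HilbertBasis (List J) ℂ (Fock J) :=
  HilbertBasis.ofRepr (LinearIsometryEquiv.refl ℂ _)

theorem hb_apply (w : List J) : hb J w = bas w := by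
  have h := (hb J).repr_self w
  exact h

theorem orthonormal_bas : Orthonormal ℂ (bas : List J → Fock J) := by
  have h := (hb J).orthonormal
  have h2 : (⇑(hb J)) = bas := funext hb_apply
  rwa [h2] at h

theorem inner_bas (u v : List J) : ⟪bas u, bas v⟫_ℂ = if u = v then (1 : ℂ) else 0 :=
  orthonormal_iff_ite.mp orthonormal_bas u v

theorem norm_bas (u : List J) : ‖bas u‖ = 1 := orthonormal_bas.1 u

theorem span_bas_dense :
    (Submodule.span ℂ (Set.range (bas : List J → Fock J))).topologicalClosure = ⊤ := by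
  have h := (hb J).dense_span
  have h2 : (⇑(hb J)) = bas := funext hb_apply
  rwa [h2] at h

theorem ext_bas {E : Type*} [NormedAddCommGroup E] [NormedSpace ℂ E]
    {T T' : Fock J →L[ℂ] E} (h : ∀ w, T (bas w) = T' (bas w)) : T = T' := by
  have hd : Dense ((Submodule.span ℂ (Set.range (bas : List J → Fock J)) : Submodule ℂ (Fock J)) :
      Set (Fock J)) := by
    rw [Submodule.dense_iff_topologicalClosure_eq_top]
    exact span_bas_dense
  apply ContinuousLinearMap.ext_on hd
  rintro _ ⟨w, rfl⟩
  exact h w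

theorem ext_inner_bas {x y : Fock J} (h : ∀ w, ⟪bas w, x⟫_ℂ = ⟪bas w, y⟫_ℂ) : x = y := by
  have := (hb J).repr.injective
  apply this
  ext w
  rw [(hb J).repr_apply_apply, (hb J).repr_apply_apply, hb_apply]
  exact h w

/-- operator induced by an injection of words -/
noncomputable def inj (f : List J → List J) (hf : Function.Injective f) :
    Fock J →ₗᵢ[ℂ] Fock J :=
  ((orthonormal_bas (J := J)).comp f hf).orthogonalFamily.linearIsometry

theorem inj_bas (f : List J → List J) (hf : Function.Injective f) (w : List J) :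
    inj f hf (bas w) = bas (f w) := by
  unfold inj
  have := ((orthonormal_bas (J := J)).comp f hf).orthogonalFamily.linearIsometry_apply_single
    (i := w) (1 : ℂ)
  rw [bas, this]
  simp

/-- left creation -/
noncomputable def creL (x : J) : Fock J →L[ℂ] Fock J :=
  (inj (List.cons x) List.cons_injective).toContinuousLinearMap

/-- right creation -/
noncomputable def creR (x : J) : Fock J →L[ℂ] Fock J :=
  (inj (fun w => w ++ [x]) (List.append_left_injective [x])).toContinuousLinearMap

@[simp] theorem creL_bas (x : J) (w : List J) : creL x (bas w) = bas (x :: w) :=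
  inj_bas (List.cons x) List.cons_injective w

@[simp] theorem creR_bas (x : J) (w : List J) : creR x (bas w) = bas (w ++ [x]) :=
  inj_bas (fun w => w ++ [x]) (List.append_left_injective [x]) w

/-- left annihilation -/
noncomputable def annL (x : J) : Fock J →L[ℂ] Fock J := ContinuousLinearMap.adjoint (creL x)

/-- right annihilation -/
noncomputable def annR (x : J) : Fock J →L[ℂ] Fock J := ContinuousLinearMap.adjoint (creR x)

@[simp] theorem annL_nil (x : J) : annL x (bas []) = 0 := by
  apply ext_inner_bas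
  intro w
  rw [annL, ContinuousLinearMap.adjoint_inner_right, creL_bas, inner_bas]
  simp

@[simp] theorem annL_cons (x y : J) (w : List J) :
    annL x (bas (y :: w)) = if x = y then bas w else 0 := by
  apply ext_inner_bas
  intro u
  rw [annL, ContinuousLinearMap.adjoint_inner_right, creL_bas, inner_bas]
  by_cases h : x = y
  · subst h
    simp [inner_bas]
  · simp [h]

@[simp] theorem annR_nil (x : J) : annR x (bas []) = 0 := by
  apply ext_inner_bas
  intro w
  rw [annR, ContinuousLinearMap.adjoint_inner_right, creR_bas, inner_bas]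
  simp

@[simp] theorem annR_concat (x y : J) (w : List J) :
    annR x (bas (w ++ [y])) = if x = y then bas w else 0 := by
  apply ext_inner_bas
  intro u
  rw [annR, ContinuousLinearMap.adjoint_inner_right, creR_bas, inner_bas]
  by_cases h : x = y
  · subst h
    simp [inner_bas]
  · have : ¬ (u ++ [x] = w ++ [y]) := by
      intro h'
      exact h (List.append_inj_right' h' rfl |> List.singleton_inj.mp)
    simp [h, this]

/-- left semicircular `s_x = ℓ_x + ℓ_x^*` -/
noncomputable def semL (x : J) : Fock J →L[ℂ] Fock J := creL x + annL x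

/-- right semicircular `t_x = r_x + r_x^*` -/
noncomputable def semR (x : J) : Fock J →L[ℂ] Fock J := creR x + annR x

theorem adjoint_creL (x : J) : ContinuousLinearMap.adjoint (creL x) = annL x := rfl

theorem adjoint_annL (x : J) : ContinuousLinearMap.adjoint (annL x) = creL x := by
  rw [annL, ContinuousLinearMap.adjoint_adjoint]

theorem adjoint_creR (x : J) : ContinuousLinearMap.adjoint (creR x) = annR x := rfl

theorem adjoint_annR (x : J) : ContinuousLinearMap.adjoint (annR x) = creR x := by
  rw [annR, ContinuousLinearMap.adjoint_adjoint]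

theorem isSelfAdjoint_semL (x : J) : IsSelfAdjoint (semL x) := by
  rw [IsSelfAdjoint, semL, star_add, ContinuousLinearMap.star_eq_adjoint,
    ContinuousLinearMap.star_eq_adjoint, adjoint_creL, adjoint_annL, add_comm]

theorem isSelfAdjoint_semR (x : J) : IsSelfAdjoint (semR x) := by
  rw [IsSelfAdjoint, semR, star_add, ContinuousLinearMap.star_eq_adjoint,
    ContinuousLinearMap.star_eq_adjoint, adjoint_creR, adjoint_annR, add_comm]

theorem norm_creL_le (x : J) : ‖creL x‖ ≤ 1 :=
  LinearIsometry.norm_toContinuousLinearMap_le _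

theorem norm_annL_le (x : J) : ‖annL x‖ ≤ 1 := by
  rw [annL, LinearIsometryEquiv.norm_map]
  exact norm_creL_le x

theorem norm_semL_le (x : J) : ‖semL x‖ ≤ 2 := by
  refine (norm_add_le _ _).trans ?_
  linarith [norm_creL_le x, norm_annL_le x]

@[simp] theorem semL_nil (x : J) : semL x (bas []) = bas [x] := by
  simp [semL]

theorem semL_cons (x y : J) (w : List J) :
    semL x (bas (y :: w)) = bas (x :: y :: w) + if x = y then bas w else 0 := by
  simp [semL]

@[simp] theorem semR_nil (x : J) : semR x (bas []) = bas [x] := by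
  simp [semR]

theorem semR_concat (x y : J) (w : List J) :
    semR x (bas (w ++ [y])) = bas (w ++ [y] ++ [x]) + if x = y then bas w else 0 := by
  simp [semR]

/-- the rank one projection onto the vacuum -/
noncomputable def vacProj : Fock J →L[ℂ] Fock J :=
  (innerSL ℂ (bas ([] : List J))).smulRight (bas [])

theorem vacProj_apply (f : Fock J) : vacProj f = ⟪bas ([] : List J), f⟫_ℂ • bas [] := rfl

theorem vacProj_bas (w : List J) : vacProj (bas w) = if w = [] then bas [] else 0 := by
  rw [vacProj_apply, inner_bas]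
  by_cases h : w = []
  · subst h; simp
  · have : ¬ ([] = w) := fun e => h e.symm
    simp [h, this]

@[simp] theorem vacProj_nil : vacProj (bas ([] : List J)) = bas [] := by simp [vacProj_bas]

@[simp] theorem vacProj_cons (x : J) (w : List J) : vacProj (bas (x :: w)) = 0 := by
  simp [vacProj_bas]

@[simp] theorem vacProj_concat (x : J) (w : List J) : vacProj (bas (w ++ [x])) = 0 := by
  simp [vacProj_bas]

theorem creL_comm_creR (x y : J) : creL x * creR y = creR y * creL x := by
  apply ext_bas
  intro w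
  simp [mul_apply_eq_comp]

theorem annL_comm_annR (x y : J) : annL x * annR y = annR y * annL x := by
  have h := congrArg star (creL_comm_creR x y)
  rw [star_mul, star_mul] at h
  simp only [ContinuousLinearMap.star_eq_adjoint, adjoint_creL, adjoint_creR] at h
  exact h.symm

/-- `ℓ_x^* r_y = r_y ℓ_x^* + δ_{xy} P_Ω` -/
theorem annL_mul_creR (x y : J) :
    annL x * creR y = creR y * annL x + if x = y then vacProj else 0 := by
  apply ext_bas
  intro w
  cases w with
  | nil =>
    by_cases h : x = y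
    · subst h
      simp [mul_apply_eq_comp]
    · simp [mul_apply_eq_comp, h]
  | cons z w =>
    by_cases h : x = y
    · subst h
      by_cases h2 : x = z
      · subst h2
        simp [mul_apply_eq_comp]
      · simp [mul_apply_eq_comp, h2]
    · by_cases h2 : x = z
      · subst h2
        simp [mul_apply_eq_comp, h]
      · simp [mul_apply_eq_comp, h, h2]

/-- `r_x^* ℓ_y = ℓ_y r_x^* + δ_{xy} P_Ω` -/
theorem annR_mul_creL (x y : J) :
    annR x * creL y = creL y * annR x + if x = y then vacProj else 0 := by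
  apply ext_bas
  intro w
  rcases List.eq_nil_or_concat w with rfl | ⟨w, z, rfl⟩
  · by_cases h : x = y
    · subst h
      have : annR x (bas ([] ++ [x] : List J)) = bas [] := by rw [annR_concat]; simp
      simp only [List.nil_append] at this
      simp [mul_apply_eq_comp, this]
    · have : annR x (bas ([] ++ [y] : List J)) = 0 := by rw [annR_concat]; simp [h]
      simp only [List.nil_append] at this
      simp [mul_apply_eq_comp, h, this]
  · rw [List.concat_eq_append]
    have e : annR x (bas (y :: (w ++ [z]))) = if x = z then bas (y :: w) else 0 := by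
      rw [← List.cons_append, annR_concat]
    simp only [mul_apply_eq_comp, add_apply, creL_bas, annR_concat, e]
    by_cases h2 : x = z
    · subst h2
      by_cases h : x = y
      · subst h
        simp
      · simp [h]
    · by_cases h : x = y
      · subst h
        simp [h2]
      · simp [h, h2]

/-- left and right semicirculars commute -/
theorem semL_comm_semR (x y : J) : semL x * semR y = semR y * semL x := by
  unfold semL semR
  rw [add_mul, mul_add, mul_add, add_mul, mul_add, mul_add, creL_comm_creR, annL_comm_annR,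
    annL_mul_creR, annR_mul_creL]
  by_cases h : x = y
  · subst h; simp; abel
  · have h' : ¬ y = x := fun e => h e.symm
    simp [h, h']; abel

/-- `[r_x^*, s_y] = δ_{xy} P_Ω` -/
theorem annR_mul_semL (x y : J) :
    annR x * semL y = semL y * annR x + if x = y then vacProj else 0 := by
  unfold semL
  rw [mul_add, add_mul, annR_mul_creL, annL_comm_annR]
  abel

end

end Vale.Agent.P087
end
end

section

section

/-! Definitions for the core argument (Blueprint Part III). -/

open scoped InnerProductSpace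

namespace Vale.Agent.P087

section words

variable {ι : Type} [Fintype ι] [DecidableEq ι]

/-- the finset of words of length `l` -/
def wl (ι : Type) [Fintype ι] [DecidableEq ι] : ℕ → Finset (List ι)
  | 0 => {[]}
  | l + 1 => (Finset.univ ×ˢ wl ι l).image fun p => p.1 :: p.2

@[simp] theorem mem_wl {l : ℕ} {w : List ι} : w ∈ wl ι l ↔ w.length = l := by
  induction l generalizing w with
  | zero => simp [wl]
  | succ l ih =>
    simp only [wl, Finset.mem_image, Finset.mem_product, Finset.mem_univ, true_and, Prod.exists]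
    constructor
    · rintro ⟨a, b, hb, rfl⟩
      simp [ih.mp hb]
    · intro h
      cases w with
      | nil => simp at h
      | cons a w => exact ⟨a, w, ih.mpr (by simpa using h), rfl⟩

theorem sum_wl_zero {E : Type*} [AddCommMonoid E] (F : List ι → E) : ∑ w ∈ wl ι 0, F w = F [] := by
  simp [wl]

theorem sum_wl_succ {E : Type*} [AddCommMonoid E] (l : ℕ) (F : List ι → E) :
    ∑ w ∈ wl ι (l + 1), F w = ∑ i, ∑ w ∈ wl ι l, F (i :: w) := by
  rw [wl, Finset.sum_image, Finset.sum_product]
  rintro ⟨a, b⟩ - ⟨a', b'⟩ - h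
  simp only [List.cons.injEq] at h
  exact Prod.ext h.1 h.2

/-- sum over words of length `l1 + (l2 + 1)` split at the letter after the first `l1` letters -/
theorem sum_wl_split {E : Type*} [AddCommMonoid E] (l1 l2 : ℕ) (F : List ι → E) :
    ∑ w ∈ wl ι (l1 + (l2 + 1)), F w
      = ∑ w1 ∈ wl ι l1, ∑ i, ∑ w2 ∈ wl ι l2, F (w1 ++ i :: w2) := by
  induction l1 generalizing F with
  | zero => simp [sum_wl_zero, sum_wl_succ]
  | succ l1 ih =>
    rw [show l1 + 1 + (l2 + 1) = (l1 + (l2 + 1)) + 1 by omega, sum_wl_succ, sum_wl_succ]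
    refine Finset.sum_congr rfl fun j _ => ?_
    rw [ih]
    rfl

end words

variable {m : ℕ}

/-- `A_v` -/
noncomputable def Aop (v : List (Fin m)) : Fock (Letter m) →L[ℂ] Fock (Letter m) :=
  (v.map fun a => semL (Sum.inl a)).prod

/-- `X_i = c_i A_{y i} + s_i f_i` on the Fock space -/
noncomputable def Xop (c s : Idx m → ℝ) (i : Idx m) : Fock (Letter m) →L[ℂ] Fock (Letter m) :=
  (c i : ℂ) • Aop (yw i) + (s i : ℂ) • semL (Sum.inr i)

/-- `X_Q` -/
noncomputable def XQ (c s : Idx m → ℝ) (Q : List (Idx m)) :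
    Fock (Letter m) →L[ℂ] Fock (Letter m) :=
  (Q.map (Xop c s)).prod

/-- `φ(v, Q) = ⟨Ω, A_v X_Q Ω⟩` -/
noncomputable def phi (c s : Idx m → ℝ) (v : List (Fin m)) (Q : List (Idx m)) : ℂ :=
  ⟪bas [], Aop v (XQ c s Q (bas []))⟫_ℂ

/-- `B(w, Q) = ⟨δ_w, X_Q Ω⟩` for a word `w` in the noise letters -/
noncomputable def Bf (c s : Idx m → ℝ) (w : List (Idx m)) (Q : List (Idx m)) : ℂ :=
  ⟪bas (w.map Sum.inr), XQ c s Q (bas [])⟫_ℂ

/-- the coefficients `g(v, w)` (joint cumulants of `A_v` with the signal part) -/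
noncomputable def gc (ρ : Idx m → ℝ) : List (Fin m) → List (Idx m) → ℝ
  | [], w => if w = [] then 1 else 0
  | a :: v, w =>
      (∑ k : Fin v.length, if v.get k = a then semi (v.take k) * gc ρ (v.drop (k + 1)) w else 0)
      + ∑ k : Fin w.length, ρ (w.get k) * ∑ p : Fin (yw (w.get k)).length,
          if (yw (w.get k)).get p = a then
            gc ρ ((yw (w.get k)).take p ++ v) (w.take k) *
              gc ρ ((yw (w.get k)).drop (p + 1)) (w.drop (k + 1))
          else 0
  termination_by v w => (w.length, v.length)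
  decreasing_by
    all_goals simp_wf
    · right; omega
    · left; omega
    · left; omega

/-- reduction of words in the free product of `m` copies of `Z/2` -/
def red : List (Fin m) → List (Fin m)
  | [] => []
  | a :: v => match red v with
    | [] => [a]
    | b :: u => if a = b then u else a :: b :: u

/-- reduced length -/
def rlen (v : List (Fin m)) : ℕ := (red v).length

/-- `γ_l(v)` -/
noncomputable def gam (ρ : Idx m → ℝ) (l : ℕ) (v : List (Fin m)) : ℝ :=
  Real.sqrt (∑ w ∈ wl (Idx m) l, gc ρ v w ^ 2)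

end Vale.Agent.P087
end
end

section

section

/-! Core C1: moments on the Fock space. -/

open scoped InnerProductSpace

namespace Vale.Agent.P087

section semWord

variable {J : Type} [DecidableEq J]

theorem semi_nil : semi ([] : List J) = 1 := by rw [semi]

theorem semi_cons (x : J) (w : List J) :
    semi (x :: w) = ∑ k : Fin w.length,
      if w.get k = x then semi (w.take k) * semi (w.drop (k + 1)) else 0 := by
  rw [semi]

/-- `⟨Ω, s_x ψ⟩ = ⟨Ω, r_x^* ψ⟩` -/
theorem inner_vac_semL (x : J) (ψ : Fock J) :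
    ⟪(bas [] : Fock J), semL x ψ⟫_ℂ = ⟪(bas [] : Fock J), annR x ψ⟫_ℂ := by
  have h1 : ⟪(bas [] : Fock J), semL x ψ⟫_ℂ = ⟪semL x (bas [] : Fock J), ψ⟫_ℂ := by
    have h := isSelfAdjoint_semL (J := J) x
    rw [IsSelfAdjoint, ContinuousLinearMap.star_eq_adjoint] at h
    conv_lhs => rw [← h]
    rw [ContinuousLinearMap.adjoint_inner_right]
  have h2 : creR x (bas [] : Fock J) = bas [x] := by simp
  rw [h1, semL_nil, annR, ContinuousLinearMap.adjoint_inner_right, h2]

/-- commutation of right annihilation with a word of left semicirculars -/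
theorem annR_semWord (x : J) (w : List J) (ψ : Fock J) :
    annR x ((w.map semL).prod ψ)
      = (∑ k : Fin w.length, if w.get k = x then
          ((w.take k).map semL).prod (vacProj (((w.drop (k + 1)).map semL).prod ψ)) else 0)
        + (w.map semL).prod (annR x ψ) := by
  induction w with
  | nil => simp
  | cons y w ih =>
    have e1 : (((y :: w).map semL).prod : Fock J →L[ℂ] Fock J) = semL y * (w.map semL).prod := by
      simp
    have e2 : annR x ((semL y * (w.map semL).prod) ψ)
        = semL y (annR x ((w.map semL).prod ψ))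
          + (if x = y then vacProj else 0 : Fock J →L[ℂ] Fock J) ((w.map semL).prod ψ) := by
      have := congrArg (fun T : Fock J →L[ℂ] Fock J => T ((w.map semL).prod ψ))
        (annR_mul_semL x y)
      simpa [mul_apply_eq_comp] using this
    rw [e1, e2, ih, map_add, map_sum]
    have e3 : ∀ F : Fin (y :: w).length → Fock J,
        ∑ k, F k = F ⟨0, by simp⟩ + ∑ k : Fin w.length, F (Fin.succ k) := fun F =>
      Fin.sum_univ_succ (n := w.length) F
    rw [e3]
    simp only [List.get_eq_getElem, List.getElem_cons_zero, List.take_zero, List.map_nil,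
      List.prod_nil, Fin.val_succ, List.getElem_cons_succ, List.take_succ_cons, List.map_cons,
      List.prod_cons, List.drop_succ_cons, zero_add, List.drop_zero, one_apply_eq_self,
      mul_apply_eq_comp]
    have e4 : ∀ k : Fin w.length,
        semL y (if w[(k : ℕ)] = x then
          ((w.take k).map semL).prod (vacProj (((w.drop (k + 1)).map semL).prod ψ)) else 0)
        = if w[(k : ℕ)] = x then
          semL y (((w.take k).map semL).prod (vacProj (((w.drop (k + 1)).map semL).prod ψ)))
          else 0 := by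
      intro k
      split_ifs <;> simp
    rw [Finset.sum_congr rfl fun k _ => e4 k]
    by_cases h : x = y
    · subst h
      simp only [if_true]
      abel
    · have h' : ¬ y = x := fun e => h e.symm
      simp only [if_neg h, if_neg h', zero_apply]
      abel

theorem inner_vac_vacProj (T : Fock J →L[ℂ] Fock J) (ψ : Fock J) :
    ⟪(bas [] : Fock J), T (vacProj ψ)⟫_ℂ
      = ⟪(bas [] : Fock J), T (bas [])⟫_ℂ * ⟪(bas [] : Fock J), ψ⟫_ℂ := by
  rw [vacProj_apply, map_smul, inner_smul_right]
  ring

/-- vacuum moments of left semicirculars -/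
theorem inner_vac_semWord (w : List J) :
    ⟪(bas [] : Fock J), (w.map semL).prod (bas [])⟫_ℂ = (semi w : ℂ) := by
  induction hn : w.length using Nat.strong_induction_on generalizing w with
  | _ n ih =>
    cases w with
    | nil => simp [semi_nil, norm_bas]
    | cons x w =>
      rw [semi_cons, List.map_cons, List.prod_cons, mul_apply_eq_comp, inner_vac_semL,
        annR_semWord, annR_nil, map_zero, add_zero, inner_sum]
      push_cast
      refine Finset.sum_congr rfl fun k _ => ?_
      by_cases h : w.get k = x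
      · rw [if_pos h, if_pos h, inner_vac_vacProj]
        rw [ih _ _ (w.take k) rfl, ih _ _ (w.drop (k + 1)) rfl]
        · push_cast
          rfl
        · simp only [List.length_cons] at hn
          simp only [List.length_drop]
          omega
        · simp only [List.length_cons] at hn
          simp only [List.length_take]
          omega
      · rw [if_neg h, if_neg h, inner_zero_right]
        simp

theorem semi_nonneg (w : List J) : 0 ≤ semi w := by
  induction hn : w.length using Nat.strong_induction_on generalizing w with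
  | _ n ih =>
    cases w with
    | nil => simp [semi_nil]
    | cons x w =>
      rw [semi_cons]
      refine Finset.sum_nonneg fun k _ => ?_
      simp only [List.length_cons] at hn
      split_ifs
      · refine mul_nonneg (ih _ ?_ (w.take k) rfl) (ih _ ?_ (w.drop (k + 1)) rfl)
        · simp only [List.length_take]
          omega
        · simp only [List.length_drop]
          omega
      · exact le_rfl

theorem norm_semWord_le (w : List J) :
    ‖((w.map semL).prod : Fock J →L[ℂ] Fock J)‖ ≤ 2 ^ w.length := by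
  induction w with
  | nil =>
    simp only [List.map_nil, List.prod_nil, List.length_nil, pow_zero]
    exact ContinuousLinearMap.norm_id_le
  | cons x w ih =>
    rw [List.map_cons, List.prod_cons, List.length_cons, pow_succ']
    refine (norm_mul_le _ _).trans ?_
    exact mul_le_mul (norm_semL_le x) ih (norm_nonneg _) (by norm_num)

theorem semi_le_two_pow (w : List J) : semi w ≤ 2 ^ w.length := by
  have h : ‖(semi w : ℂ)‖ ≤ 2 ^ w.length := by
    rw [← inner_vac_semWord]
    refine (norm_inner_le_norm _ _).trans ?_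
    rw [norm_bas, one_mul]
    refine (ContinuousLinearMap.le_opNorm _ _).trans ?_
    rw [norm_bas, mul_one]
    exact norm_semWord_le w
  rw [Complex.norm_real, Real.norm_eq_abs] at h
  exact (le_abs_self _).trans h

theorem semi_map {J' : Type} [DecidableEq J'] (f : J → J') (hf : Function.Injective f)
    (w : List J) : semi (w.map f) = semi w := by
  induction hn : w.length using Nat.strong_induction_on generalizing w with
  | _ n ih =>
    cases w with
    | nil => simp [semi_nil]
    | cons x w =>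
      rw [List.map_cons, semi_cons, semi_cons]
      simp only [List.length_cons] at hn
      have e : ∀ (F : Fin (w.map f).length → ℝ) (G : Fin w.length → ℝ),
          (∀ k : Fin w.length, F (Fin.cast (List.length_map f).symm k) = G k) →
          ∑ k, F k = ∑ k, G k := by
        intro F G h
        rw [← Equiv.sum_comp (finCongr (List.length_map (as := w) f).symm) F]
        exact Finset.sum_congr rfl fun k _ => h k
      apply e
      intro k
      simp only [List.get_eq_getElem, Fin.val_cast, List.getElem_map, hf.eq_iff, ← List.map_take,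
        ← List.map_drop]
      split_ifs
      · rw [ih _ ?_ (w.take k) rfl, ih _ ?_ (w.drop (k + 1)) rfl]
        · simp only [List.length_drop]
          omega
        · simp only [List.length_take]
          omega
      · rfl

end semWord

variable {m : ℕ}

theorem Aop_eq (v : List (Fin m)) :
    Aop v = ((v.map Sum.inl : List (Letter m)).map semL).prod := by
  rw [Aop, List.map_map]
  rfl

theorem inner_vac_expMom (c s : Idx m → ℝ) (pre : List (Letter m)) (w : List (Idx m)) :
    ⟪bas [], (pre.map semL).prod (XQ c s w (bas []))⟫_ℂ = (expMom c s pre w : ℂ) := by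
  induction w generalizing pre with
  | nil =>
    rw [expMom, ← inner_vac_semWord]
    simp [XQ]
  | cons i w ih =>
    have h1 : (pre.map semL).prod (XQ c s (i :: w) (bas []))
        = (c i : ℂ) • (((pre ++ (yw i).map Sum.inl).map semL).prod (XQ c s w (bas [])))
          + (s i : ℂ) • (((pre ++ [Sum.inr i]).map semL).prod (XQ c s w (bas []))) := by
      have h2 : XQ c s (i :: w) = Xop c s i * XQ c s w := by simp [XQ]
      rw [h2, mul_apply_eq_comp, Xop, add_apply, map_add, smul_apply, smul_apply, map_smul,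
        map_smul, Aop_eq, List.map_append, List.prod_append, List.map_append, List.prod_append,
        mul_apply_eq_comp, mul_apply_eq_comp]
      simp
    rw [h1, inner_add_right, inner_smul_right, inner_smul_right, ih, ih, expMom]
    push_cast
    rfl

theorem phi_nil (c s : Idx m → ℝ) (Q : List (Idx m)) :
    phi c s [] Q = (expMom c s [] Q : ℂ) := by
  rw [← inner_vac_expMom, phi, Aop_eq]
  simp

theorem phi_nil_right (c s : Idx m → ℝ) (v : List (Fin m)) :
    phi c s v [] = (semi v : ℂ) := by
  have h : phi c s v [] = ⟪bas [], Aop v (bas [])⟫_ℂ := by simp [phi, XQ]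
  rw [h, Aop_eq, inner_vac_semWord, semi_map Sum.inl Sum.inl_injective]

end Vale.Agent.P087
end
end

section

section

/-! Sums over the decompositions `Q = Q1 ++ q :: Q2` of a list. -/

namespace Vale.Agent.P087

/-- `∑_{Q = Q1 ++ q :: Q2} F Q1 q Q2` -/
def splitSum {α E : Type*} [AddCommMonoid E] : List α → (List α → α → List α → E) → E
  | [], _ => 0
  | q :: Q, F => F [] q Q + splitSum Q (fun Q1 r Q2 => F (q :: Q1) r Q2)

section
variable {α E : Type*} [AddCommMonoid E]

@[simp] theorem splitSum_nil (F : List α → α → List α → E) : splitSum [] F = 0 := rfl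

theorem splitSum_cons (q : α) (Q : List α) (F : List α → α → List α → E) :
    splitSum (q :: Q) F = F [] q Q + splitSum Q (fun Q1 r Q2 => F (q :: Q1) r Q2) := rfl

theorem sum_fin_eq_splitSum (Q : List α) (F : List α → α → List α → E) :
    ∑ k : Fin Q.length, F (Q.take k) (Q.get k) (Q.drop (k + 1)) = splitSum Q F := by
  induction Q generalizing F with
  | nil => simp
  | cons q Q ih =>
    rw [splitSum_cons, ← ih]
    exact Fin.sum_univ_succ (n := Q.length)
      (fun k => F ((q :: Q).take k) ((q :: Q).get k) ((q :: Q).drop (k + 1)))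

theorem splitSum_congr (Q : List α) {F G : List α → α → List α → E}
    (h : ∀ Q1 q Q2, Q = Q1 ++ q :: Q2 → F Q1 q Q2 = G Q1 q Q2) : splitSum Q F = splitSum Q G := by
  induction Q generalizing F G with
  | nil => rfl
  | cons q Q ih =>
    rw [splitSum_cons, splitSum_cons, h [] q Q rfl, ih]
    intro Q1 r Q2 e
    exact h _ _ _ (by rw [e]; rfl)

theorem splitSum_map {E' : Type*} [AddCommMonoid E'] (φ : E →+ E') (Q : List α)
    (F : List α → α → List α → E) :
    φ (splitSum Q F) = splitSum Q (fun a b c => φ (F a b c)) := by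
  induction Q generalizing F with
  | nil => simp
  | cons q Q ih => simp only [splitSum_cons, map_add, ih]

theorem splitSum_finset_sum {κ : Type*} (s : Finset κ) (Q : List α)
    (F : κ → List α → α → List α → E) :
    splitSum Q (fun a b c => ∑ k ∈ s, F k a b c) = ∑ k ∈ s, splitSum Q (F k) := by
  induction Q generalizing F with
  | nil => simp
  | cons q Q ih => simp only [splitSum_cons, ih, Finset.sum_add_distrib]

theorem splitSum_map_list {β : Type*} (f : β → α) (Q : List β) (F : List α → α → List α → E) :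
    splitSum (Q.map f) F = splitSum Q (fun a b c => F (a.map f) (f b) (c.map f)) := by
  induction Q generalizing F with
  | nil => simp
  | cons q Q ih => simp only [List.map_cons, splitSum_cons, ih, List.map_nil]

end

section
variable {α R : Type*} [NonUnitalNonAssocSemiring R]

theorem splitSum_mul_left (r : R) (Q : List α) (F : List α → α → List α → R) :
    r * splitSum Q F = splitSum Q (fun a b c => r * F a b c) := by
  induction Q generalizing F with
  | nil => simp
  | cons q Q ih => simp only [splitSum_cons, mul_add, ih]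

theorem splitSum_mul_right (r : R) (Q : List α) (F : List α → α → List α → R) :
    splitSum Q F * r = splitSum Q (fun a b c => F a b c * r) := by
  induction Q generalizing F with
  | nil => simp
  | cons q Q ih => simp only [splitSum_cons, add_mul, ih]

end

end Vale.Agent.P087
end
end

section

section

/-! Core C3, C4: splitting lemma and orthogonality (Blueprint F3, F5). -/

open scoped InnerProductSpace

namespace Vale.Agent.P087

section general

variable {J : Type} [DecidableEq J]

theorem adjoint_semL (x : J) : ContinuousLinearMap.adjoint (semL x) = semL x := by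
  have h := isSelfAdjoint_semL x
  rwa [IsSelfAdjoint, ContinuousLinearMap.star_eq_adjoint] at h

theorem inner_semL (x : J) (f g : Fock J) : ⟪semL x f, g⟫_ℂ = ⟪f, semL x g⟫_ℂ := by
  rw [← ContinuousLinearMap.adjoint_inner_right, adjoint_semL]

theorem inner_semR (x : J) (f g : Fock J) : ⟪semR x f, g⟫_ℂ = ⟪f, semR x g⟫_ℂ := by
  have h := isSelfAdjoint_semR x
  rw [IsSelfAdjoint, ContinuousLinearMap.star_eq_adjoint] at h
  rw [← ContinuousLinearMap.adjoint_inner_right, h]

/-- `[r_x^*, s_w]` -/
theorem annR_mul_semWord (x : J) (w : List J) :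
    annR x * (w.map semL).prod = (w.map semL).prod * annR x
      + splitSum w (fun w1 y w2 => if y = x then
          (w1.map semL).prod * vacProj * (w2.map semL).prod else 0) := by
  induction w with
  | nil => simp
  | cons y w ih =>
    have h2 : semL y * splitSum w (fun w1 z w2 => if z = x then
          (w1.map semL).prod * vacProj * (w2.map semL).prod else 0)
        = splitSum w (fun w1 z w2 => if z = x then
          ((y :: w1).map semL).prod * vacProj * (w2.map semL).prod else 0) := by
      rw [splitSum_mul_left]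
      apply splitSum_congr
      intro w1 z w2 _
      split_ifs
      · simp only [List.map_cons, List.prod_cons, mul_assoc]
      · simp
    have h1 : (if x = y then (vacProj : Fock J →L[ℂ] Fock J) else 0) * (w.map semL).prod
        = if y = x then (([] : List J).map semL).prod * vacProj * (w.map semL).prod else 0 := by
      by_cases h : x = y
      · subst h; simp
      · have : ¬ y = x := fun e => h e.symm
        simp [h, this]
    rw [List.map_cons, List.prod_cons, ← mul_assoc, annR_mul_semL, add_mul, mul_assoc, ih,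
      mul_add, h1, h2, splitSum_cons, ← mul_assoc]
    abel

/-- traciality of the vacuum, one letter -/
theorem vac_trace_one (T : Fock J →L[ℂ] Fock J) (x : J) (hT : T * semR x = semR x * T) :
    ⟪(bas [] : Fock J), T (semL x (bas []))⟫_ℂ = ⟪(bas [] : Fock J), semL x (T (bas []))⟫_ℂ := by
  have e : semL x (bas []) = semR x (bas ([] : List J)) := by simp
  have h1 : T (semR x (bas [])) = semR x (T (bas [])) := by
    have := congrArg (fun (S : Fock J →L[ℂ] Fock J) => S (bas [])) hT
    simpa [mul_apply_eq_comp] using this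
  rw [e, h1, ← inner_semR, ← inner_semL, ← e]

theorem semWord_comm_semR (x : J) (w : List J) :
    (w.map semL).prod * semR x = semR x * (w.map semL).prod := by
  induction w with
  | nil => simp
  | cons y w ih =>
    rw [List.map_cons, List.prod_cons, mul_assoc, ih, ← mul_assoc, semL_comm_semR, mul_assoc]

/-- traciality of the vacuum -/
theorem vac_trace (T : Fock J →L[ℂ] Fock J) (hT : ∀ x, T * semR x = semR x * T) (w : List J) :
    ⟪(bas [] : Fock J), T ((w.map semL).prod (bas []))⟫_ℂ
      = ⟪(bas [] : Fock J), (w.map semL).prod (T (bas []))⟫_ℂ := by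
  induction w using List.reverseRecOn generalizing T with
  | nil => simp
  | append_singleton w x ih =>
    rw [List.map_append, List.prod_append, List.map_singleton, List.prod_singleton]
    have h1 : ⟪(bas [] : Fock J), T (((w.map semL).prod * semL x) (bas []))⟫_ℂ
        = ⟪(bas [] : Fock J), (T * (w.map semL).prod) (semL x (bas []))⟫_ℂ := by
      simp [mul_apply_eq_comp]
    rw [h1, vac_trace_one]
    · have h2 : semL x ((T * (w.map semL).prod) (bas []))
          = (semL x * T) ((w.map semL).prod (bas [])) := by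
        simp [mul_apply_eq_comp]
      rw [h2, ih (semL x * T)]
      · simp [mul_apply_eq_comp]
      · intro z
        rw [mul_assoc, hT z, ← mul_assoc, semL_comm_semR, mul_assoc]
    · rw [mul_assoc, semWord_comm_semR, ← mul_assoc, hT x, mul_assoc]

end general

variable {m : ℕ}

theorem Aop_nil : Aop ([] : List (Fin m)) = 1 := by simp [Aop]

theorem Aop_cons (a : Fin m) (v : List (Fin m)) : Aop (a :: v) = semL (Sum.inl a) * Aop v := by
  simp [Aop]

theorem Aop_append (u v : List (Fin m)) : Aop (u ++ v) = Aop u * Aop v := by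
  simp [Aop]

theorem Aop_comm_semR (x : Letter m) (v : List (Fin m)) :
    Aop v * semR x = semR x * Aop v := by
  rw [Aop_eq]; exact semWord_comm_semR x _

theorem Xop_comm_semR (c s : Idx m → ℝ) (x : Letter m) (i : Idx m) :
    Xop c s i * semR x = semR x * Xop c s i := by
  unfold Xop
  rw [add_mul, mul_add, smul_mul_assoc, smul_mul_assoc, mul_smul_comm, mul_smul_comm,
    Aop_comm_semR, semL_comm_semR]

theorem XQ_cons (c s : Idx m → ℝ) (q : Idx m) (Q : List (Idx m)) :
    XQ c s (q :: Q) = Xop c s q * XQ c s Q := by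
  simp [XQ]

theorem XQ_nil (c s : Idx m → ℝ) : XQ c s [] = 1 := by
  simp [XQ]

theorem XQ_comm_semR (c s : Idx m → ℝ) (x : Letter m) (Q : List (Idx m)) :
    XQ c s Q * semR x = semR x * XQ c s Q := by
  induction Q with
  | nil => simp [XQ_nil]
  | cons q Q ih => rw [XQ_cons, mul_assoc, ih, ← mul_assoc, Xop_comm_semR, mul_assoc]

theorem isSelfAdjoint_Aop_yw (i : Idx m) : IsSelfAdjoint (Aop (yw i)) := by
  unfold yw
  split_ifs
  · simpa [Aop] using isSelfAdjoint_semL (J := Letter m) (Sum.inl i.1)
  · simp only [Aop, List.map_cons, List.map_nil, List.prod_cons, List.prod_nil, mul_one]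
    rw [IsSelfAdjoint, star_mul, star_mul, (isSelfAdjoint_semL _).star_eq,
      (isSelfAdjoint_semL _).star_eq, mul_assoc]

theorem isSelfAdjoint_ofReal (r : ℝ) : IsSelfAdjoint (r : ℂ) := by
  rw [IsSelfAdjoint]; exact Complex.conj_ofReal r

theorem isSelfAdjoint_Xop (c s : Idx m → ℝ) (i : Idx m) : IsSelfAdjoint (Xop c s i) := by
  unfold Xop
  apply IsSelfAdjoint.add
  · exact IsSelfAdjoint.smul (isSelfAdjoint_ofReal _) (isSelfAdjoint_Aop_yw i)
  · exact IsSelfAdjoint.smul (isSelfAdjoint_ofReal _) (isSelfAdjoint_semL _)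

theorem inner_Xop (c s : Idx m → ℝ) (i : Idx m) (f g : Fock (Letter m)) :
    ⟪Xop c s i f, g⟫_ℂ = ⟪f, Xop c s i g⟫_ℂ := by
  have h := isSelfAdjoint_Xop c s i
  rw [IsSelfAdjoint, ContinuousLinearMap.star_eq_adjoint] at h
  rw [← ContinuousLinearMap.adjoint_inner_right, h]

/-- the operator `δ_u ↦ δ_{u ++ f_i :: v}` -/
noncomputable def insR (i : Idx m) (v : List (Letter m)) :
    Fock (Letter m) →L[ℂ] Fock (Letter m) :=
  (inj (fun u => u ++ Sum.inr i :: v)
    (List.append_left_injective (Sum.inr i :: v))).toContinuousLinearMap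

theorem insR_bas (i : Idx m) (v u : List (Letter m)) :
    insR i v (bas u) = bas (u ++ Sum.inr i :: v) :=
  inj_bas (fun u => u ++ Sum.inr i :: v) (List.append_left_injective (Sum.inr i :: v)) u

theorem semL_inl_insR (a : Fin m) (i : Idx m) (v : List (Letter m)) :
    semL (Sum.inl a) * insR i v = insR i v * semL (Sum.inl a) := by
  apply ext_bas
  intro w
  cases w with
  | nil =>
    simp only [mul_apply_eq_comp, insR_bas, List.nil_append, semL_cons, semL_nil, List.cons_append]
    simp
  | cons b w =>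
    simp only [mul_apply_eq_comp, insR_bas, List.cons_append, semL_cons, map_add]
    congr 1
    split_ifs
    · rw [insR_bas]
    · simp

/-- the rank one operator `f ↦ ⟨Ω, f⟩ δ_v` -/
noncomputable def rk (v : List (Letter m)) : Fock (Letter m) →L[ℂ] Fock (Letter m) :=
  (innerSL ℂ (bas ([] : List (Letter m)))).smulRight (bas v)

theorem rk_apply (v : List (Letter m)) (f : Fock (Letter m)) :
    rk v f = ⟪bas [], f⟫_ℂ • bas v := rfl

theorem semL_inr_insR_self (i : Idx m) (v : List (Letter m)) :
    semL (Sum.inr i) * insR i v = insR i v * semL (Sum.inr i) + rk v := by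
  apply ext_bas
  intro w
  cases w with
  | nil =>
    simp only [mul_apply_eq_comp, insR_bas, List.nil_append, semL_cons, semL_nil,
      List.cons_append, add_apply, rk_apply, inner_bas]
    simp
  | cons b w =>
    simp only [mul_apply_eq_comp, insR_bas, List.cons_append, semL_cons, map_add, add_apply,
      rk_apply, inner_bas]
    rw [if_neg (by simp : ¬ (([] : List (Letter m)) = b :: w)), zero_smul, add_zero]
    split_ifs with h1
    · simp [insR_bas]
    · simp

theorem semL_inr_insR_ne (q i : Idx m) (h : q ≠ i) (v : List (Letter m)) :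
    semL (Sum.inr q) * insR i v = insR i v * semL (Sum.inr q) := by
  apply ext_bas
  intro w
  have h' : ¬ ((Sum.inr q : Letter m) = Sum.inr i) := fun e => h (Sum.inr_injective e)
  cases w with
  | nil =>
    simp only [mul_apply_eq_comp, insR_bas, List.nil_append, semL_cons, semL_nil,
      List.cons_append]
    simp [h]
  | cons b w =>
    simp only [mul_apply_eq_comp, insR_bas, List.cons_append, semL_cons, map_add]
    split_ifs with h1
    · simp [insR_bas]
    · simp

theorem semL_inr_insR (q i : Idx m) (v : List (Letter m)) (f : Fock (Letter m)) :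
    semL (Sum.inr q) (insR i v f) = insR i v (semL (Sum.inr q) f)
      + if q = i then ⟪bas [], f⟫_ℂ • bas v else 0 := by
  by_cases h : q = i
  · subst h
    have := congrArg (fun (S : Fock (Letter m) →L[ℂ] Fock (Letter m)) => S f)
      (semL_inr_insR_self q v)
    simp only [mul_apply_eq_comp, add_apply, rk_apply] at this
    rw [this, if_pos rfl]
  · have := congrArg (fun (S : Fock (Letter m) →L[ℂ] Fock (Letter m)) => S f)
      (semL_inr_insR_ne q i h v)
    simp only [mul_apply_eq_comp] at this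
    rw [this, if_neg h, add_zero]

theorem Aop_insR (y : List (Fin m)) (i : Idx m) (v : List (Letter m)) :
    Aop y * insR i v = insR i v * Aop y := by
  induction y with
  | nil => simp [Aop]
  | cons a y ih =>
    rw [Aop_cons, mul_assoc, ih, ← mul_assoc, semL_inl_insR, mul_assoc]

theorem Xop_insR (c s : Idx m → ℝ) (q i : Idx m) (v : List (Letter m)) (f : Fock (Letter m)) :
    Xop c s q (insR i v f) = insR i v (Xop c s q f)
      + if q = i then ((s i : ℂ) * ⟪bas [], f⟫_ℂ) • bas v else 0 := by
  have h1 : Aop (yw q) (insR i v f) = insR i v (Aop (yw q) f) := by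
    have := congrArg (fun (S : Fock (Letter m) →L[ℂ] Fock (Letter m)) => S f)
      (Aop_insR (yw q) i v)
    simpa [mul_apply_eq_comp] using this
  unfold Xop
  simp only [add_apply, smul_apply, map_add, map_smul]
  rw [h1, semL_inr_insR, smul_add, ← add_assoc]
  congr 1
  split_ifs with h
  · subst h
    rw [smul_smul]
  · simp

theorem inner_insR_vac (i : Idx m) (v : List (Letter m)) (f : Fock (Letter m)) :
    ⟪insR i v f, bas []⟫_ℂ = 0 := by
  rw [← inner_conj_symm]
  have key : (innerSL ℂ (bas ([] : List (Letter m)))).comp (insR i v) = 0 := by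
    apply ext_bas
    intro w
    simp [insR_bas, inner_bas]
  have := congrArg (fun (S : Fock (Letter m) →L[ℂ] ℂ) => S f) key
  simp only [ContinuousLinearMap.comp_apply, innerSL_apply_apply, zero_apply] at this
  rw [this]
  simp

theorem inner_split_gen (c s : Idx m → ℝ) (f : Fock (Letter m)) (v : List (Letter m)) (i : Idx m)
    (Q : List (Idx m)) :
    ⟪insR i v f, XQ c s Q (bas [])⟫_ℂ
      = s i * splitSum Q (fun Q1 q Q2 => if q = i then
          ⟪f, XQ c s Q1 (bas [])⟫_ℂ * ⟪bas v, XQ c s Q2 (bas [])⟫_ℂ else 0) := by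
  induction Q generalizing f with
  | nil =>
    simp [XQ_nil, inner_insR_vac]
  | cons q Q ih =>
    rw [XQ_cons, mul_apply_eq_comp, ← inner_Xop, Xop_insR, inner_add_left, ih, splitSum_cons,
      mul_add, add_comm]
    simp only [XQ_nil, XQ_cons, mul_apply_eq_comp, one_apply_eq_self, inner_Xop]
    congr 1
    split_ifs with h
    · rw [inner_smul_left, map_mul, inner_conj_symm, Complex.conj_ofReal]
      ring
    · simp

/-- splitting for arbitrary words of letters on both sides of a noise letter (Blueprint F3') -/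
theorem inner_split' (c s : Idx m → ℝ) (u v : List (Letter m)) (i : Idx m) (Q : List (Idx m)) :
    ⟪bas (u ++ Sum.inr i :: v), XQ c s Q (bas [])⟫_ℂ
      = s i * splitSum Q (fun Q1 q Q2 => if q = i then
          ⟪bas u, XQ c s Q1 (bas [])⟫_ℂ * ⟪bas v, XQ c s Q2 (bas [])⟫_ℂ else 0) := by
  rw [← insR_bas]
  exact inner_split_gen c s (bas u) v i Q

theorem inner_split (c s : Idx m → ℝ) (u v : List (Letter m)) (i : Idx m) (Q : List (Idx m)) :
    ⟪bas (u ++ Sum.inr i :: v), XQ c s Q (bas [])⟫_ℂ
      = s i * ∑ k : Fin Q.length, if Q.get k = i then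
          ⟪bas u, XQ c s (Q.take k) (bas [])⟫_ℂ * ⟪bas v, XQ c s (Q.drop (k + 1)) (bas [])⟫_ℂ
        else 0 := by
  rw [inner_split', ← sum_fin_eq_splitSum]

theorem Bf_split' (c s : Idx m → ℝ) (w1 w2 : List (Idx m)) (i : Idx m) (Q : List (Idx m)) :
    Bf c s (w1 ++ i :: w2) Q
      = s i * splitSum Q (fun Q1 q Q2 => if q = i then Bf c s w1 Q1 * Bf c s w2 Q2 else 0) := by
  unfold Bf
  rw [List.map_append, List.map_cons, inner_split']

theorem Bf_split (c s : Idx m → ℝ) (w1 w2 : List (Idx m)) (i : Idx m) (Q : List (Idx m)) :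
    Bf c s (w1 ++ i :: w2) Q
      = s i * ∑ k : Fin Q.length, if Q.get k = i then
          Bf c s w1 (Q.take k) * Bf c s w2 (Q.drop (k + 1)) else 0 := by
  rw [Bf_split', ← sum_fin_eq_splitSum]

theorem Bf_eq_zero (c s : Idx m → ℝ) (w Q : List (Idx m)) (h : Q.length < w.length) :
    Bf c s w Q = 0 := by
  induction w generalizing Q with
  | nil => simp at h
  | cons i w ih =>
    have := Bf_split c s [] w i Q
    rw [List.nil_append] at this
    rw [this]
    apply mul_eq_zero_of_right
    apply Finset.sum_eq_zero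
    intro k _
    split_ifs
    · rw [ih, mul_zero]
      rw [List.length_drop]
      have := k.2
      simp only [List.length_cons] at h
      omega
    · rfl

/-- the vacuum functional -/
noncomputable def vacE {J : Type} [DecidableEq J] : (Fock J →L[ℂ] Fock J) →+ ℂ where
  toFun T := ⟪bas [], T (bas [])⟫_ℂ
  map_zero' := by simp
  map_add' S T := by rw [add_apply, inner_add_right]

theorem vacE_apply {J : Type} [DecidableEq J] (T : Fock J →L[ℂ] Fock J) :
    vacE T = ⟪bas [], T (bas [])⟫_ℂ := rfl

theorem vacE_smul {J : Type} [DecidableEq J] (r : ℂ) (T : Fock J →L[ℂ] Fock J) :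
    vacE (r • T) = r * vacE T := by
  rw [vacE_apply, vacE_apply, smul_apply, inner_smul_right]

theorem vacE_mul_vacProj_mul {J : Type} [DecidableEq J] (S T : Fock J →L[ℂ] Fock J) :
    vacE (S * vacProj * T) = vacE S * vacE T := by
  rw [vacE_apply, mul_apply_eq_comp, mul_apply_eq_comp, vacProj_apply, map_smul, inner_smul_right,
    vacE_apply, vacE_apply, mul_comm]

theorem vacE_semL_mul {J : Type} [DecidableEq J] (x : J) (T : Fock J →L[ℂ] Fock J) :
    vacE (semL x * T) = vacE (annR x * T) := by
  rw [vacE_apply, vacE_apply, mul_apply_eq_comp, mul_apply_eq_comp, ← inner_semL, semL_nil]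
  have : bas [x] = creR x (bas ([] : List J)) := by rw [creR_bas]; rfl
  rw [this, annR, ContinuousLinearMap.adjoint_inner_right]

theorem vacE_mul_annR {J : Type} [DecidableEq J] (x : J) (T : Fock J →L[ℂ] Fock J) :
    vacE (T * annR x) = 0 := by
  rw [vacE_apply, mul_apply_eq_comp, annR_nil]
  simp

theorem phi_eq_vacE (c s : Idx m → ℝ) (v : List (Fin m)) (Q : List (Idx m)) :
    phi c s v Q = vacE (Aop v * XQ c s Q) := rfl

theorem annR_mul_Aop (a : Fin m) (v : List (Fin m)) :
    annR (Sum.inl a) * Aop v = Aop v * annR (Sum.inl a)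
      + splitSum v (fun v1 b v2 => if b = a then Aop v1 * vacProj * Aop v2 else 0) := by
  rw [Aop_eq, annR_mul_semWord, splitSum_map_list]
  congr 1
  apply splitSum_congr
  intro v1 b v2 _
  simp only [Aop_eq, Sum.inl.injEq]

theorem annR_mul_Xop (c s : Idx m → ℝ) (a : Fin m) (q : Idx m) :
    annR (Sum.inl a) * Xop c s q = Xop c s q * annR (Sum.inl a)
      + (c q : ℂ) • splitSum (yw q) (fun y1 b y2 => if b = a then Aop y1 * vacProj * Aop y2
          else 0) := by
  unfold Xop
  rw [mul_add, mul_smul_comm, mul_smul_comm, annR_mul_Aop, annR_mul_semL, add_mul,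
    smul_mul_assoc, smul_mul_assoc]
  simp only [reduceCtorEq, if_false, add_zero, smul_add]
  abel

theorem annR_mul_XQ (c s : Idx m → ℝ) (a : Fin m) (Q : List (Idx m)) :
    annR (Sum.inl a) * XQ c s Q = XQ c s Q * annR (Sum.inl a)
      + splitSum Q (fun Q1 q Q2 => XQ c s Q1 * ((c q : ℂ) •
          splitSum (yw q) (fun y1 b y2 => if b = a then Aop y1 * vacProj * Aop y2 else 0))
            * XQ c s Q2) := by
  induction Q with
  | nil => simp [XQ_nil]
  | cons q Q ih =>
    rw [XQ_cons, ← mul_assoc, annR_mul_Xop, add_mul, mul_assoc, ih, mul_add, splitSum_cons,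
      XQ_nil, one_mul, splitSum_mul_left, ← mul_assoc]
    simp only [XQ_cons, ← mul_assoc]
    abel

theorem vacE_trace (T : Fock (Letter m) →L[ℂ] Fock (Letter m))
    (hT : ∀ x, T * semR x = semR x * T) (y : List (Fin m)) :
    vacE (T * Aop y) = vacE (Aop y * T) := by
  rw [Aop_eq]
  exact vac_trace T hT _

theorem phi_cons' (c s : Idx m → ℝ) (a : Fin m) (v : List (Fin m)) (Q : List (Idx m)) :
    phi c s (a :: v) Q
      = splitSum v (fun v1 b v2 => if b = a then (semi v1 : ℂ) * phi c s v2 Q else 0)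
        + splitSum Q (fun Q1 q Q2 => (c q : ℂ) * splitSum (yw q) (fun y1 b y2 => if b = a then
              phi c s (y1 ++ v) Q1 * phi c s y2 Q2 else 0)) := by
  rw [phi_eq_vacE, Aop_cons, mul_assoc, vacE_semL_mul, ← mul_assoc, annR_mul_Aop, add_mul, map_add,
    mul_assoc, annR_mul_XQ, mul_add, map_add, ← mul_assoc, vacE_mul_annR, zero_add, add_comm]
  congr 1
  · rw [splitSum_mul_right, splitSum_map]
    apply splitSum_congr
    intro v1 b v2 _
    split_ifs
    · rw [mul_assoc, vacE_mul_vacProj_mul, phi_eq_vacE]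
      congr 1
      have := phi_nil_right c s v1
      rw [phi_eq_vacE, XQ_nil, mul_one] at this
      exact this
    · simp
  · rw [splitSum_mul_left, splitSum_map]
    apply splitSum_congr
    intro Q1 q Q2 _
    have h1 : Aop v * (XQ c s Q1 * ((c q : ℂ) •
          splitSum (yw q) (fun y1 b y2 => if b = a then Aop y1 * vacProj * Aop y2 else 0))
            * XQ c s Q2)
        = (c q : ℂ) • splitSum (yw q) (fun y1 b y2 => if b = a then
            (Aop v * XQ c s Q1 * Aop y1) * vacProj * (Aop y2 * XQ c s Q2) else 0) := by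
      rw [mul_smul_comm, smul_mul_assoc, mul_smul_comm, splitSum_mul_left, splitSum_mul_right,
        splitSum_mul_left]
      congr 1
      apply splitSum_congr
      intro y1 b y2 _
      split_ifs
      · simp only [mul_assoc]
      · simp
    rw [h1, vacE_smul, splitSum_map]
    congr 1
    apply splitSum_congr
    intro y1 b y2 _
    split_ifs
    · rw [vacE_mul_vacProj_mul, vacE_trace, phi_eq_vacE, phi_eq_vacE, Aop_append, mul_assoc]
      intro x
      rw [mul_assoc, XQ_comm_semR, ← mul_assoc, Aop_comm_semR, mul_assoc]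
    · simp

/-- integration by parts in a hidden letter -/
theorem phi_cons (c s : Idx m → ℝ) (a : Fin m) (v : List (Fin m)) (Q : List (Idx m)) :
    phi c s (a :: v) Q
      = (∑ k : Fin v.length, if v.get k = a then
            (semi (v.take k) : ℂ) * phi c s (v.drop (k + 1)) Q else 0)
        + ∑ k : Fin Q.length, (c (Q.get k) : ℂ) * ∑ p : Fin (yw (Q.get k)).length,
            if (yw (Q.get k)).get p = a then
              phi c s ((yw (Q.get k)).take p ++ v) (Q.take k) *
                phi c s ((yw (Q.get k)).drop (p + 1)) (Q.drop (k + 1))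
            else 0 := by
  rw [phi_cons']
  congr 1
  · exact (sum_fin_eq_splitSum v
      (fun v1 b v2 => if b = a then (semi v1 : ℂ) * phi c s v2 Q else 0)).symm
  · rw [← sum_fin_eq_splitSum Q]
    refine Finset.sum_congr rfl fun k _ => ?_
    congr 1
    exact (sum_fin_eq_splitSum (yw (Q.get k)) (fun y1 b y2 => if b = a then
      phi c s (y1 ++ v) (Q.take k) * phi c s y2 (Q.drop (k + 1)) else 0)).symm

theorem sum_wl_splitSum {ι E : Type} [Fintype ι] [DecidableEq ι] [AddCommMonoid E] (l : ℕ)
    (F : List ι → ι → List ι → E) :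
    ∑ w ∈ wl ι (l + 1), splitSum w F
      = ∑ p ∈ Finset.HasAntidiagonal.antidiagonal l,
          ∑ w1 ∈ wl ι p.1, ∑ i, ∑ w2 ∈ wl ι p.2, F w1 i w2 := by
  induction l generalizing F with
  | zero => simp [sum_wl_succ, sum_wl_zero, splitSum_cons]
  | succ l ih =>
    rw [sum_wl_succ, Finset.Nat.antidiagonal_succ, Finset.sum_cons, Finset.sum_map]
    simp only [splitSum_cons, Finset.sum_add_distrib, sum_wl_zero]
    congr 1
    simp only [ih]
    rw [Finset.sum_comm]
    refine Finset.sum_congr rfl fun p _ => ?_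
    exact (sum_wl_succ (ι := ι) p.1 (fun w1 => ∑ i, ∑ w2 ∈ wl ι p.2, F w1 i w2)).symm

theorem sum_antidiagonal_box {E : Type} [AddCommMonoid E] (N : ℕ) (f : ℕ → ℕ → E)
    (hf : ∀ a b, N ≤ a + b → f a b = 0) :
    ∑ l ∈ Finset.range N, ∑ p ∈ Finset.HasAntidiagonal.antidiagonal l, f p.1 p.2
      = ∑ a ∈ Finset.range N, ∑ b ∈ Finset.range N, f a b := by
  rw [← Finset.sum_product']
  have h1 : ∑ p ∈ Finset.range N ×ˢ Finset.range N, f p.1 p.2
      = ∑ p ∈ (Finset.range N ×ˢ Finset.range N).filter (fun p => p.1 + p.2 < N), f p.1 p.2 := by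
    rw [Finset.sum_filter]
    refine Finset.sum_congr rfl fun p _ => ?_
    split_ifs with h
    · rfl
    · exact hf _ _ (by omega)
  rw [h1, ← Finset.sum_fiberwise_of_maps_to (s := (Finset.range N ×ˢ Finset.range N).filter
    (fun p => p.1 + p.2 < N)) (t := Finset.range N) (g := fun p => p.1 + p.2)]
  · refine Finset.sum_congr rfl fun l hl => ?_
    refine Finset.sum_congr ?_ fun _ _ => rfl
    ext p
    simp only [Finset.HasAntidiagonal.mem_antidiagonal, Finset.mem_filter, Finset.mem_product,
      Finset.mem_range]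
    rw [Finset.mem_range] at hl
    constructor
    · intro h; refine ⟨⟨⟨?_, ?_⟩, ?_⟩, h⟩ <;> omega
    · intro h; exact h.2
  · intro p hp
    simp only [Finset.mem_filter, Finset.mem_range] at hp ⊢
    exact hp.2

theorem sum_range_splitSum {ι E : Type} [Fintype ι] [DecidableEq ι] [AddCommMonoid E] (N : ℕ)
    (F : List ι → ι → List ι → E) (hF : ∀ w1 i w2, N ≤ w1.length + w2.length → F w1 i w2 = 0) :
    ∑ l ∈ Finset.range (N + 1), ∑ w ∈ wl ι l, splitSum w F
      = ∑ a ∈ Finset.range N, ∑ b ∈ Finset.range N,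
          ∑ w1 ∈ wl ι a, ∑ i, ∑ w2 ∈ wl ι b, F w1 i w2 := by
  rw [Finset.sum_range_succ', sum_wl_zero, splitSum_nil, add_zero]
  simp only [sum_wl_splitSum]
  rw [← sum_antidiagonal_box N (fun a b => ∑ w1 ∈ wl ι a, ∑ i, ∑ w2 ∈ wl ι b, F w1 i w2)]
  intro a b hab
  refine Finset.sum_eq_zero fun w1 h1 => Finset.sum_eq_zero fun i _ =>
    Finset.sum_eq_zero fun w2 h2 => hF _ _ _ ?_
  rw [mem_wl] at h1 h2
  omega

variable {m : ℕ}

theorem gc_nil (ρ : Idx m → ℝ) (w : List (Idx m)) : gc ρ [] w = if w = [] then 1 else 0 := by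
  rw [gc]

theorem gc_cons_eq (ρ : Idx m → ℝ) (a : Fin m) (v : List (Fin m)) (w : List (Idx m)) :
    gc ρ (a :: v) w = splitSum v (fun v1 b v2 => if b = a then semi v1 * gc ρ v2 w else 0)
      + splitSum w (fun w1 i w2 => ρ i * splitSum (yw i) (fun y1 b y2 => if b = a then
          gc ρ (y1 ++ v) w1 * gc ρ y2 w2 else 0)) := by
  rw [gc, ← sum_fin_eq_splitSum v, ← sum_fin_eq_splitSum w]
  congr 1
  refine Finset.sum_congr rfl fun k _ => ?_
  congr 1
  exact (sum_fin_eq_splitSum (yw (w.get k)) (fun y1 b y2 => if b = a then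
      gc ρ (y1 ++ v) (w.take k) * gc ρ y2 (w.drop (k + 1)) else 0))

/-- sum over words of length `< N` -/
noncomputable def sw (N : ℕ) (F : List (Idx m) → ℂ) : ℂ :=
  ∑ l ∈ Finset.range N, ∑ w ∈ wl (Idx m) l, F w

theorem sw_add (N : ℕ) (F G : List (Idx m) → ℂ) : sw N (fun w => F w + G w) = sw N F + sw N G := by
  simp only [sw, Finset.sum_add_distrib]

theorem sw_splitSum {α : Type} (N : ℕ) (v : List α) (F : List (Idx m) → List α → α → List α → ℂ) :
    sw N (fun w => splitSum v (F w)) = splitSum v (fun v1 b v2 => sw N (fun w => F w v1 b v2)) := by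
  simp only [sw]
  rw [splitSum_finset_sum (Finset.range N) v
    (fun l v1 b v2 => ∑ w ∈ wl (Idx m) l, F w v1 b v2)]
  refine Finset.sum_congr rfl fun l _ => ?_
  rw [splitSum_finset_sum]

theorem sw_mul_sw (N : ℕ) (F G : List (Idx m) → ℂ) :
    sw N F * sw N G = ∑ a ∈ Finset.range N, ∑ b ∈ Finset.range N,
      ∑ w1 ∈ wl (Idx m) a, ∑ w2 ∈ wl (Idx m) b, F w1 * G w2 := by
  simp only [sw]
  rw [Finset.sum_mul_sum]
  refine Finset.sum_congr rfl fun a _ => Finset.sum_congr rfl fun b _ => ?_
  rw [Finset.sum_mul_sum]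

theorem ofReal_splitSum {α : Type} (v : List α) (F : List α → α → List α → ℝ) :
    ((splitSum v F : ℝ) : ℂ) = splitSum v (fun a b c => ((F a b c : ℝ) : ℂ)) :=
  splitSum_map (Complex.ofRealHom : ℝ →+* ℂ).toAddMonoidHom v F

theorem phi_eq_sw (c s : Idx m → ℝ) (hs : ∀ i, s i ≠ 0) (n : ℕ) :
    ∀ (Q : List (Idx m)), Q.length = n → ∀ (v : List (Fin m)) (N : ℕ), Q.length < N →
      phi c s v Q = sw N (fun w => (gc (fun i => c i / s i) v w : ℂ) * Bf c s w Q) := by
  induction n using Nat.strong_induction_on with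
  | _ n ihn =>
  intro Q hQ v
  induction hv : v.length using Nat.strong_induction_on generalizing v with
  | _ nv ihv =>
  intro N hN
  cases v with
  | nil =>
    obtain ⟨N, rfl⟩ : ∃ N', N = N' + 1 := ⟨N - 1, by omega⟩
    rw [sw, Finset.sum_range_succ', sum_wl_zero]
    rw [Finset.sum_eq_zero, zero_add, gc_nil, if_pos rfl]
    · simp only [Complex.ofReal_one, one_mul]
      rw [phi, Bf, Aop_nil, one_apply_eq_self]
      rfl
    · intro l _
      apply Finset.sum_eq_zero
      intro w hw
      rw [mem_wl] at hw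
      rw [gc_nil, if_neg]
      · simp
      · intro h; subst h; simp at hw
  | cons a v =>
    rw [phi_cons']
    simp only [gc_cons_eq, Complex.ofReal_add, add_mul]
    rw [sw_add]
    congr 1
    · -- internal contractions
      have h1 : ∀ w, ((splitSum v (fun v1 b v2 => if b = a then
            semi v1 * gc (fun i => c i / s i) v2 w else 0) : ℝ) : ℂ) * Bf c s w Q
          = splitSum v (fun v1 b v2 => if b = a then (semi v1 : ℂ) *
              ((gc (fun i => c i / s i) v2 w : ℂ) * Bf c s w Q) else 0) := by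
        intro w
        rw [ofReal_splitSum, splitSum_mul_right]
        apply splitSum_congr
        intro v1 b v2 _
        split_ifs
        · push_cast; ring
        · simp
      simp only [h1]
      rw [sw_splitSum]
      apply splitSum_congr
      intro v1 b v2 e
      split_ifs
      · rw [ihv v2.length (by rw [← hv, List.length_cons, e]; simp; omega) v2 rfl N hN]
        simp only [sw, Finset.mul_sum]
      · simp [sw]
    · -- contractions with a letter of the word
      have h1 : ∀ w, ((splitSum w (fun w1 i w2 => c i / s i * splitSum (yw i) (fun y1 b y2 =>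
            if b = a then gc (fun i => c i / s i) (y1 ++ v) w1 * gc (fun i => c i / s i) y2 w2
              else 0)) : ℝ) : ℂ) * Bf c s w Q
          = splitSum w (fun w1 i w2 => (c i / s i : ℂ) * splitSum (yw i) (fun y1 b y2 =>
            if b = a then (gc (fun i => c i / s i) (y1 ++ v) w1 : ℂ) *
              (gc (fun i => c i / s i) y2 w2 : ℂ) else 0) * Bf c s (w1 ++ i :: w2) Q) := by
        intro w
        rw [ofReal_splitSum, splitSum_mul_right]
        apply splitSum_congr
        intro w1 i w2 e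
        rw [← e]
        congr 1
        push_cast
        congr 1
        rw [ofReal_splitSum]
        apply splitSum_congr
        intro y1 b y2 _
        split_ifs
        · push_cast; rfl
        · simp
      simp only [h1]
      obtain ⟨N, rfl⟩ : ∃ N', N = N' + 1 := ⟨N - 1, by omega⟩
      rw [sw, sum_range_splitSum]
      swap
      · intro w1 i w2 h
        rw [Bf_eq_zero, mul_zero]
        simp only [List.length_append, List.length_cons]
        omega
      have h2 : ∀ w1 i w2, (c i / s i : ℂ) * splitSum (yw i) (fun y1 b y2 =>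
            if b = a then (gc (fun i => c i / s i) (y1 ++ v) w1 : ℂ) *
              (gc (fun i => c i / s i) y2 w2 : ℂ) else 0) * Bf c s (w1 ++ i :: w2) Q
          = splitSum Q (fun Q1 q Q2 => if q = i then (c q : ℂ) * splitSum (yw q) (fun y1 b y2 =>
            if b = a then ((gc (fun i => c i / s i) (y1 ++ v) w1 : ℂ) * Bf c s w1 Q1) *
              ((gc (fun i => c i / s i) y2 w2 : ℂ) * Bf c s w2 Q2) else 0) else 0) := by
        intro w1 i w2
        rw [Bf_split', splitSum_mul_left _ Q, splitSum_mul_left _ Q]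
        apply splitSum_congr
        intro Q1 q Q2 _
        split_ifs with h
        · subst h
          have hq : (s q : ℂ) ≠ 0 := by exact_mod_cast hs q
          have e : (c q / s q : ℂ) * splitSum (yw q) (fun y1 b y2 =>
              if b = a then (gc (fun i => c i / s i) (y1 ++ v) w1 : ℂ) *
                (gc (fun i => c i / s i) y2 w2 : ℂ) else 0) * (s q * (Bf c s w1 Q1 * Bf c s w2 Q2))
              = (c q : ℂ) * (splitSum (yw q) (fun y1 b y2 =>
              if b = a then (gc (fun i => c i / s i) (y1 ++ v) w1 : ℂ) *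
                (gc (fun i => c i / s i) y2 w2 : ℂ) else 0) * (Bf c s w1 Q1 * Bf c s w2 Q2)) := by
            field_simp
          rw [e, splitSum_mul_right]
          congr 1
          apply splitSum_congr
          intro y1 b y2 _
          split_ifs
          · ring
          · simp
        · simp
      simp only [h2, ← splitSum_finset_sum]
      apply splitSum_congr
      intro Q1 q Q2 e
      have hlen : Q.length = Q1.length + Q2.length + 1 := by
        rw [e]; simp; omega
      have h3 : ∀ (a' b' : ℕ), ∑ w1 ∈ wl (Idx m) a', ∑ i, ∑ w2 ∈ wl (Idx m) b',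
            (if q = i then (c q : ℂ) * splitSum (yw q) (fun y1 b y2 =>
            if b = a then ((gc (fun i => c i / s i) (y1 ++ v) w1 : ℂ) * Bf c s w1 Q1) *
              ((gc (fun i => c i / s i) y2 w2 : ℂ) * Bf c s w2 Q2) else 0) else 0)
          = ∑ w1 ∈ wl (Idx m) a', ∑ w2 ∈ wl (Idx m) b',
            ((c q : ℂ) * splitSum (yw q) (fun y1 b y2 =>
            if b = a then ((gc (fun i => c i / s i) (y1 ++ v) w1 : ℂ) * Bf c s w1 Q1) *
              ((gc (fun i => c i / s i) y2 w2 : ℂ) * Bf c s w2 Q2) else 0)) := by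
        intro a' b'
        refine Finset.sum_congr rfl fun w1 _ => ?_
        rw [Finset.sum_eq_single q]
        · simp
        · intro i _ hi
          apply Finset.sum_eq_zero
          intro w2 _
          rw [if_neg (fun h => hi h.symm)]
        · intro h; exact absurd (Finset.mem_univ q) h
      simp only [h3]
      simp only [← Finset.mul_sum, ← splitSum_finset_sum]
      congr 1
      apply splitSum_congr
      intro y1 b y2 _
      split_ifs
      · rw [ihn Q1.length (by omega) Q1 rfl (y1 ++ v) N (by omega),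
          ihn Q2.length (by omega) Q2 rfl y2 N (by omega), sw_mul_sw]
      · simp

theorem phi_eq_sum (c s : Idx m → ℝ) (hs : ∀ i, s i ≠ 0) (v : List (Fin m)) (Q : List (Idx m))
    (D : ℕ) (hD : Q.length ≤ D) :
    phi c s v Q = ∑ l ∈ Finset.range (D + 1), ∑ w ∈ wl (Idx m) l,
      (gc (fun i => c i / s i) v w : ℂ) * Bf c s w Q :=
  phi_eq_sw c s hs Q.length Q rfl v (D + 1) (by omega)

end Vale.Agent.P087
end
end

section

section

/-! Task V, part 1: the von Neumann algebra generated by the left semicirculars, realised as the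
commutant of the right semicirculars, with its vacuum state. -/

open scoped InnerProductSpace

namespace Vale.Agent.P087.VN

open Vale.Agent.P087

variable {J : Type} [DecidableEq J]

/-- star subalgebra of operators commuting with all right semicirculars -/
noncomputable def comm (J : Type) [DecidableEq J] : StarSubalgebra ℂ (Fock J →L[ℂ] Fock J) :=
  StarSubalgebra.centralizer ℂ (Set.range (semR : J → Fock J →L[ℂ] Fock J))

theorem mem_comm {T : Fock J →L[ℂ] Fock J} :
    T ∈ comm J ↔ ∀ x : J, semR x * T = T * semR x := by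
  rw [comm, StarSubalgebra.mem_centralizer_iff]
  constructor
  · intro h x
    exact (h (semR x) ⟨x, rfl⟩).1
  · rintro h _ ⟨x, rfl⟩
    refine ⟨h x, ?_⟩
    have h2 : star (semR x) = semR x := isSelfAdjoint_semR x
    rw [h2]
    exact h x

/-- the von Neumann algebra -/
noncomputable def vna (J : Type) [DecidableEq J] : VonNeumannAlgebra (Fock J) where
  toStarSubalgebra := comm J
  centralizer_centralizer' := by
    show Set.centralizer (Set.centralizer (comm J : Set (Fock J →L[ℂ] Fock J))) =
      (comm J : Set (Fock J →L[ℂ] Fock J))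
    rw [comm, StarSubalgebra.coe_centralizer]
    exact Set.centralizer_centralizer_centralizer _

theorem semL_mem (x : J) : semL x ∈ (vna J).toStarSubalgebra := by
  show semL x ∈ comm J
  rw [mem_comm]
  intro y
  exact (semL_comm_semR x y).symm

theorem comm_semR (T : (vna J).toStarSubalgebra) (x : J) (ψ : Fock J) :
    semR x ((T : Fock J →L[ℂ] Fock J) ψ) = (T : Fock J →L[ℂ] Fock J) (semR x ψ) := by
  have h : semR x * (T : Fock J →L[ℂ] Fock J) = (T : Fock J →L[ℂ] Fock J) * semR x := by
    have := T.2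
    exact (mem_comm.mp this) x
  have h2 := congrArg (fun S : Fock J →L[ℂ] Fock J => S ψ) h
  exact h2

/-- the left semicircular as an element of the algebra -/
noncomputable def gen (x : J) : (vna J).toStarSubalgebra := ⟨semL x, semL_mem x⟩

/-- vacuum state -/
noncomputable def vac (J : Type) [DecidableEq J] : (vna J).toStarSubalgebra →ₗ[ℂ] ℂ where
  toFun T := ⟪bas ([] : List J), (T : Fock J →L[ℂ] Fock J) (bas [])⟫_ℂ
  map_add' S T := by
    simp
  map_smul' a T := by
    simp

theorem vac_apply (T : (vna J).toStarSubalgebra) :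
    vac J T = ⟪bas ([] : List J), (T : Fock J →L[ℂ] Fock J) (bas [])⟫_ℂ := rfl

theorem inner_star (T : (vna J).toStarSubalgebra) (φ ψ : Fock J) :
    ⟪φ, ((star T : (vna J).toStarSubalgebra) : Fock J →L[ℂ] Fock J) ψ⟫_ℂ =
      ⟪(T : Fock J →L[ℂ] Fock J) φ, ψ⟫_ℂ := by
  have : ((star T : (vna J).toStarSubalgebra) : Fock J →L[ℂ] Fock J) =
      ContinuousLinearMap.adjoint (T : Fock J →L[ℂ] Fock J) := rfl
  rw [this, ContinuousLinearMap.adjoint_inner_right]

theorem semL_inner (x : J) (φ ψ : Fock J) : ⟪φ, semL x ψ⟫_ℂ = ⟪semL x φ, ψ⟫_ℂ := by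
  have h : ContinuousLinearMap.adjoint (semL x) = semL x := isSelfAdjoint_semL x
  conv_lhs => rw [← h]
  rw [ContinuousLinearMap.adjoint_inner_right]

theorem semR_inner (x : J) (φ ψ : Fock J) : ⟪φ, semR x ψ⟫_ℂ = ⟪semR x φ, ψ⟫_ℂ := by
  have h : ContinuousLinearMap.adjoint (semR x) = semR x := isSelfAdjoint_semR x
  conv_lhs => rw [← h]
  rw [ContinuousLinearMap.adjoint_inner_right]

/-- coordinates of `T^* Ω`: word reversal -/
theorem coord_star (n : ℕ) : ∀ (w : List J), w.length = n → ∀ T : (vna J).toStarSubalgebra,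
    ⟪bas w, ((star T : (vna J).toStarSubalgebra) : Fock J →L[ℂ] Fock J) (bas [])⟫_ℂ =
      (starRingEnd ℂ) ⟪bas w.reverse, (T : Fock J →L[ℂ] Fock J) (bas [])⟫_ℂ := by
  induction n using Nat.strong_induction_on with
  | _ n ih =>
    intro w hw T
    rcases List.eq_nil_or_concat w with rfl | ⟨w, y, rfl⟩
    · rw [inner_star, List.reverse_nil, inner_conj_symm]
    · rw [List.concat_eq_append] at hw ⊢
      have hlen : w.length < n := by simp at hw; omega
      -- step for w
      have h1 := ih w.length hlen w rfl (gen y * T)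
      have e1 : ((star (gen y * T) : (vna J).toStarSubalgebra) : Fock J →L[ℂ] Fock J) (bas []) =
          ((star T : (vna J).toStarSubalgebra) : Fock J →L[ℂ] Fock J) (semR y (bas [])) := by
        have : (star (gen y * T) : (vna J).toStarSubalgebra) = star T * gen y := by
          rw [star_mul]
          congr 1
          apply Subtype.ext
          exact isSelfAdjoint_semL y
        rw [this, semR_nil, ← semL_nil]
        rfl
      rw [e1, ← comm_semR, semR_inner] at h1
      have e2 : (((gen y * T : (vna J).toStarSubalgebra) : Fock J →L[ℂ] Fock J) (bas [])) =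
          semL y ((T : Fock J →L[ℂ] Fock J) (bas [])) := rfl
      rw [e2, semL_inner] at h1
      rw [List.reverse_append, List.reverse_singleton, List.singleton_append]
      rcases List.eq_nil_or_concat w with rfl | ⟨w, z, rfl⟩
      · simpa using h1
      · rw [List.concat_eq_append] at hlen hw h1 ⊢
        have hlen2 : w.length < n := by simp at hlen; omega
        have h2 := ih w.length hlen2 w rfl T
        rw [semR_concat, List.reverse_append, List.reverse_singleton, List.singleton_append,
          semL_cons, inner_add_left, inner_add_left, map_add] at h1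
        rw [List.reverse_append, List.reverse_singleton, List.singleton_append]
        by_cases h : y = z
        · subst h
          simp only [if_true] at h1
          rw [h2] at h1
          exact add_right_cancel h1
        · simpa [h] using h1

theorem isFNTState (J : Type) [DecidableEq J] : IsFNTState (vna J) (vac J) where
  map_one := by
    rw [vac_apply]
    have : (((1 : (vna J).toStarSubalgebra) : Fock J →L[ℂ] Fock J)) (bas []) = bas [] := rfl
    rw [this, inner_bas]
    simp
  tracial := by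
    intro x y
    have key : ∀ x y : (vna J).toStarSubalgebra, vac J (x * y) =
        ∑' w : List J, ⟪bas w.reverse, (x : Fock J →L[ℂ] Fock J) (bas [])⟫_ℂ *
          ⟪bas w, (y : Fock J →L[ℂ] Fock J) (bas [])⟫_ℂ := by
      intro x y
      have e : vac J (x * y) =
          ⟪((star x : (vna J).toStarSubalgebra) : Fock J →L[ℂ] Fock J) (bas []),
            (y : Fock J →L[ℂ] Fock J) (bas [])⟫_ℂ := by
        rw [← inner_star, star_star]
        rfl
      rw [e, ← (hb J).tsum_inner_mul_inner]
      apply tsum_congr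
      intro w
      rw [hb_apply]
      congr 1
      have h := coord_star _ w rfl x
      rw [← inner_conj_symm, h, Complex.conj_conj]
    rw [key x y, key y x]
    rw [← (Equiv.ofBijective (List.reverse : List J → List J)
      (List.reverse_involutive.bijective)).tsum_eq
      (fun w : List J => ⟪bas w.reverse, (y : Fock J →L[ℂ] Fock J) (bas [])⟫_ℂ *
          ⟪bas w, (x : Fock J →L[ℂ] Fock J) (bas [])⟫_ℂ)]
    apply tsum_congr
    intro w
    simp [mul_comm]
  faithful := by
    intro T h
    have h0 : (T : Fock J →L[ℂ] Fock J) (bas []) = 0 := by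
      have e : vac J (star T * T) = ⟪(T : Fock J →L[ℂ] Fock J) (bas []),
          (T : Fock J →L[ℂ] Fock J) (bas [])⟫_ℂ := by
        rw [← inner_star]
        rfl
      rw [e] at h
      exact inner_self_eq_zero.mp h
    apply Subtype.ext
    show (T : Fock J →L[ℂ] Fock J) = 0
    apply ext_bas
    intro w
    show (T : Fock J →L[ℂ] Fock J) (bas w) = 0
    induction hn : w.length using Nat.strong_induction_on generalizing w with
    | _ n ih =>
      rcases List.eq_nil_or_concat w with rfl | ⟨w, y, rfl⟩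
      · exact h0
      · rw [List.concat_eq_append] at hn ⊢
        rcases List.eq_nil_or_concat w with rfl | ⟨w, z, rfl⟩
        · have : bas ([] ++ [y] : List J) = semR y (bas []) := by simp
          rw [this, ← comm_semR, h0, map_zero]
        · rw [List.concat_eq_append] at hn ⊢
          have e : bas (w ++ [z] ++ [y]) =
              semR y (bas (w ++ [z])) - if y = z then bas w else 0 := by
            rw [semR_concat]; simp
          have h1 := ih (w ++ [z]).length (by simp at hn ⊢; omega) (w ++ [z]) rfl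
          have h2 := ih w.length (by simp at hn; omega) w rfl
          rw [e, map_sub, ← comm_semR, h1, map_zero]
          by_cases hyz : y = z
          · simp [hyz, h2]
          · simp [hyz]
  normal := by
    refine ⟨fun n => if n = 0 then bas [] else 0, ?_, ?_⟩
    · apply summable_of_ne_finset_zero (s := {0})
      intro n hn
      have : n ≠ 0 := by simpa using hn
      simp [this]
    · intro x
      rw [tsum_eq_single 0]
      · simp [vac_apply]
      · intro n hn
        simp [hn]

end Vale.Agent.P087.VN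
end
end
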