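import Vale.Agent.P087.MathlibUsed
import Vale.Agent.P087.Bdl.B1
import Vale.Agent.P087.FinalDefs
attribute [-instance] ProperSMul.toContinuousSMul IsTopologicalTorsor.toContinuousSMul IdemSemiring.toCanonicallyOrderedAdd IdemSemiring.toMulLeftMono IdemSemiring.toMulRightMono AddQuantale.instAddLeftMono AddQuantale.instAddRightMono Quantale.instMulLeftMono Quantale.instMulRightMono FiniteDimensional.rclike_to_real IsScalarTower.complexToReal FiniteDimensional.complexToReal

set_option linter.all false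

section

section

/-! Core C5: the norm bound for the coefficients `gc` (Blueprint F6). -/

namespace Vale.Agent.P087

variable {m : ℕ}

/-! ### reduced words -/

/-- push a letter on a reduced word -/
def pushL (a : Fin m) (r : List (Fin m)) : List (Fin m) :=
  match r with
  | [] => [a]
  | b :: u => if a = b then u else a :: b :: u

theorem red_cons (a : Fin m) (v : List (Fin m)) : red (a :: v) = pushL a (red v) := by
  rw [red, pushL.eq_def]
  cases red v <;> rfl

theorem pushL_chain (a : Fin m) (r : List (Fin m)) (h : r.IsChain (· ≠ ·)) :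
    (pushL a r).IsChain (· ≠ ·) := by
  cases r with
  | nil => simp [pushL]
  | cons b u =>
    rw [pushL]
    split_ifs with hab
    · exact h.tail
    · exact List.IsChain.cons_cons hab h

theorem red_chain (v : List (Fin m)) : (red v).IsChain (· ≠ ·) := by
  induction v with
  | nil => simp [red]
  | cons a v ih =>
    rw [red_cons]
    exact pushL_chain a _ ih

theorem pushL_pushL (a : Fin m) (r : List (Fin m)) (h : r.IsChain (· ≠ ·)) :
    pushL a (pushL a r) = r := by
  cases r with
  | nil => simp [pushL]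
  | cons b u =>
    by_cases hab : a = b
    · subst hab
      cases u with
      | nil => simp [pushL]
      | cons c u =>
        have hac : a ≠ c := by
          simp only [List.isChain_cons_cons] at h
          exact h.1
        simp [pushL, hac]
    · simp [pushL, hab]

theorem red_append_of_semi (v : List (Fin m)) (hv : semi v ≠ 0) :
    ∀ u, red (v ++ u) = red u := by
  induction hn : v.length using Nat.strong_induction_on generalizing v with
  | _ n ih =>
    intro u
    cases v with
    | nil => rfl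
    | cons x w =>
      rw [semi] at hv
      obtain ⟨k, -, hk⟩ := Finset.exists_ne_zero_of_sum_ne_zero hv
      split_ifs at hk with hx
      swap
      · exact absurd rfl hk
      have h1 : semi (w.take k) ≠ 0 := left_ne_zero_of_mul hk
      have h2 : semi (w.drop (k + 1)) ≠ 0 := right_ne_zero_of_mul hk
      have hkl : (k : ℕ) < w.length := k.2
      simp only [List.length_cons] at hn
      have e1 := ih (w.take k).length (by simp only [List.length_take]; omega) (w.take k) h1 rfl
      have e2 := ih (w.drop (k + 1)).length (by simp only [List.length_drop]; omega)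
        (w.drop (k + 1)) h2 rfl
      have hw : w = w.take k ++ x :: w.drop (k + 1) := by
        rw [← hx, List.get_eq_getElem, ← List.drop_eq_getElem_cons hkl, List.take_append_drop]
      have hstep : red ((x :: w) ++ u) = pushL x (pushL x (red u)) := by
        calc red ((x :: w) ++ u)
            = red (x :: ((w.take k ++ x :: w.drop (k + 1)) ++ u)) := by rw [← hw]; rfl
          _ = pushL x (red (w.take k ++ (x :: (w.drop (k + 1) ++ u)))) := by
              rw [red_cons, List.append_assoc]; rfl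
          _ = pushL x (pushL x (red u)) := by rw [e1, red_cons, e2]
      rw [hstep, pushL_pushL x _ (red_chain u)]

theorem rlen_cons_of_ne {a : Fin m} {v : List (Fin m)} (h : (red v).head? ≠ some a) :
    rlen (a :: v) = rlen v + 1 := by
  unfold rlen
  rw [red_cons]
  cases hr : red v with
  | nil => simp [pushL]
  | cons b u =>
    have hab : a ≠ b := by
      rintro rfl
      exact h (by rw [hr]; rfl)
    simp [pushL, hab]

theorem rlen_cons_of_eq {a : Fin m} {v : List (Fin m)} (h : (red v).head? = some a) :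
    rlen (a :: v) + 1 = rlen v := by
  unfold rlen
  rw [red_cons]
  cases hr : red v with
  | nil => rw [hr] at h; simp at h
  | cons b u =>
    rw [hr] at h
    have hab : b = a := by simpa using h
    subst hab
    simp [pushL]

theorem rlen_cons_le (a : Fin m) (v : List (Fin m)) : rlen (a :: v) ≤ rlen v + 1 := by
  by_cases h : (red v).head? = some a
  · have := rlen_cons_of_eq h
    omega
  · exact (rlen_cons_of_ne h).le

theorem le_rlen_cons (a : Fin m) (v : List (Fin m)) : rlen v ≤ rlen (a :: v) + 1 := by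
  by_cases h : (red v).head? = some a
  · exact (rlen_cons_of_eq h).ge
  · have := rlen_cons_of_ne h
    omega

theorem head_red_cons_of_ne {b : Fin m} {v : List (Fin m)} (h : (red v).head? ≠ some b) :
    (red (b :: v)).head? = some b := by
  rw [red_cons]
  cases hr : red v with
  | nil => simp [pushL]
  | cons c u =>
    have hbc : b ≠ c := by
      rintro rfl
      exact h (by rw [hr]; rfl)
    simp [pushL, hbc]

/-- generic letters increase the reduced length -/
theorem rlen_two_of_ne {a b : Fin m} {v : List (Fin m)} (hab : b ≠ a)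
    (h : (red v).head? ≠ some b) : rlen (a :: b :: v) = rlen v + 2 := by
  have h1 : (red (b :: v)).head? ≠ some a := by
    rw [head_red_cons_of_ne h]
    simpa using hab
  rw [rlen_cons_of_ne h1, rlen_cons_of_ne h]

theorem rlen_nil : rlen ([] : List (Fin m)) = 0 := rfl

theorem rlen_single (b : Fin m) : rlen [b] = 1 := rfl

theorem rlen_pair {a b : Fin m} (hab : b ≠ a) : rlen [b, a] = 2 := by
  have h : (red ([a] : List (Fin m))).head? ≠ some b := by
    simp [red]
    exact fun h => hab h.symm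
  rw [rlen_cons_of_ne h, rlen_single]

theorem rlen_triple {a b : Fin m} (hab : a ≠ b) : rlen [a, b, a] = 3 := by
  have h : (red ([b, a] : List (Fin m))).head? ≠ some a := by
    simp [red, Ne.symm hab]
  rw [rlen_cons_of_ne h, rlen_pair hab.symm]

/-! ### l2 norms of functions on finsets -/

noncomputable def nrm {α : Type*} (s : Finset α) (F : α → ℝ) : ℝ := Real.sqrt (∑ x ∈ s, F x ^ 2)

theorem nrm_nonneg {α : Type*} (s : Finset α) (F : α → ℝ) : 0 ≤ nrm s F := Real.sqrt_nonneg _

theorem nrm_sq {α : Type*} (s : Finset α) (F : α → ℝ) : nrm s F ^ 2 = ∑ x ∈ s, F x ^ 2 :=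
  Real.sq_sqrt (Finset.sum_nonneg fun _ _ => sq_nonneg _)

theorem nrm_congr {α : Type*} {s : Finset α} {F G : α → ℝ} (h : ∀ x ∈ s, F x = G x) :
    nrm s F = nrm s G := by
  unfold nrm
  rw [Finset.sum_congr rfl fun x hx => by rw [h x hx]]

theorem nrm_add_le {α : Type*} (s : Finset α) (F G : α → ℝ) :
    nrm s (fun x => F x + G x) ≤ nrm s F + nrm s G := by
  have h1 : 0 ≤ nrm s F + nrm s G := add_nonneg (nrm_nonneg _ _) (nrm_nonneg _ _)
  refine Real.sqrt_le_iff.mpr ⟨h1, ?_⟩
  have h2 : ∑ x ∈ s, F x * G x ≤ nrm s F * nrm s G := Real.sum_mul_le_sqrt_mul_sqrt _ _ _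
  calc ∑ x ∈ s, (F x + G x) ^ 2 = ∑ x ∈ s, F x ^ 2 + 2 * ∑ x ∈ s, F x * G x + ∑ x ∈ s, G x ^ 2 := by
        rw [Finset.mul_sum, ← Finset.sum_add_distrib, ← Finset.sum_add_distrib]
        exact Finset.sum_congr rfl fun x _ => by ring
    _ ≤ nrm s F ^ 2 + 2 * (nrm s F * nrm s G) + nrm s G ^ 2 := by
        rw [nrm_sq, nrm_sq]
        linarith
    _ = (nrm s F + nrm s G) ^ 2 := by ring

theorem nrm_zero {α : Type*} (s : Finset α) : nrm s (fun _ => (0 : ℝ)) = 0 := by
  simp [nrm]

theorem nrm_sum_le {α κ : Type*} (s : Finset α) (t : Finset κ) (F : κ → α → ℝ) :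
    nrm s (fun x => ∑ k ∈ t, F k x) ≤ ∑ k ∈ t, nrm s (F k) := by
  classical
  induction t using Finset.induction_on with
  | empty => simp [nrm_zero]
  | insert a t ha ih =>
    rw [Finset.sum_insert ha]
    have : (fun x => ∑ k ∈ insert a t, F k x) = fun x => F a x + ∑ k ∈ t, F k x := by
      funext x
      rw [Finset.sum_insert ha]
    rw [this]
    refine (nrm_add_le s _ _).trans ?_
    gcongr

theorem nrm_smul {α : Type*} (s : Finset α) (c : ℝ) (F : α → ℝ) :
    nrm s (fun x => c * F x) = |c| * nrm s F := by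
  unfold nrm
  have : ∑ x ∈ s, (c * F x) ^ 2 = c ^ 2 * ∑ x ∈ s, F x ^ 2 := by
    rw [Finset.mul_sum]
    exact Finset.sum_congr rfl fun x _ => by ring
  rw [this, Real.sqrt_mul (sq_nonneg c), Real.sqrt_sq_eq_abs]

theorem gam_eq_nrm (ρ : Idx m → ℝ) (l : ℕ) (v : List (Fin m)) :
    gam ρ l v = nrm (wl (Idx m) l) (gc ρ v) := rfl

theorem gam_nonneg (ρ : Idx m → ℝ) (l : ℕ) (v : List (Fin m)) : 0 ≤ gam ρ l v :=
  Real.sqrt_nonneg _

theorem gam_nil (ρ : Idx m → ℝ) (l : ℕ) : gam ρ l [] = if l = 0 then 1 else 0 := by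
  unfold gam
  split_ifs with h
  · subst h
    rw [sum_wl_zero]
    simp [gc]
  · rw [Finset.sum_eq_zero, Real.sqrt_zero]
    intro w hw
    have : w ≠ [] := by
      rintro rfl
      simp at hw
      exact h hw.symm
    simp [gc, this]

/-- triples (word of length k, letter, word of length l2) -/
def trip (m k l2 : ℕ) : Finset (List (Idx m) × Idx m × List (Idx m)) :=
  wl (Idx m) k ×ˢ (Finset.univ : Finset (Idx m)) ×ˢ wl (Idx m) l2

/-- one product term -/
noncomputable def Hf (ρ : Idx m → ℝ) (c : Idx m → ℝ) (V W : Idx m → List (Fin m))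
    (x : List (Idx m) × Idx m × List (Idx m)) : ℝ :=
  c x.2.1 * (gc ρ (V x.2.1) x.1 * gc ρ (W x.2.1) x.2.2)

theorem nrm_Hf (ρ : Idx m → ℝ) (c : Idx m → ℝ) (V W : Idx m → List (Fin m)) (k l2 : ℕ) :
    nrm (trip m k l2) (Hf ρ c V W)
      = Real.sqrt (∑ i, (c i * (gam ρ k (V i) * gam ρ l2 (W i))) ^ 2) := by
  unfold nrm
  congr 1
  unfold trip Hf
  rw [Finset.sum_product]
  simp only [Finset.sum_product]
  rw [Finset.sum_comm]
  refine Finset.sum_congr rfl fun i _ => ?_
  have h1 : gam ρ k (V i) ^ 2 = ∑ w ∈ wl (Idx m) k, gc ρ (V i) w ^ 2 := nrm_sq _ _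
  have h2 : gam ρ l2 (W i) ^ 2 = ∑ w ∈ wl (Idx m) l2, gc ρ (W i) w ^ 2 := nrm_sq _ _
  calc ∑ x ∈ wl (Idx m) k, ∑ y ∈ wl (Idx m) l2, (c i * (gc ρ (V i) x * gc ρ (W i) y)) ^ 2
      = c i ^ 2 * ((∑ x ∈ wl (Idx m) k, gc ρ (V i) x ^ 2) * ∑ y ∈ wl (Idx m) l2, gc ρ (W i) y ^ 2) := by
        rw [Finset.sum_mul_sum, Finset.mul_sum]
        refine Finset.sum_congr rfl fun x _ => ?_
        rw [Finset.mul_sum]
        refine Finset.sum_congr rfl fun y _ => ?_
        ring
    _ = (c i * (gam ρ k (V i) * gam ρ l2 (W i))) ^ 2 := by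
        rw [← h1, ← h2]
        ring

noncomputable def cA (ρ : Idx m → ℝ) (a : Fin m) (i : Idx m) : ℝ :=
  if i.1 = a ∧ i.2 = a then ρ i else 0

noncomputable def cB (ρ : Idx m → ℝ) (a : Fin m) (i : Idx m) : ℝ :=
  if i.1 = a ∧ i.2 ≠ a then ρ i else 0

noncomputable def cC (ρ : Idx m → ℝ) (a : Fin m) (i : Idx m) : ℝ :=
  if i.1 ≠ a ∧ i.2 = a then ρ i else 0

noncomputable def Psi (ρ : Idx m → ℝ) (a : Fin m) (v : List (Fin m))
    (x : List (Idx m) × Idx m × List (Idx m)) : ℝ :=
  ρ x.2.1 * ∑ p : Fin (yw x.2.1).length, if (yw x.2.1).get p = a then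
    gc ρ ((yw x.2.1).take p ++ v) x.1 * gc ρ ((yw x.2.1).drop (p + 1)) x.2.2 else 0

theorem Psi_eq (ρ : Idx m → ℝ) (a : Fin m) (v : List (Fin m))
    (x : List (Idx m) × Idx m × List (Idx m)) :
    Psi ρ a v x = Hf ρ (cA ρ a) (fun _ => v) (fun _ => []) x
      + Hf ρ (cB ρ a) (fun _ => v) (fun i => [i.2, a]) x
      + Hf ρ (cB ρ a) (fun i => a :: i.2 :: v) (fun _ => []) x
      + Hf ρ (cC ρ a) (fun i => i.1 :: v) (fun i => [i.1]) x := by
  obtain ⟨w1, ⟨p, q⟩, w2⟩ := x
  have key : ∀ y : List (Fin m), yw (p, q) = y → Psi ρ a v (w1, (p, q), w2) =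
      ρ (p, q) * ∑ j : Fin y.length, if y.get j = a then
        gc ρ (y.take j ++ v) w1 * gc ρ (y.drop (j + 1)) w2 else 0 := by
    rintro _ rfl
    rfl
  by_cases hpq : p = q
  · subst hpq
    have h1 : yw (p, p) = [p] := by simp [yw]
    rw [key _ h1]
    by_cases hpa : p = a
    · subst hpa
      simp [Hf, cA, cB, cC]
    · simp [Hf, cA, cB, cC, hpa]
  · have h1 : yw (p, q) = [p, q, p] := by simp [yw, hpq]
    rw [key _ h1]
    by_cases hpa : p = a
    · subst hpa
      have hqp : q ≠ p := fun h => hpq h.symm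
      simp [Hf, cA, cB, cC, Fin.sum_univ_three, hqp, mul_add]
    · by_cases hqa : q = a
      · subst hqa
        simp [Hf, cA, cB, cC, Fin.sum_univ_three, hpa]
      · simp [Hf, cA, cB, cC, Fin.sum_univ_three, hpa, hqa]

theorem gc_cons (ρ : Idx m → ℝ) (a : Fin m) (v : List (Fin m)) (w : List (Idx m)) :
    gc ρ (a :: v) w =
      (∑ k : Fin v.length, if v.get k = a then semi (v.take k) * gc ρ (v.drop (k + 1)) w else 0)
      + ∑ k : Fin w.length, Psi ρ a v (w.take k, w.get k, w.drop (k + 1)) := by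
  rw [gc]
  rfl

/-- the k-th term of the second sum, for all words -/
noncomputable def Psk (ρ : Idx m → ℝ) (a : Fin m) (v : List (Fin m)) (k : ℕ)
    (w : List (Idx m)) : ℝ :=
  if h : k < w.length then Psi ρ a v (w.take k, w.get ⟨k, h⟩, w.drop (k + 1)) else 0

theorem gc_cons' (ρ : Idx m → ℝ) (a : Fin m) (v : List (Fin m)) (l : ℕ) (w : List (Idx m))
    (hw : w ∈ wl (Idx m) l) :
    gc ρ (a :: v) w =
      (∑ k : Fin v.length, (if v.get k = a then semi (v.take k) else 0) * gc ρ (v.drop (k + 1)) w)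
      + ∑ k ∈ Finset.range l, Psk ρ a v k w := by
  rw [gc_cons]
  congr 1
  · refine Finset.sum_congr rfl fun k _ => ?_
    split_ifs <;> simp
  · rw [mem_wl] at hw
    subst hw
    rw [Finset.sum_range]
    refine Finset.sum_congr rfl fun k _ => ?_
    simp [Psk]

theorem nrm_Psk (ρ : Idx m → ℝ) (a : Fin m) (v : List (Fin m)) (k l2 : ℕ) :
    nrm (wl (Idx m) (k + (l2 + 1))) (Psk ρ a v k) = nrm (trip m k l2) (Psi ρ a v) := by
  unfold nrm trip
  congr 1
  rw [sum_wl_split, Finset.sum_product]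
  refine Finset.sum_congr rfl fun w1 hw1 => ?_
  rw [Finset.sum_product]
  refine Finset.sum_congr rfl fun i _ => ?_
  refine Finset.sum_congr rfl fun w2 hw2 => ?_
  rw [mem_wl] at hw1
  congr 1
  unfold Psk
  subst hw1
  have h : w1.length < (w1 ++ i :: w2).length := by simp
  rw [dif_pos h]
  congr 1
  simp

theorem gam_cons_le (ρ : Idx m → ℝ) (a : Fin m) (v : List (Fin m)) (l : ℕ) :
    gam ρ l (a :: v) ≤
      (∑ k : Fin v.length, |if v.get k = a then semi (v.take k) else 0| * gam ρ l (v.drop (k + 1)))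
      + ∑ k ∈ Finset.range l, nrm (trip m k (l - 1 - k)) (Psi ρ a v) := by
  rw [gam_eq_nrm, nrm_congr (gc_cons' ρ a v l)]
  refine (nrm_add_le _ _ _).trans ?_
  refine add_le_add ?_ ?_
  · refine (nrm_sum_le _ _ _).trans (le_of_eq ?_)
    refine Finset.sum_congr rfl fun k _ => ?_
    rw [nrm_smul]
    rfl
  · refine (nrm_sum_le _ _ _).trans (le_of_eq ?_)
    refine Finset.sum_congr rfl fun k hk => ?_
    have hkl := Finset.mem_range.mp hk
    rw [← nrm_Psk]
    congr 2
    omega

theorem sqrt_sum_generic (a : Fin m) (θ : ℝ) (hθ0 : 0 ≤ θ) (hm : ((m : ℝ) - 1) * θ ^ 2 ≤ 8)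
    (o : Option (Fin m)) (r X : Fin m → ℝ) (Y Y' : ℝ) (hY : 0 ≤ Y) (hY' : 0 ≤ Y')
    (hr0 : ∀ b, 0 ≤ r b) (hr : ∀ b, b ≠ a → r b ≤ θ) (hX0 : ∀ b, 0 ≤ X b)
    (hX1 : ∀ b, b ≠ a → o ≠ some b → X b ≤ Y) (hX2 : ∀ b, b ≠ a → o = some b → X b ≤ Y') :
    Real.sqrt (∑ b, ((if b ≠ a then r b else 0) * X b) ^ 2) ≤ 3 * Y + θ * Y' := by
  refine Real.sqrt_le_iff.mpr ⟨by positivity, ?_⟩
  have h1 : ∀ b, ((if b ≠ a then r b else 0) * X b) ^ 2 ≤
      (if b ≠ a then θ ^ 2 * Y ^ 2 else 0) + (if o = some b then θ ^ 2 * Y' ^ 2 else 0) := by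
    intro b
    by_cases hb : b = a
    · subst hb
      rw [if_neg (fun h => h rfl), if_neg (fun h => h rfl), zero_mul, zero_pow two_ne_zero, zero_add]
      split_ifs
      · positivity
      · exact le_rfl
    · rw [if_pos hb, if_pos hb, mul_pow]
      have hr2 : r b ^ 2 ≤ θ ^ 2 := pow_le_pow_left₀ (hr0 b) (hr b hb) 2
      by_cases ho : o = some b
      · rw [if_pos ho]
        have hx2 : X b ^ 2 ≤ Y' ^ 2 := pow_le_pow_left₀ (hX0 b) (hX2 b hb ho) 2
        have : r b ^ 2 * X b ^ 2 ≤ θ ^ 2 * Y' ^ 2 := mul_le_mul hr2 hx2 (by positivity) (by positivity)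
        have h0 : 0 ≤ θ ^ 2 * Y ^ 2 := by positivity
        linarith
      · rw [if_neg ho, add_zero]
        have hx2 : X b ^ 2 ≤ Y ^ 2 := pow_le_pow_left₀ (hX0 b) (hX1 b hb ho) 2
        exact mul_le_mul hr2 hx2 (by positivity) (by positivity)
  refine (Finset.sum_le_sum fun b _ => h1 b).trans ?_
  rw [Finset.sum_add_distrib]
  have h2 : ∑ b : Fin m, (if b ≠ a then θ ^ 2 * Y ^ 2 else 0) ≤ 8 * Y ^ 2 := by
    rw [← Finset.sum_filter, Finset.sum_const, nsmul_eq_mul, Finset.filter_ne',
      Finset.card_erase_of_mem (Finset.mem_univ a), Finset.card_univ, Fintype.card_fin]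
    have hm1 : 1 ≤ m := Nat.one_le_of_lt a.2
    rw [Nat.cast_sub hm1, Nat.cast_one, ← mul_assoc]
    exact mul_le_mul_of_nonneg_right hm (sq_nonneg Y)
  have h3 : ∑ b : Fin m, (if o = some b then θ ^ 2 * Y' ^ 2 else 0) ≤ θ ^ 2 * Y' ^ 2 := by
    cases o with
    | none => simp; positivity
    | some c => simp
  have h4 : 0 ≤ Y * (θ * Y') := by positivity
  nlinarith [sq_nonneg Y]

theorem sum_cB (ρ : Idx m → ℝ) (a : Fin m) (F : Idx m → ℝ) :
    ∑ i, (cB ρ a i * F i) ^ 2 = ∑ b, ((if b ≠ a then ρ (a, b) else 0) * F (a, b)) ^ 2 := by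
  rw [Fintype.sum_prod_type, Finset.sum_eq_single a]
  · refine Finset.sum_congr rfl fun b _ => ?_
    simp [cB]
  · intro p _ hp
    refine Finset.sum_eq_zero fun q _ => ?_
    simp [cB, hp]
  · intro h
    exact absurd (Finset.mem_univ a) h

theorem sum_cC (ρ : Idx m → ℝ) (a : Fin m) (F : Idx m → ℝ) :
    ∑ i, (cC ρ a i * F i) ^ 2 = ∑ b, ((if b ≠ a then ρ (b, a) else 0) * F (b, a)) ^ 2 := by
  rw [Fintype.sum_prod_type_right, Finset.sum_eq_single a]
  · refine Finset.sum_congr rfl fun b _ => ?_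
    simp [cC]
  · intro p _ hp
    refine Finset.sum_eq_zero fun q _ => ?_
    simp [cC, hp]
  · intro h
    exact absurd (Finset.mem_univ a) h

theorem sum_cA (ρ : Idx m → ℝ) (a : Fin m) (F : Idx m → ℝ) :
    ∑ i, (cA ρ a i * F i) ^ 2 = (ρ (a, a) * F (a, a)) ^ 2 := by
  rw [Finset.sum_eq_single (a, a)]
  · simp [cA]
  · rintro ⟨p, q⟩ _ hpq
    have : ¬ (p = a ∧ q = a) := by
      rintro ⟨rfl, rfl⟩
      exact hpq rfl
    simp [cA, this]
  · intro h
    exact absurd (Finset.mem_univ (a, a)) h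

theorem pow400_le {n k j : ℕ} (h : n ≤ k + j) :
    ((1 : ℝ) / 400) ^ k ≤ 400 ^ j * (1 / 400) ^ n := by
  have h1 : ((1 : ℝ) / 400) ^ (k + j) ≤ (1 / 400) ^ n :=
    pow_le_pow_of_le_one (by norm_num) (by norm_num) h
  have h2 : ((1 : ℝ) / 400) ^ k = 400 ^ j * (1 / 400) ^ (k + j) := by
    rw [pow_add, mul_comm, mul_assoc, ← mul_pow]
    norm_num
  rw [h2]
  gcongr

theorem pow400_le' {n k : ℕ} (h : n + 1 ≤ k) :
    ((1 : ℝ) / 400) ^ k ≤ (1 / 400) * (1 / 400) ^ n := by
  rw [← pow_succ']
  exact pow_le_pow_of_le_one (by norm_num) (by norm_num) h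

theorem pow400_le0 {n k : ℕ} (h : n ≤ k) :
    ((1 : ℝ) / 400) ^ k ≤ (1 / 400) ^ n :=
  pow_le_pow_of_le_one (by norm_num) (by norm_num) h

/-- the second part of the recursion -/
theorem nrm_Psi_le (ρ : Idx m → ℝ) (θ : ℝ) (hρ0 : ∀ i, 0 ≤ ρ i) (hd : ∀ a, ρ (a, a) ≤ 1 / 4000)
    (ho : ∀ a b, a ≠ b → ρ (a, b) ≤ θ) (hθ0 : 0 ≤ θ) (hθ : θ ≤ 1 / 10 ^ 12)
    (hm : ((m : ℝ) - 1) * θ ^ 2 ≤ 8) (a : Fin m) (v : List (Fin m)) (k l2 : ℕ) (C1 C2 : ℝ)
    (hC1 : 0 ≤ C1) (hC2 : 0 ≤ C2)
    (h1 : ∀ u, gam ρ k u ≤ C1 * 4 ^ u.length * (1 / 400) ^ (rlen u))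
    (h2 : ∀ u, gam ρ l2 u ≤ C2 * 4 ^ u.length * (1 / 400) ^ (rlen u)) :
    nrm (trip m k l2) (Psi ρ a v)
      ≤ (7 / 32) * (C1 * C2) * (4 ^ (v.length + 1) * (1 / 400) ^ (rlen (a :: v))) := by
  set N : ℝ := 4 ^ (v.length + 1) * (1 / 400) ^ (rlen (a :: v)) with hN
  set n := rlen (a :: v) with hn
  have hN0 : 0 ≤ N := by positivity
  have hnil : gam ρ l2 [] ≤ C2 := by simpa [rlen_nil] using h2 []
  have hle1 : n ≤ rlen v + 1 := rlen_cons_le a v
  have hpsi : nrm (trip m k l2) (Psi ρ a v) ≤
      nrm (trip m k l2) (Hf ρ (cA ρ a) (fun _ => v) (fun _ => []))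
      + nrm (trip m k l2) (Hf ρ (cB ρ a) (fun _ => v) (fun i => [i.2, a]))
      + nrm (trip m k l2) (Hf ρ (cB ρ a) (fun i => a :: i.2 :: v) (fun _ => []))
      + nrm (trip m k l2) (Hf ρ (cC ρ a) (fun i => i.1 :: v) (fun i => [i.1])) := by
    rw [nrm_congr (fun x _ => Psi_eq ρ a v x)]
    refine (nrm_add_le _ _ _).trans ?_
    gcongr
    refine (nrm_add_le _ _ _).trans ?_
    gcongr
    exact nrm_add_le _ _ _
  -- first type
  have e1 : nrm (trip m k l2) (Hf ρ (cA ρ a) (fun _ => v) (fun _ => [])) ≤ 1 / 40 * (C1 * C2) * N := by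
    rw [nrm_Hf, sum_cA ρ a (fun _ => gam ρ k v * gam ρ l2 []), Real.sqrt_sq
      (mul_nonneg (hρ0 _) (mul_nonneg (gam_nonneg _ _ _) (gam_nonneg _ _ _)))]
    have hv := h1 v
    have hp : ((1 : ℝ) / 400) ^ (rlen v) ≤ 400 ^ 1 * (1 / 400) ^ n := pow400_le hle1
    calc ρ (a, a) * (gam ρ k v * gam ρ l2 [])
        ≤ 1 / 4000 * ((C1 * 4 ^ v.length * (1 / 400) ^ (rlen v)) * C2) := by
          have := hd a
          have := gam_nonneg ρ k v
          have := gam_nonneg ρ l2 []
          gcongr
      _ ≤ 1 / 4000 * ((C1 * 4 ^ v.length * (400 ^ 1 * (1 / 400) ^ n)) * C2) := by gcongr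
      _ = 1 / 40 * (C1 * C2) * N := by
          rw [hN, pow_succ]
          ring
  -- second type
  have e2 : nrm (trip m k l2) (Hf ρ (cB ρ a) (fun _ => v) (fun i => [i.2, a]))
      ≤ 4 / 100 * (C1 * C2) * N := by
    rw [nrm_Hf, sum_cB ρ a (fun i => gam ρ k v * gam ρ l2 [i.2, a])]
    set Y : ℝ := (C1 * 4 ^ v.length * (1 / 400) ^ (rlen v)) * (C2 * 4 ^ 2 * (1 / 400) ^ 2) with hY
    have hY0 : 0 ≤ Y := by positivity
    have hX : ∀ b, b ≠ a → gam ρ k v * gam ρ l2 [b, a] ≤ Y := by
      intro b hb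
      have h3 := h2 [b, a]
      rw [rlen_pair hb] at h3
      have := gam_nonneg ρ l2 [b, a]
      have h4 := h1 v
      simp only [List.length_cons, List.length_nil, zero_add] at h3
      exact mul_le_mul h4 h3 this (by positivity)
    refine (sqrt_sum_generic a θ hθ0 hm none (fun b => ρ (a, b))
      (fun b => gam ρ k v * gam ρ l2 [b, a]) Y Y hY0 hY0 (fun b => hρ0 _)
      (fun b hb => ho a b hb.symm) (fun b => mul_nonneg (gam_nonneg _ _ _) (gam_nonneg _ _ _))
      (fun b hb _ => hX b hb) (fun b hb _ => hX b hb)).trans ?_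
    have hp : ((1 : ℝ) / 400) ^ (rlen v + 1) ≤ (1 / 400) ^ n := pow400_le0 hle1
    have hYN : Y ≤ C1 * C2 * N * (4 / 400) := by
      have : Y = C1 * C2 * (4 * 4 ^ (v.length + 1)) * (1 / 400) * (1 / 400) ^ (rlen v + 1) := by
        rw [hY]
        ring
      rw [this, hN]
      calc C1 * C2 * (4 * 4 ^ (v.length + 1)) * (1 / 400) * (1 / 400) ^ (rlen v + 1)
          ≤ C1 * C2 * (4 * 4 ^ (v.length + 1)) * (1 / 400) * (1 / 400) ^ n := by gcongr
        _ = _ := by ring
    have hCN : 0 ≤ C1 * C2 * N := by positivity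
    have hθ1 : θ * Y ≤ 1 * Y := by
      apply mul_le_mul_of_nonneg_right _ hY0
      refine hθ.trans ?_
      norm_num
    linarith
  -- third type
  have e3 : nrm (trip m k l2) (Hf ρ (cB ρ a) (fun i => a :: i.2 :: v) (fun _ => []))
      ≤ 4 / 100 * (C1 * C2) * N := by
    rw [nrm_Hf, sum_cB ρ a (fun i => gam ρ k (a :: i.2 :: v) * gam ρ l2 [])]
    set Y : ℝ := C1 * C2 * N * (4 / 400) with hY
    set Y' : ℝ := C1 * C2 * N * (4 * 400 ^ 3) with hY'
    have hY0 : 0 ≤ Y := by positivity
    have hY0' : 0 ≤ Y' := by positivity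
    refine (sqrt_sum_generic a θ hθ0 hm (red v).head? (fun b => ρ (a, b))
      (fun b => gam ρ k (a :: b :: v) * gam ρ l2 []) Y Y' hY0 hY0' (fun b => hρ0 _)
      (fun b hb => ho a b hb.symm) (fun b => mul_nonneg (gam_nonneg _ _ _) (gam_nonneg _ _ _))
      ?_ ?_).trans ?_
    · intro b hb hbo
      have h3 := h1 (a :: b :: v)
      have hr := rlen_two_of_ne hb hbo
      have hp : ((1 : ℝ) / 400) ^ (rlen (a :: b :: v)) ≤ 1 / 400 * (1 / 400) ^ n :=
        pow400_le' (by omega)
      simp only [List.length_cons] at h3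
      calc gam ρ k (a :: b :: v) * gam ρ l2 []
          ≤ (C1 * 4 ^ (v.length + 1 + 1) * (1 / 400) ^ (rlen (a :: b :: v))) * C2 := by
            have := gam_nonneg ρ l2 []
            gcongr
        _ ≤ (C1 * 4 ^ (v.length + 1 + 1) * (1 / 400 * (1 / 400) ^ n)) * C2 := by gcongr
        _ = Y := by
            rw [hY, hN, pow_succ _ (v.length + 1)]
            ring
    · intro b hb hbo
      have h3 := h1 (a :: b :: v)
      have hr1 := le_rlen_cons a (b :: v)
      have hr2 := le_rlen_cons b v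
      have hp : ((1 : ℝ) / 400) ^ (rlen (a :: b :: v)) ≤ 400 ^ 3 * (1 / 400) ^ n :=
        pow400_le (by omega)
      simp only [List.length_cons] at h3
      calc gam ρ k (a :: b :: v) * gam ρ l2 []
          ≤ (C1 * 4 ^ (v.length + 1 + 1) * (1 / 400) ^ (rlen (a :: b :: v))) * C2 := by
            have := gam_nonneg ρ l2 []
            gcongr
        _ ≤ (C1 * 4 ^ (v.length + 1 + 1) * (400 ^ 3 * (1 / 400) ^ n)) * C2 := by gcongr
        _ = Y' := by
            rw [hY', hN, pow_succ _ (v.length + 1)]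
            ring
    · have hCN : 0 ≤ C1 * C2 * N := by positivity
      have hθ1 : θ * Y' ≤ 1 / 10 ^ 12 * Y' := mul_le_mul_of_nonneg_right hθ hY0'
      rw [hY'] at hθ1
      rw [hY, hY']
      linarith
  -- fourth type
  have e4 : nrm (trip m k l2) (Hf ρ (cC ρ a) (fun i => i.1 :: v) (fun i => [i.1]))
      ≤ 4 / 100 * (C1 * C2) * N := by
    rw [nrm_Hf, sum_cC ρ a (fun i => gam ρ k (i.1 :: v) * gam ρ l2 [i.1])]
    set Y : ℝ := C1 * C2 * N * (4 / 400) with hY
    set Y' : ℝ := C1 * C2 * N * (4 * 400) with hY'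
    have hY0 : 0 ≤ Y := by positivity
    have hY0' : 0 ≤ Y' := by positivity
    have hb1 : ∀ b, gam ρ l2 [b] ≤ C2 * 4 * (1 / 400) := by
      intro b
      have h3 := h2 [b]
      rw [rlen_single] at h3
      simpa using h3
    refine (sqrt_sum_generic a θ hθ0 hm (red v).head? (fun b => ρ (b, a))
      (fun b => gam ρ k (b :: v) * gam ρ l2 [b]) Y Y' hY0 hY0' (fun b => hρ0 _)
      (fun b hb => ho b a hb) (fun b => mul_nonneg (gam_nonneg _ _ _) (gam_nonneg _ _ _))
      ?_ ?_).trans ?_
    · intro b hb hbo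
      have h3 := h1 (b :: v)
      have hr := rlen_cons_of_ne hbo
      have hp : ((1 : ℝ) / 400) ^ (rlen (b :: v)) ≤ (1 / 400) ^ n :=
        pow400_le0 (by omega)
      simp only [List.length_cons] at h3
      calc gam ρ k (b :: v) * gam ρ l2 [b]
          ≤ (C1 * 4 ^ (v.length + 1) * (1 / 400) ^ (rlen (b :: v))) * (C2 * 4 * (1 / 400)) := by
            have := gam_nonneg ρ l2 [b]
            have := hb1 b
            gcongr
        _ ≤ (C1 * 4 ^ (v.length + 1) * (1 / 400) ^ n) * (C2 * 4 * (1 / 400)) := by gcongr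
        _ = Y := by
            rw [hY, hN]
            ring
    · intro b hb hbo
      have h3 := h1 (b :: v)
      have hr2 := le_rlen_cons b v
      have hp : ((1 : ℝ) / 400) ^ (rlen (b :: v)) ≤ 400 ^ 2 * (1 / 400) ^ n :=
        pow400_le (by omega)
      simp only [List.length_cons] at h3
      calc gam ρ k (b :: v) * gam ρ l2 [b]
          ≤ (C1 * 4 ^ (v.length + 1) * (1 / 400) ^ (rlen (b :: v))) * (C2 * 4 * (1 / 400)) := by
            have := gam_nonneg ρ l2 [b]
            have := hb1 b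
            gcongr
        _ ≤ (C1 * 4 ^ (v.length + 1) * (400 ^ 2 * (1 / 400) ^ n)) * (C2 * 4 * (1 / 400)) := by
            gcongr
        _ = Y' := by
            rw [hY', hN]
            ring
    · have hCN : 0 ≤ C1 * C2 * N := by positivity
      have hθ1 : θ * Y' ≤ 1 / 10 ^ 12 * Y' := mul_le_mul_of_nonneg_right hθ hY0'
      rw [hY'] at hθ1
      rw [hY, hY']
      linarith
  have hCN : 0 ≤ C1 * C2 * N := by positivity
  calc nrm (trip m k l2) (Psi ρ a v) ≤ 1 / 40 * (C1 * C2) * N + 4 / 100 * (C1 * C2) * N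
        + 4 / 100 * (C1 * C2) * N + 4 / 100 * (C1 * C2) * N := by
          refine hpsi.trans ?_
          gcongr
    _ ≤ 7 / 32 * (C1 * C2) * N := by nlinarith

/-- the first part of the recursion -/
theorem first_part_le (ρ : Idx m → ℝ) (a : Fin m) (v : List (Fin m)) (l : ℕ) (C : ℝ) (hC : 0 ≤ C)
    (h : ∀ u : List (Fin m), u.length ≤ v.length →
      gam ρ l u ≤ C * 4 ^ u.length * (1 / 400) ^ (rlen u)) :
    (∑ k : Fin v.length, |if v.get k = a then semi (v.take k) else 0| * gam ρ l (v.drop (k + 1)))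
      ≤ (1 / 8) * C * (4 ^ (v.length + 1) * (1 / 400) ^ (rlen (a :: v))) := by
  set N : ℝ := 4 ^ (v.length + 1) * (1 / 400) ^ (rlen (a :: v)) with hN
  have hN0 : 0 ≤ N := by positivity
  have hterm : ∀ k : Fin v.length,
      |if v.get k = a then semi (v.take k) else 0| * gam ρ l (v.drop (k + 1))
        ≤ (1 / 16) * C * N * (1 / 2) ^ (k : ℕ) := by
    intro k
    have hrhs : 0 ≤ (1 / 16) * C * N * (1 / 2) ^ (k : ℕ) := by positivity
    split_ifs with hk
    swap
    · rw [abs_zero, zero_mul]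
      exact hrhs
    by_cases hs : semi (v.take k) = 0
    · rw [hs, abs_zero, zero_mul]
      exact hrhs
    have hkl : (k : ℕ) < v.length := k.2
    have hv : v = v.take k ++ a :: v.drop (k + 1) := by
      rw [← hk, List.get_eq_getElem, ← List.drop_eq_getElem_cons hkl, List.take_append_drop]
    have hred : red (a :: v) = red (v.drop (k + 1)) := by
      calc red (a :: v) = pushL a (red (v.take k ++ a :: v.drop (k + 1))) := by
            rw [red_cons, ← hv]
        _ = pushL a (pushL a (red (v.drop (k + 1)))) := by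
            rw [red_append_of_semi _ hs, red_cons]
        _ = _ := pushL_pushL a _ (red_chain _)
    have hrl : rlen (v.drop (k + 1)) = rlen (a :: v) := by
      unfold rlen
      rw [hred]
    have h1 := h (v.drop (k + 1)) (by simp)
    rw [hrl] at h1
    have h2 : |semi (v.take k)| ≤ 2 ^ (k : ℕ) := by
      rw [abs_of_nonneg (semi_nonneg _)]
      refine (semi_le_two_pow _).trans (le_of_eq ?_)
      rw [List.length_take, min_eq_left hkl.le]
    have h3 : (4 : ℝ) ^ (v.drop (k + 1)).length * (16 * 4 ^ (k : ℕ)) = 4 ^ (v.length + 1) := by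
      rw [List.length_drop]
      have : (16 : ℝ) * 4 ^ (k : ℕ) = 4 ^ ((k : ℕ) + 2) := by rw [pow_add]; ring
      rw [this, ← pow_add]
      congr 1
      omega
    have h4 : (2 : ℝ) ^ (k : ℕ) * (1 / 2) ^ (k : ℕ) = 1 := by
      rw [← mul_pow]
      norm_num
    have h5 : (4 : ℝ) ^ (k : ℕ) = 2 ^ (k : ℕ) * 2 ^ (k : ℕ) := by
      rw [← mul_pow]
      norm_num
    have h6 : (4 : ℝ) ^ (v.drop (k + 1)).length =
        (1 / 16) * 4 ^ (v.length + 1) * ((1 / 2) ^ (k : ℕ) * (1 / 2) ^ (k : ℕ)) := by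
      rw [← h3, h5]
      calc (4 : ℝ) ^ (v.drop (k + 1)).length
          = 4 ^ (v.drop (k + 1)).length * ((2 ^ (k : ℕ) * (1 / 2) ^ (k : ℕ)) *
              (2 ^ (k : ℕ) * (1 / 2) ^ (k : ℕ))) := by rw [h4]; ring
        _ = _ := by ring
    calc |semi (v.take k)| * gam ρ l (v.drop (k + 1))
        ≤ 2 ^ (k : ℕ) * (C * 4 ^ (v.drop (k + 1)).length * (1 / 400) ^ (rlen (a :: v))) := by
          have := gam_nonneg ρ l (v.drop (k + 1))
          gcongr
      _ = (2 ^ (k : ℕ) * (1 / 2) ^ (k : ℕ)) * ((1 / 16) * C * N * (1 / 2) ^ (k : ℕ)) := by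
          rw [h6, hN]
          ring
      _ = _ := by rw [h4, one_mul]
  refine (Finset.sum_le_sum fun k _ => hterm k).trans ?_
  rw [← Finset.mul_sum]
  have hgeo : ∑ k : Fin v.length, (1 / 2 : ℝ) ^ (k : ℕ) ≤ 2 := by
    rw [← Finset.sum_range (fun k => (1 / 2 : ℝ) ^ k)]
    exact sum_geometric_two_le _
  calc (1 / 16) * C * N * ∑ k : Fin v.length, (1 / 2 : ℝ) ^ (k : ℕ) ≤ (1 / 16) * C * N * 2 := by
        gcongr
    _ = 1 / 8 * C * N := by ring

/-- the constants -/
noncomputable def catc (l : ℕ) : ℝ := (catalan l : ℝ) / 4 ^ l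

theorem catc_zero : catc 0 = 1 := by simp [catc]

theorem catc_nonneg (l : ℕ) : 0 ≤ catc l := by
  unfold catc
  positivity

theorem catc_succ (l : ℕ) :
    catc (l + 1) = (1 / 4) * ∑ k ∈ Finset.range (l + 1), catc k * catc (l - k) := by
  unfold catc
  rw [catalan_succ, Finset.sum_range, Finset.mul_sum]
  push_cast
  rw [Finset.sum_div]
  refine Finset.sum_congr rfl fun i _ => ?_
  have hi : (i : ℕ) ≤ l := Nat.lt_succ_iff.mp i.2
  have h1 : (4 : ℝ) ^ (l + 1) = 4 * (4 ^ (i : ℕ) * 4 ^ (l - i)) := by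
    rw [← pow_add, Nat.add_sub_cancel' hi, pow_succ]
    ring
  rw [h1]
  field_simp

theorem sum_catc_le (D : ℕ) : ∑ l ∈ Finset.range (D + 1), catc l ≤ 2 := by
  induction D with
  | zero => simp [catc_zero]
  | succ D ih =>
    rw [Finset.sum_range_succ']
    rw [catc_zero]
    set S := ∑ l ∈ Finset.range (D + 1), catc l with hS
    have hS0 : 0 ≤ S := Finset.sum_nonneg fun _ _ => catc_nonneg _
    have h1 : ∑ l ∈ Finset.range (D + 1), catc (l + 1) ≤ (1 / 4) * (S * S) := by
      rw [Finset.sum_congr rfl fun l _ => catc_succ l, ← Finset.mul_sum]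
      refine mul_le_mul_of_nonneg_left ?_ (by norm_num)
      rw [Finset.sum_range_diag_flip (D + 1) (fun k j => catc k * catc j), hS, Finset.sum_mul_sum]
      refine Finset.sum_le_sum fun k _ => ?_
      refine Finset.sum_le_sum_of_subset_of_nonneg ?_ fun j _ _ =>
        mul_nonneg (catc_nonneg k) (catc_nonneg j)
      intro j hj
      rw [Finset.mem_range] at hj ⊢
      omega
    nlinarith

theorem gam_le_catc (ρ : Idx m → ℝ) (θ : ℝ) (hρ0 : ∀ i, 0 ≤ ρ i) (hd : ∀ a, ρ (a, a) ≤ 1 / 4000)
    (ho : ∀ a b, a ≠ b → ρ (a, b) ≤ θ) (hθ0 : 0 ≤ θ) (hθ : θ ≤ 1 / 10 ^ 12)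
    (hm : ((m : ℝ) - 1) * θ ^ 2 ≤ 8) (l : ℕ) :
    ∀ v, gam ρ l v ≤ catc l * 4 ^ v.length * (1 / 400) ^ (rlen v) := by
  induction l using Nat.strong_induction_on with
  | _ l ihl =>
    intro v
    induction hn : v.length using Nat.strong_induction_on generalizing v with
    | _ n ihv =>
      cases v with
      | nil =>
        rw [gam_nil]
        simp only [List.length_nil] at hn
        subst hn
        rw [rlen_nil, pow_zero, pow_zero, mul_one, mul_one]
        split_ifs with h
        · rw [h, catc_zero]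
        · exact catc_nonneg l
      | cons a v =>
        simp only [List.length_cons] at hn
        subst hn
        set N : ℝ := 4 ^ (v.length + 1) * (1 / 400) ^ (rlen (a :: v)) with hN
        have hN0 : 0 ≤ N := by positivity
        have h1 := first_part_le ρ a v l (catc l) (catc_nonneg l)
          (fun u hu => ihv u.length (by omega) u rfl)
        have h2 : ∑ k ∈ Finset.range l, nrm (trip m k (l - 1 - k)) (Psi ρ a v) ≤
            (7 / 8) * catc l * N := by
          have h3 : ∀ k ∈ Finset.range l, nrm (trip m k (l - 1 - k)) (Psi ρ a v) ≤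
              (7 / 32) * (catc k * catc (l - 1 - k)) * N := by
            intro k hk
            have hkl := Finset.mem_range.mp hk
            exact nrm_Psi_le ρ θ hρ0 hd ho hθ0 hθ hm a v k (l - 1 - k) _ _ (catc_nonneg _)
              (catc_nonneg _) (ihl k hkl) (ihl (l - 1 - k) (by omega))
          refine (Finset.sum_le_sum h3).trans ?_
          rw [← Finset.sum_mul, ← Finset.mul_sum]
          refine mul_le_mul_of_nonneg_right ?_ hN0
          cases l with
          | zero => simp [catc_zero]; norm_num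
          | succ l =>
            rw [catc_succ l, Nat.add_sub_cancel]
            linarith
        calc gam ρ l (a :: v) ≤ _ := gam_cons_le ρ a v l
          _ ≤ (1 / 8) * catc l * N + (7 / 8) * catc l * N := add_le_add h1 h2
          _ = catc l * 4 ^ (v.length + 1) * (1 / 400) ^ (rlen (a :: v)) := by
              rw [hN]
              ring

/-- the only consequence used later -/
theorem sum_gc_sq_le (ρ : Idx m → ℝ) (θ : ℝ) (hρ0 : ∀ i, 0 ≤ ρ i) (hd : ∀ a, ρ (a, a) ≤ 1 / 4000)
    (ho : ∀ a b, a ≠ b → ρ (a, b) ≤ θ) (hθ0 : 0 ≤ θ) (hθ : θ ≤ 1 / 10 ^ 12)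
    (hm : ((m : ℝ) - 1) * θ ^ 2 ≤ 8) (a b : Fin m) (hab : a ≠ b) (D : ℕ) :
    ∑ l ∈ Finset.range (D + 1), ∑ w ∈ wl (Idx m) l, gc ρ [a, b, a] w ^ 2 ≤ 1 / 100 := by
  have h1 : ∀ l ∈ Finset.range (D + 1), ∑ w ∈ wl (Idx m) l, gc ρ [a, b, a] w ^ 2 ≤
      2 * catc l * (1 / 400) := by
    intro l hl
    have h2 : ∑ w ∈ wl (Idx m) l, gc ρ [a, b, a] w ^ 2 = gam ρ l [a, b, a] ^ 2 := (nrm_sq _ _).symm
    have h3 := gam_le_catc ρ θ hρ0 hd ho hθ0 hθ hm l [a, b, a]
    rw [rlen_triple hab] at h3
    have h4 : catc l ≤ 2 :=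
      (Finset.single_le_sum (fun i _ => catc_nonneg i) hl).trans (sum_catc_le D)
    have h5 : gam ρ l [a, b, a] ≤ catc l * (1 / 1000) := by
      refine h3.trans ?_
      have : (0 : ℝ) ≤ catc l := catc_nonneg l
      simp only [List.length_cons, List.length_nil, zero_add]
      nlinarith
    rw [h2]
    have h0 := gam_nonneg ρ l [a, b, a]
    have hc := catc_nonneg l
    calc gam ρ l [a, b, a] ^ 2 ≤ (catc l * (1 / 1000)) ^ 2 := pow_le_pow_left₀ h0 h5 2
      _ ≤ 2 * catc l * (1 / 400) := by nlinarith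
  refine (Finset.sum_le_sum h1).trans ?_
  rw [← Finset.sum_mul, ← Finset.mul_sum]
  have := sum_catc_le D
  linarith

end Vale.Agent.P087
end
end

section

section

/-! Core C2, C6: from vectors on the Fock space to the Fisher information. -/

open scoped InnerProductSpace ENNReal NNReal

namespace Vale.Agent.P087

variable {m : ℕ}


theorem adjoint_Aop (v : List (Fin m)) :
    star (Aop v) = Aop v.reverse := by
  induction v with
  | nil => simp [Aop]
  | cons a v ih =>
    have h1 : Aop (a :: v) = semL (Sum.inl a) * Aop v := by simp [Aop]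
    have h2 : Aop (a :: v).reverse = Aop v.reverse * semL (Sum.inl a) := by
      simp [Aop]
    rw [h1, h2, star_mul, ih, (isSelfAdjoint_semL (Sum.inl a : Letter m)).star_eq]

theorem star_XQ (c s : Idx m → ℝ) (Q : List (Idx m)) : star (XQ c s Q) = XQ c s Q.reverse := by
  induction Q with
  | nil => simp [XQ]
  | cons i Q ih =>
    have h1 : XQ c s (i :: Q) = Xop c s i * XQ c s Q := by simp [XQ]
    have h2 : XQ c s (i :: Q).reverse = XQ c s Q.reverse * Xop c s i := by simp [XQ]
    rw [h1, h2, star_mul, ih, (isSelfAdjoint_Xop c s i).star_eq]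

theorem XQ_append (c s : Idx m → ℝ) (P Q : List (Idx m)) :
    XQ c s (P ++ Q) = XQ c s P * XQ c s Q := by
  simp [XQ]

theorem inner_XQ_XQ (c s : Idx m → ℝ) (P Q : List (Idx m)) :
    ⟪XQ c s P (bas []), XQ c s Q (bas [])⟫_ℂ = phi c s [] (P.reverse ++ Q) := by
  have h := ContinuousLinearMap.adjoint_inner_right (XQ c s P) (bas []) (XQ c s Q (bas []))
  rw [← h, ← ContinuousLinearMap.star_eq_adjoint, star_XQ, phi, XQ_append]
  simp [Aop]

theorem conjNormSq_le_of_vec (c s : Idx m → ℝ) (j : Idx m) (K : ℝ≥0)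
    (h : ∀ D : ℕ, ∃ η : Fock (Letter m),
      (∀ Q : List (Idx m), Q.length ≤ D → ⟪η, XQ c s Q (bas [])⟫_ℂ
        = ∑ k : Fin Q.length, if Q.get k = j then
            phi c s [] (Q.take k) * phi c s [] (Q.drop (k + 1)) else 0) ∧
      ‖η‖ ^ 2 ≤ K) :
    conjNormSq (fun w => ((expMom c s [] w : ℝ) : ℂ)) j ≤ (K : ℝ≥0∞) := by
  unfold conjNormSq
  refine iInf₂_le_of_le K ?_ le_rfl
  intro p
  obtain ⟨η, hη, hn⟩ := h (p.support.sup List.length)
  set V : Fock (Letter m) := p.sum fun w a => a • XQ c s w (bas []) with hV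
  have h1 : dq (fun w => ((expMom c s [] w : ℝ) : ℂ)) j p = ⟪η, V⟫_ℂ := by
    rw [hV, dq, Finsupp.sum, Finsupp.sum, inner_sum]
    refine Finset.sum_congr rfl fun w hw => ?_
    rw [inner_smul_right, hη w (Finset.le_sup (f := List.length) hw), dqWord]
    congr 1
    refine Finset.sum_congr rfl fun k _ => ?_
    simp only [phi_nil]
  have h2 : normSq (fun w => ((expMom c s [] w : ℝ) : ℂ)) p = ‖V‖ ^ 2 := by
    have h3 : (p.sum fun v a => p.sum fun w b =>
        (starRingEnd ℂ) a * b * ((expMom c s [] (v.reverse ++ w) : ℝ) : ℂ)) = ⟪V, V⟫_ℂ := by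
      rw [hV, Finsupp.sum, Finsupp.sum, sum_inner]
      refine Finset.sum_congr rfl fun v _ => ?_
      rw [inner_smul_left, inner_sum, Finsupp.sum, Finset.mul_sum]
      refine Finset.sum_congr rfl fun w _ => ?_
      rw [inner_smul_right, inner_XQ_XQ, phi_nil]
      ring
    rw [normSq, h3, inner_self_eq_norm_sq_to_K]
    norm_cast
  rw [h1, h2]
  calc ‖⟪η, V⟫_ℂ‖ ^ 2 ≤ (‖η‖ * ‖V‖) ^ 2 := by
        gcongr
        exact norm_inner_le_norm _ _
    _ = ‖η‖ ^ 2 * ‖V‖ ^ 2 := by ring
    _ ≤ K * ‖V‖ ^ 2 := by gcongr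

theorem phi_nil_left (c s : Idx m → ℝ) (Q : List (Idx m)) :
    phi c s [] Q = ⟪bas [], XQ c s Q (bas [])⟫_ℂ := by
  simp [phi, Aop]

/-- `⟨A_v Ω, X_Q Ω⟩ = φ(rev v, Q)` -/
theorem inner_Aop (c s : Idx m → ℝ) (v : List (Fin m)) (Q : List (Idx m)) :
    ⟪Aop v (bas []), XQ c s Q (bas [])⟫_ℂ = phi c s v.reverse Q := by
  have h := ContinuousLinearMap.adjoint_inner_right (Aop v) (bas []) (XQ c s Q (bas []))
  rw [← h, ← ContinuousLinearMap.star_eq_adjoint, adjoint_Aop, phi]

theorem Aop_one (a : Fin m) : Aop [a] (bas []) = bas [Sum.inl a] := by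
  simp [Aop]

theorem Aop_two (a b : Fin m) (hab : a ≠ b) :
    Aop [a, b] (bas []) = bas [Sum.inl a, Sum.inl b] := by
  simp [Aop, mul_apply_eq_comp, semL_cons, hab]

theorem Aop_three (a b : Fin m) (hab : a ≠ b) :
    Aop [a, b, a] (bas []) = bas [Sum.inl a, Sum.inl b, Sum.inl a] := by
  simp [Aop, mul_apply_eq_comp, semL_cons, hab, hab.symm]

theorem vec_offdiag_trivial (c s : Idx m → ℝ) (j : Idx m) (hs : s j ≠ 0) (Q : List (Idx m)) :
    ⟪((s j)⁻¹ : ℂ) • (bas [Sum.inr j] : Fock (Letter m)), XQ c s Q (bas [])⟫_ℂ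
        = ∑ k : Fin Q.length, if Q.get k = j then
            phi c s [] (Q.take k) * phi c s [] (Q.drop (k + 1)) else 0 := by
  have h := inner_split c s [] [] j Q
  rw [List.nil_append] at h
  rw [inner_smul_left, h]
  simp only [phi_nil_left]
  have hs' : (s j : ℂ) ≠ 0 := by exact_mod_cast hs
  rw [← mul_assoc]
  simp [hs']

/-- inner products of combinations of basis vectors with disjoint families of words -/
theorem inner_sum_bas_eq_zero {J κ κ' : Type} [DecidableEq J] (S : Finset κ) (S' : Finset κ')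
    (r : κ → ℂ) (r' : κ' → ℂ) (W : κ → List J) (W' : κ' → List J)
    (h : ∀ i ∈ S, ∀ j ∈ S', W i ≠ W' j) :
    ⟪∑ i ∈ S, r i • (bas (W i) : Fock J), ∑ j ∈ S', r' j • (bas (W' j) : Fock J)⟫_ℂ = 0 := by
  rw [sum_inner]
  refine Finset.sum_eq_zero fun i hi => ?_
  rw [inner_sum]
  refine Finset.sum_eq_zero fun j hj => ?_
  rw [inner_smul_left, inner_smul_right, inner_bas, if_neg (h i hi j hj)]
  simp

theorem norm_sq_sum_bas {J κ : Type} [DecidableEq J] (S : Finset κ)
    (r : κ → ℝ) (W : κ → List J) (hW : Function.Injective W) :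
    ‖∑ i ∈ S, (r i : ℂ) • (bas (W i) : Fock J)‖ ^ 2 = ∑ i ∈ S, r i ^ 2 := by
  have h1 := ((orthonormal_bas (J := J)).comp W hW).inner_sum (fun i => (r i : ℂ))
    (fun i => (r i : ℂ)) S
  simp only [Function.comp] at h1
  rw [inner_self_eq_norm_sq_to_K] at h1
  have h3 : ∑ i ∈ S, (starRingEnd ℂ) (r i : ℂ) * (r i : ℂ) = ((∑ i ∈ S, r i ^ 2 : ℝ) : ℂ) := by
    push_cast
    refine Finset.sum_congr rfl fun i _ => ?_
    rw [Complex.conj_ofReal]; ring
  rw [h3] at h1
  have h2 : ((‖∑ i ∈ S, (r i : ℂ) • (bas (W i) : Fock J)‖ ^ 2 : ℝ) : ℂ)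
      = ((∑ i ∈ S, r i ^ 2 : ℝ) : ℂ) := by
    rw [← h1]
    simp
  exact Complex.ofReal_injective h2


theorem gc_nil_right (ρ : Idx m → ℝ) (v : List (Fin m)) : gc ρ v [] = semi v := by
  induction hn : v.length using Nat.strong_induction_on generalizing v with
  | _ n ih =>
    cases v with
    | nil => rw [gc, semi]; simp
    | cons a v =>
      rw [gc, semi]
      have h0 : (∑ k : Fin ([] : List (Idx m)).length, ρ (([] : List (Idx m)).get k) *
          ∑ p : Fin (yw (([] : List (Idx m)).get k)).length,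
          if (yw (([] : List (Idx m)).get k)).get p = a then
            gc ρ ((yw (([] : List (Idx m)).get k)).take p ++ v) (([] : List (Idx m)).take k) *
              gc ρ ((yw (([] : List (Idx m)).get k)).drop (p + 1)) (([] : List (Idx m)).drop (k + 1))
          else 0) = 0 := by
        apply Finset.sum_eq_zero
        intro k
        exact k.elim0
      rw [h0, add_zero]
      refine Finset.sum_congr rfl fun k _ => ?_
      split_ifs with h
      · rw [ih (v.drop (k + 1)).length _ _ rfl]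
        rw [← hn]
        simp only [List.length_drop, List.length_cons]
        omega
      · rfl


theorem sum_fin_len_one {α E : Type*} [AddCommMonoid E] (x : α) (F : Fin [x].length → E) :
    ∑ k, F k = F ⟨0, by simp⟩ := by
  rw [show (∑ k, F k) = ∑ k : Fin 1, F k from rfl, Fin.sum_univ_one]; rfl

theorem sum_fin_len_three {α E : Type*} [AddCommMonoid E] (x y z : α)
    (F : Fin [x, y, z].length → E) :
    ∑ k, F k = F ⟨0, by simp⟩ + F ⟨1, by simp⟩ + F ⟨2, by simp⟩ := by
  rw [show (∑ k, F k) = ∑ k : Fin 3, F k from rfl, Fin.sum_univ_three]; rfl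

theorem sum_fin_len_two {α E : Type*} [AddCommMonoid E] (x y : α)
    (F : Fin [x, y].length → E) :
    ∑ k, F k = F ⟨0, by simp⟩ + F ⟨1, by simp⟩ := by
  rw [show (∑ k, F k) = ∑ k : Fin 2, F k from rfl, Fin.sum_univ_two]; rfl

theorem sum_yw_offdiag {E : Type*} [AddCommMonoid E] (a b : Fin m) (hab : a ≠ b)
    (F : Fin m → List (Fin m) → List (Fin m) → E) :
    ∑ p : Fin (yw (a, b)).length, F ((yw (a, b)).get p) ((yw (a, b)).take p)
        ((yw (a, b)).drop (p + 1))
      = F a [] [b, a] + F b [a] [a] + F a [a, b] [] := by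
  have hy : yw (a, b) = [a, b, a] := by simp [yw, hab]
  generalize yw (a, b) = y at hy
  subst hy
  rw [sum_fin_len_three]
  simp

theorem sum_yw_diag {E : Type*} [AddCommMonoid E] (a : Fin m)
    (F : Fin m → List (Fin m) → List (Fin m) → E) :
    ∑ p : Fin (yw (a, a)).length, F ((yw (a, a)).get p) ((yw (a, a)).take p)
        ((yw (a, a)).drop (p + 1))
      = F a [] [] := by
  have hy : yw (a, a) = [a] := by simp [yw]
  generalize yw (a, a) = y at hy
  subst hy
  rw [sum_fin_len_one]
  simp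

theorem gc_aba (ρ : Idx m → ℝ) (a b : Fin m) (hab : a ≠ b) :
    gc ρ [a, b, a] [(a, b)] = ρ (a, b) := by
  have hba : b ≠ a := hab.symm
  have e1 : semi [b] = 0 := by rw [semi]; simp
  have e2 : semi [b, a] = 0 := by rw [semi, sum_fin_len_one]; simp [hab]
  have e4 : semi [b, b] = 1 := by rw [semi, sum_fin_len_one]; simp [semi]
  have e3 : semi [a, b, b, a] = 1 := by
    rw [semi, sum_fin_len_three]; simp [hba, semi, e4]
  have e5 : semi ([] : List (Fin m)) = 1 := by rw [semi]
  have hs := sum_yw_offdiag a b hab (fun z u u' => if z = a then gc ρ (u ++ [b, a]) [] * gc ρ u' [] else 0)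
  rw [gc, sum_fin_len_two, sum_fin_len_one]
  simp only [List.get_eq_getElem] at hs
  simp only [List.get_eq_getElem, List.getElem_cons_zero, List.take_zero, List.drop_succ_cons,
    List.drop_zero]
  rw [hs]
  simp [hba, e1, e2, e3, e5, gc_nil_right]


/-- words of length `≤ D` -/
def wle (m D : ℕ) : Finset (List (Idx m)) := (Finset.range (D + 1)).biUnion (wl (Idx m))

theorem sum_wle {E : Type*} [AddCommMonoid E] (D : ℕ) (F : List (Idx m) → E) :
    ∑ w ∈ wle m D, F w = ∑ l ∈ Finset.range (D + 1), ∑ w ∈ wl (Idx m) l, F w := by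
  unfold wle
  rw [Finset.sum_biUnion]
  intro l _ l' _ hll
  rw [Function.onFun, Finset.disjoint_left]
  intro w hw hw'
  rw [mem_wl] at hw hw'
  exact hll (hw.symm.trans hw')

theorem mem_wle {D : ℕ} {w : List (Idx m)} : w ∈ wle m D ↔ w.length ≤ D := by
  unfold wle
  simp only [Finset.mem_biUnion, Finset.mem_range, mem_wl]
  constructor
  · rintro ⟨l, hl, rfl⟩; omega
  · intro h; exact ⟨w.length, by omega, rfl⟩

/-- the truncated vector representing `φ(v, ·)` -/
noncomputable def Gvec (ρ : Idx m → ℝ) (v : List (Fin m)) (D : ℕ) : Fock (Letter m) :=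
  ∑ w ∈ wle m D, (gc ρ v w : ℂ) • bas (w.map Sum.inr)

theorem inner_Gvec (c s : Idx m → ℝ) (hs : ∀ i, s i ≠ 0) (v : List (Fin m)) (Q : List (Idx m))
    (D : ℕ) (hD : Q.length ≤ D) :
    ⟪Gvec (fun i => c i / s i) v D, XQ c s Q (bas [])⟫_ℂ = phi c s v Q := by
  rw [phi_eq_sum c s hs v Q D hD, Gvec, sum_inner, sum_wle]
  refine Finset.sum_congr rfl fun l _ => Finset.sum_congr rfl fun w _ => ?_
  rw [inner_smul_left, Complex.conj_ofReal, Bf]

theorem map_inr_injective :
    Function.Injective (List.map (Sum.inr : Idx m → Letter m)) :=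
  List.map_injective_iff.mpr Sum.inr_injective

theorem norm_Gvec_sq (ρ : Idx m → ℝ) (v : List (Fin m)) (D : ℕ) :
    ‖Gvec ρ v D‖ ^ 2 = ∑ l ∈ Finset.range (D + 1), ∑ w ∈ wl (Idx m) l, gc ρ v w ^ 2 := by
  rw [Gvec, norm_sq_sum_bas _ _ _ map_inr_injective, sum_wle]

theorem inner_bas_Gvec (ρ : Idx m → ℝ) (v : List (Fin m)) (D : ℕ) (j : Idx m) (hD : 1 ≤ D) :
    ⟪bas [Sum.inr j], Gvec ρ v D⟫_ℂ = (gc ρ v [j] : ℂ) := by
  rw [Gvec, inner_sum, Finset.sum_eq_single [j]]
  · rw [inner_smul_right, List.map_cons, List.map_nil, inner_bas, if_pos rfl, mul_one]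
  · intro w _ hw
    rw [inner_smul_right, inner_bas, if_neg, mul_zero]
    intro h
    apply hw
    apply map_inr_injective
    rw [← h]; rfl
  · intro h
    exact absurd (mem_wle.mpr (by simpa using hD)) h

theorem inner_bas_Gvec_inl (ρ : Idx m → ℝ) (v : List (Fin m)) (D : ℕ) (a : Fin m)
    (u : List (Letter m)) :
    ⟪bas (Sum.inl a :: u), Gvec ρ v D⟫_ℂ = 0 := by
  rw [Gvec, inner_sum]
  refine Finset.sum_eq_zero fun w _ => ?_
  rw [inner_smul_right, inner_bas, if_neg, mul_zero]
  intro h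
  cases w with
  | nil => simp at h
  | cons x w => simp at h

theorem vec_offdiag (c s : Idx m → ℝ) (hs : ∀ i, s i ≠ 0) (a b : Fin m) (hab : a ≠ b)
    (K : ℝ) (hK : ∀ D, ∑ l ∈ Finset.range (D + 1), ∑ w ∈ wl (Idx m) l,
        gc (fun i => c i / s i) [a, b, a] w ^ 2 ≤ K) (D : ℕ) :
    ∃ η : Fock (Letter m),
      (∀ Q : List (Idx m), Q.length ≤ D → ⟪η, XQ c s Q (bas [])⟫_ℂ
        = ∑ k : Fin Q.length, if Q.get k = (a, b) then
            phi c s [] (Q.take k) * phi c s [] (Q.drop (k + 1)) else 0) ∧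
      ‖η‖ ^ 2 ≤ (s (a, b) ^ 2 - c (a, b) ^ 2 * (1 - K)) / (s (a, b) ^ 2) ^ 2 := by
  set j : Idx m := (a, b) with hj
  set G : Fock (Letter m) := Gvec (fun i => c i / s i) [a, b, a] (D + 1) with hG
  set U : Fock (Letter m) := (c j : ℂ) • bas [Sum.inl a, Sum.inl b, Sum.inl a]
    + (s j : ℂ) • bas [Sum.inr j] with hU
  have hsj : s j ≠ 0 := hs j
  have hsc : (s j : ℂ) ≠ 0 := by exact_mod_cast hsj
  refine ⟨(((s j ^ 2)⁻¹ : ℝ) : ℂ) • (U - (c j : ℂ) • G), ?_, ?_⟩
  · intro Q hQ
    have h1 : ⟪bas [Sum.inl a, Sum.inl b, Sum.inl a], XQ c s Q (bas [])⟫_ℂ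
        = phi c s [a, b, a] Q := by
      rw [← Aop_three a b hab, inner_Aop]
      rfl
    have h2 := inner_split c s [] [] j Q
    rw [List.nil_append] at h2
    rw [inner_smul_left, inner_sub_left, hU, inner_add_left, inner_smul_left, inner_smul_left,
      inner_smul_left, hG, inner_Gvec c s hs [a, b, a] Q (D + 1) (by omega), h1, h2]
    simp only [phi_nil_left, Complex.conj_ofReal]
    push_cast
    field_simp
    ring
  · have e1 : ⟪bas [Sum.inl a, Sum.inl b, Sum.inl a], (bas [Sum.inr j] : Fock (Letter m))⟫_ℂ = 0 := by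
      rw [inner_bas, if_neg (by simp)]
    have hUn : ‖U‖ ^ 2 = c j ^ 2 + s j ^ 2 := by
      rw [hU, @norm_add_sq ℂ, inner_smul_left, inner_smul_right, e1, norm_smul, norm_smul,
        norm_bas, norm_bas]
      simp
    have hUG : ⟪U, G⟫_ℂ = (c j : ℂ) := by
      rw [hU, inner_add_left, inner_smul_left, inner_smul_left, hG, inner_bas_Gvec_inl,
        inner_bas_Gvec _ _ _ _ (by omega), gc_aba _ a b hab]
      simp only [mul_zero, zero_add, Complex.conj_ofReal]
      push_cast
      rw [← hj]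
      field_simp
    have hGn : ‖G‖ ^ 2 ≤ K := by
      rw [hG, norm_Gvec_sq]
      exact hK (D + 1)
    have hn : ‖U - (c j : ℂ) • G‖ ^ 2 = c j ^ 2 + s j ^ 2 - 2 * c j ^ 2 + c j ^ 2 * ‖G‖ ^ 2 := by
      rw [@norm_sub_sq ℂ, inner_smul_right, hUG, norm_smul, hUn]
      have : RCLike.re ((c j : ℂ) * (c j : ℂ)) = c j ^ 2 := by
        rw [← Complex.ofReal_mul]
        simp [sq]
      rw [this, mul_pow]
      simp
    rw [norm_smul, mul_pow, hn]
    have hs2 : 0 < s j ^ 2 := by positivity
    rw [Complex.norm_real, Real.norm_eq_abs, sq_abs]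
    rw [inv_pow, inv_mul_eq_div]
    gcongr
    nlinarith [mul_le_mul_of_nonneg_left hGn (sq_nonneg (c j))]

theorem diag_key (i : Idx m) (a : Fin m) (P1 P2 : List (Fin m) → ℂ) :
    (∑ p : Fin (yw i).length, if (yw i).get p = a then
        P1 ((yw i).take p) * P2 ((yw i).drop (p + 1)) else 0)
      = (if i = (a, a) then P1 [] * P2 [] else 0)
        + ∑ b ∈ Finset.univ.filter (fun b => b ≠ a),
          ((if i = (a, b) then P1 [] * P2 [b, a] else 0)
            + (if i = (a, b) then P1 [a, b] * P2 [] else 0)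
            + (if i = (b, a) then P1 [b] * P2 [b] else 0)) := by
  obtain ⟨x, y⟩ := i
  by_cases hxy : x = y
  · subst hxy
    have h := sum_yw_diag x (fun z u u' => if z = a then P1 u * P2 u' else 0)
    rw [h]
    have h0 : ∑ b ∈ Finset.univ.filter (fun b => b ≠ a),
          ((if (x, x) = (a, b) then P1 [] * P2 [b, a] else 0)
            + (if (x, x) = (a, b) then P1 [a, b] * P2 [] else 0)
            + (if (x, x) = (b, a) then P1 [b] * P2 [b] else 0)) = 0 := by
      refine Finset.sum_eq_zero fun b hb => ?_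
      rw [Finset.mem_filter] at hb
      have h1 : ¬ ((x, x) = (a, b)) := by
        rintro h; rw [Prod.mk.injEq] at h; exact hb.2 (h.2.symm.trans h.1)
      have h2 : ¬ ((x, x) = (b, a)) := by
        rintro h; rw [Prod.mk.injEq] at h; exact hb.2 (h.1.symm.trans h.2)
      simp [h1, h2]
    rw [h0, add_zero]
    by_cases hx : x = a
    · subst hx; simp
    · simp [hx]
  · have h := sum_yw_offdiag x y hxy (fun z u u' => if z = a then P1 u * P2 u' else 0)
    rw [h]
    have h3 : ¬ ((x, y) = (a, a)) := by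
      rintro h; rw [Prod.mk.injEq] at h; exact hxy (h.1.trans h.2.symm)
    rw [if_neg h3, zero_add]
    by_cases hx : x = a
    · subst hx
      have hy : ¬ y = x := fun e => hxy e.symm
      rw [Finset.sum_eq_single y]
      · simp [hy]
      · intro b _ hb
        have : ¬ y = b := fun e => hb e.symm
        simp [this, hy]
      · intro h; simp [hy] at h
    · by_cases hy : y = a
      · subst hy
        rw [Finset.sum_eq_single x]
        · simp [hx]
        · intro b _ hb
          have : ¬ x = b := fun e => hb e.symm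
          simp [this, hx]
        · intro h; simp [hx] at h
      · symm
        simp only [hx, hy, if_false, add_zero]
        refine Finset.sum_eq_zero fun b hb => ?_
        simp [hx, hy]

/-- the vector `ζ_a` -/
noncomputable def zetaV (ρ : Idx m → ℝ) (a : Fin m) : Fock (Letter m) :=
  ∑ b ∈ Finset.univ.filter (fun b => b ≠ a),
    (ρ (a, b) : ℂ) • bas [Sum.inr (a, b), Sum.inl a, Sum.inl b]
  + ∑ b ∈ Finset.univ.filter (fun b => b ≠ a),
    (ρ (a, b) : ℂ) • bas [Sum.inl b, Sum.inl a, Sum.inr (a, b)]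
  + ∑ b ∈ Finset.univ.filter (fun b => b ≠ a),
    (ρ (b, a) : ℂ) • bas [Sum.inl b, Sum.inr (b, a), Sum.inl b]

theorem norm_zetaV_sq (ρ : Idx m → ℝ) (a : Fin m) :
    ‖zetaV ρ a‖ ^ 2 = ∑ b ∈ Finset.univ.filter (fun b => b ≠ a),
        (2 * ρ (a, b) ^ 2 + ρ (b, a) ^ 2) := by
  unfold zetaV
  set S := Finset.univ.filter (fun b : Fin m => b ≠ a) with hS
  have n1 := norm_sq_sum_bas S (fun b => ρ (a, b))
    (fun b => ([Sum.inr (a, b), Sum.inl a, Sum.inl b] : List (Letter m)))
    (by intro b b' h; simpa using h)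
  have n2 := norm_sq_sum_bas S (fun b => ρ (a, b))
    (fun b => ([Sum.inl b, Sum.inl a, Sum.inr (a, b)] : List (Letter m)))
    (by intro b b' h; simpa using h)
  have n3 := norm_sq_sum_bas S (fun b => ρ (b, a))
    (fun b => ([Sum.inl b, Sum.inr (b, a), Sum.inl b] : List (Letter m)))
    (by intro b b' h; simpa using h)
  have o12 := inner_sum_bas_eq_zero S S (fun b => (ρ (a, b) : ℂ)) (fun b => (ρ (a, b) : ℂ))
    (fun b => ([Sum.inr (a, b), Sum.inl a, Sum.inl b] : List (Letter m)))
    (fun b => ([Sum.inl b, Sum.inl a, Sum.inr (a, b)] : List (Letter m)))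
    (by intro i _ j _ h; simp at h)
  have o13 := inner_sum_bas_eq_zero S S (fun b => (ρ (a, b) : ℂ)) (fun b => (ρ (b, a) : ℂ))
    (fun b => ([Sum.inr (a, b), Sum.inl a, Sum.inl b] : List (Letter m)))
    (fun b => ([Sum.inl b, Sum.inr (b, a), Sum.inl b] : List (Letter m)))
    (by intro i _ j _ h; simp at h)
  have o23 := inner_sum_bas_eq_zero S S (fun b => (ρ (a, b) : ℂ)) (fun b => (ρ (b, a) : ℂ))
    (fun b => ([Sum.inl b, Sum.inl a, Sum.inr (a, b)] : List (Letter m)))
    (fun b => ([Sum.inl b, Sum.inr (b, a), Sum.inl b] : List (Letter m)))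
    (by intro i _ j _ h; simp at h)
  rw [@norm_add_sq ℂ, @norm_add_sq ℂ, inner_add_left, o12, o13, o23, n1, n2, n3]
  simp only [map_zero, mul_zero, add_zero]
  rw [← Finset.sum_add_distrib, ← Finset.sum_add_distrib]
  refine Finset.sum_congr rfl fun b _ => by ring

theorem inner_zetaV (c s : Idx m → ℝ) (hs : ∀ i, s i ≠ 0) (a : Fin m) (Q : List (Idx m)) :
    ⟪zetaV (fun i => c i / s i) a, XQ c s Q (bas [])⟫_ℂ
      = ∑ k : Fin Q.length, (c (Q.get k) : ℂ) * ∑ b ∈ Finset.univ.filter (fun b => b ≠ a),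
          ((if Q.get k = (a, b) then
              phi c s [] (Q.take k) * phi c s [b, a] (Q.drop (k + 1)) else 0)
            + (if Q.get k = (a, b) then
              phi c s [a, b] (Q.take k) * phi c s [] (Q.drop (k + 1)) else 0)
            + (if Q.get k = (b, a) then
              phi c s [b] (Q.take k) * phi c s [b] (Q.drop (k + 1)) else 0)) := by
  have i1 : ∀ b, b ≠ a → ⟪((c (a, b) / s (a, b) : ℝ) : ℂ) •
      (bas [Sum.inr (a, b), Sum.inl a, Sum.inl b] : Fock (Letter m)), XQ c s Q (bas [])⟫_ℂ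
      = ∑ k : Fin Q.length, (c (Q.get k) : ℂ) * (if Q.get k = (a, b) then
              phi c s [] (Q.take k) * phi c s [b, a] (Q.drop (k + 1)) else 0) := by
    intro b hb
    have h := inner_split c s [] [Sum.inl a, Sum.inl b] (a, b) Q
    rw [List.nil_append] at h
    have hsc : (s (a, b) : ℂ) ≠ 0 := by exact_mod_cast hs (a, b)
    rw [inner_smul_left, h, Complex.conj_ofReal, ← mul_assoc, Complex.ofReal_div,
      div_mul_cancel₀ _ hsc, Finset.mul_sum]
    refine Finset.sum_congr rfl fun k _ => ?_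
    split_ifs with hk
    · rw [hk, phi_nil_left, ← Aop_two a b hb.symm, inner_Aop]
      rfl
    · simp
  have i2 : ∀ b, b ≠ a → ⟪((c (a, b) / s (a, b) : ℝ) : ℂ) •
      (bas [Sum.inl b, Sum.inl a, Sum.inr (a, b)] : Fock (Letter m)), XQ c s Q (bas [])⟫_ℂ
      = ∑ k : Fin Q.length, (c (Q.get k) : ℂ) * (if Q.get k = (a, b) then
              phi c s [a, b] (Q.take k) * phi c s [] (Q.drop (k + 1)) else 0) := by
    intro b hb
    have h := inner_split c s [Sum.inl b, Sum.inl a] [] (a, b) Q
    rw [show ([Sum.inl b, Sum.inl a] ++ Sum.inr (a, b) :: [] : List (Letter m))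
      = [Sum.inl b, Sum.inl a, Sum.inr (a, b)] from rfl] at h
    have hsc : (s (a, b) : ℂ) ≠ 0 := by exact_mod_cast hs (a, b)
    rw [inner_smul_left, h, Complex.conj_ofReal, ← mul_assoc, Complex.ofReal_div,
      div_mul_cancel₀ _ hsc, Finset.mul_sum]
    refine Finset.sum_congr rfl fun k _ => ?_
    split_ifs with hk
    · rw [hk, phi_nil_left, ← Aop_two b a hb, inner_Aop]
      rfl
    · simp
  have i3 : ∀ b, b ≠ a → ⟪((c (b, a) / s (b, a) : ℝ) : ℂ) •
      (bas [Sum.inl b, Sum.inr (b, a), Sum.inl b] : Fock (Letter m)), XQ c s Q (bas [])⟫_ℂ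
      = ∑ k : Fin Q.length, (c (Q.get k) : ℂ) * (if Q.get k = (b, a) then
              phi c s [b] (Q.take k) * phi c s [b] (Q.drop (k + 1)) else 0) := by
    intro b hb
    have h := inner_split c s [Sum.inl b] [Sum.inl b] (b, a) Q
    rw [show ([Sum.inl b] ++ Sum.inr (b, a) :: [Sum.inl b] : List (Letter m))
      = [Sum.inl b, Sum.inr (b, a), Sum.inl b] from rfl] at h
    have hsc : (s (b, a) : ℂ) ≠ 0 := by exact_mod_cast hs (b, a)
    rw [inner_smul_left, h, Complex.conj_ofReal, ← mul_assoc, Complex.ofReal_div,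
      div_mul_cancel₀ _ hsc, Finset.mul_sum]
    refine Finset.sum_congr rfl fun k _ => ?_
    split_ifs with hk
    · rw [hk, ← Aop_one b, inner_Aop, inner_Aop]
      rfl
    · simp
  unfold zetaV
  rw [inner_add_left, inner_add_left, sum_inner, sum_inner, sum_inner,
    ← Finset.sum_add_distrib, ← Finset.sum_add_distrib]
  simp only [Finset.mul_sum]
  rw [Finset.sum_comm]
  refine Finset.sum_congr rfl fun b hb => ?_
  rw [Finset.mem_filter] at hb
  rw [i1 b hb.2, i2 b hb.2, i3 b hb.2, ← Finset.sum_add_distrib, ← Finset.sum_add_distrib]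
  refine Finset.sum_congr rfl fun k _ => by ring

theorem vec_diag (c s : Idx m → ℝ) (hs : ∀ i, s i ≠ 0) (a : Fin m) (x z M : ℝ)
    (hxz : x * c (a, a) + z * s (a, a) = 1)
    (hM : ∑ b ∈ Finset.univ.filter (fun b => b ≠ a),
        (2 * (c (a, b) / s (a, b)) ^ 2 + (c (b, a) / s (b, a)) ^ 2) ≤ M) :
    ∃ η : Fock (Letter m),
      (∀ Q : List (Idx m), ⟪η, XQ c s Q (bas [])⟫_ℂ
        = ∑ k : Fin Q.length, if Q.get k = (a, a) then
            phi c s [] (Q.take k) * phi c s [] (Q.drop (k + 1)) else 0) ∧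
      ‖η‖ ^ 2 ≤ x ^ 2 * (1 + M) + z ^ 2 := by
  set ζ : Fock (Letter m) := zetaV (fun i => c i / s i) a with hζ
  refine ⟨(x : ℂ) • (bas [Sum.inl a] - ζ) + (z : ℂ) • bas [Sum.inr (a, a)], ?_, ?_⟩
  · intro Q
    have h1 : ⟪bas [Sum.inl a], XQ c s Q (bas [])⟫_ℂ = phi c s [a] Q := by
      rw [← Aop_one a, inner_Aop]
      rfl
    have h2 := inner_split c s [] [] (a, a) Q
    rw [List.nil_append] at h2
    have h3 : phi c s [a] Q = ∑ k : Fin Q.length, (c (Q.get k) : ℂ) *
        ((if Q.get k = (a, a) then phi c s [] (Q.take k) * phi c s [] (Q.drop (k + 1)) else 0)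
        + ∑ b ∈ Finset.univ.filter (fun b => b ≠ a),
          ((if Q.get k = (a, b) then
              phi c s [] (Q.take k) * phi c s [b, a] (Q.drop (k + 1)) else 0)
            + (if Q.get k = (a, b) then
              phi c s [a, b] (Q.take k) * phi c s [] (Q.drop (k + 1)) else 0)
            + (if Q.get k = (b, a) then
              phi c s [b] (Q.take k) * phi c s [b] (Q.drop (k + 1)) else 0))) := by
      rw [phi_cons]
      have h0 : (∑ k : Fin ([] : List (Fin m)).length, if ([] : List (Fin m)).get k = a then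
            (semi (([] : List (Fin m)).take k) : ℂ) * phi c s (([] : List (Fin m)).drop (k + 1)) Q
            else 0) = 0 := Finset.sum_eq_zero fun k _ => k.elim0
      rw [h0, zero_add]
      refine Finset.sum_congr rfl fun k _ => ?_
      have hk := diag_key (Q.get k) a (fun v => phi c s v (Q.take k))
        (fun v => phi c s v (Q.drop (k + 1)))
      simp only [List.append_nil]
      rw [hk]
    have h4 := inner_zetaV c s hs a Q
    rw [← hζ] at h4
    rw [inner_add_left, inner_smul_left, inner_smul_left, inner_sub_left, h1, h2, h3, h4,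
      ← Finset.sum_sub_distrib]
    simp only [phi_nil_left, Complex.conj_ofReal]
    rw [Finset.mul_sum, Finset.mul_sum, Finset.mul_sum, ← Finset.sum_add_distrib]
    refine Finset.sum_congr rfl fun k _ => ?_
    have hxz' : (x : ℂ) * (c (a, a) : ℂ) + (z : ℂ) * (s (a, a) : ℂ) = 1 := by
      exact_mod_cast hxz
    by_cases hk : Q.get k = (a, a)
    · rw [if_pos hk, hk]
      linear_combination (⟪bas [], XQ c s (Q.take k) (bas [])⟫_ℂ *
        ⟪bas [], XQ c s (Q.drop (k + 1)) (bas [])⟫_ℂ) * hxz'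
    · rw [if_neg hk]
      ring
  · have o1 : ⟪bas [Sum.inl a], (bas [Sum.inr (a, a)] : Fock (Letter m))⟫_ℂ = 0 := by
      rw [inner_bas, if_neg (by simp)]
    have o2 : ⟪ζ, (bas [Sum.inr (a, a)] : Fock (Letter m))⟫_ℂ = 0 := by
      rw [hζ, zetaV, inner_add_left, inner_add_left, sum_inner, sum_inner, sum_inner]
      rw [Finset.sum_eq_zero, Finset.sum_eq_zero, Finset.sum_eq_zero]
      · simp
      all_goals
        intro b _
        rw [inner_smul_left, inner_bas, if_neg (by simp), mul_zero]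
    have o3 : ⟪(bas [Sum.inl a] : Fock (Letter m)), ζ⟫_ℂ = 0 := by
      rw [hζ, zetaV, inner_add_right, inner_add_right, inner_sum, inner_sum, inner_sum]
      rw [Finset.sum_eq_zero, Finset.sum_eq_zero, Finset.sum_eq_zero]
      · simp
      all_goals
        intro b _
        rw [inner_smul_right, inner_bas, if_neg (by simp), mul_zero]
    have n1 : ‖ζ‖ ^ 2 ≤ M := by
      rw [hζ, norm_zetaV_sq]
      exact hM
    have n2 : ‖(bas [Sum.inl a] : Fock (Letter m)) - ζ‖ ^ 2 = 1 + ‖ζ‖ ^ 2 := by
      rw [@norm_sub_sq ℂ, o3, norm_bas]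
      simp
    rw [@norm_add_sq ℂ, inner_smul_left, inner_smul_right, inner_sub_left, o1, o2, norm_smul,
      norm_smul, norm_bas, mul_pow, n2]
    simp only [Complex.norm_real, Real.norm_eq_abs, mul_one, sq_abs, sub_zero, mul_zero, map_zero,
      add_zero]
    nlinarith [mul_le_mul_of_nonneg_left n1 (sq_nonneg x)]

end Vale.Agent.P087
end
end

section

section

/-! Task F. Upper bound for the free Fisher information along the heat flow. -/

open scoped ENNReal NNReal InnerProductSpace

namespace Vale.Agent.P087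

theorem sig_pos (m : ℕ) (t : ℝ) (ht : 0 < t) (i : Idx m) : 0 < sig m t i := by
  unfold sig
  split_ifs <;> positivity

theorem coef_diag (m : ℕ) (c θ : ℝ) (a : Fin m) : coef m c θ (a, a) = c := by simp [coef]

theorem coef_off (m : ℕ) (c θ : ℝ) (a b : Fin m) (hab : a ≠ b) : coef m c θ (a, b) = θ := by
  simp [coef, hab]

theorem sig_diag (m : ℕ) (t : ℝ) (a : Fin m) : sig m t (a, a) = Real.sqrt t := by simp [sig]

theorem sig_off (m : ℕ) (t : ℝ) (a b : Fin m) (hab : a ≠ b) :
    sig m t (a, b) = Real.sqrt (1 + t) := by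
  simp [sig, hab]

/-- diagonal coordinates -/
theorem conjNormSq_diag_le (m : ℕ) (c θ t : ℝ) (hc : 0 < c) (hθ : 0 ≤ θ) (ht : 0 < t) (a : Fin m) :
    conjNormSq (lawX m c θ t) (a, a) ≤
      ENNReal.ofReal (1 / (t + c ^ 2 / (1 + 3 * ((m - 1) * θ ^ 2)))) := by
  have hm1 : (1 : ℝ) ≤ m := by
    have : 0 < m := a.pos
    exact_mod_cast this
  set M : ℝ := 3 * ((m - 1) * θ ^ 2) with hM
  have hM0 : 0 ≤ M := by
    have : 0 ≤ (m : ℝ) - 1 := by linarith
    positivity
  have hst : Real.sqrt t ^ 2 = t := Real.sq_sqrt ht.le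
  have hD : 0 < c ^ 2 + t * (1 + M) := by positivity
  have hfin : (c / (c ^ 2 + t * (1 + M))) ^ 2 * (1 + M)
      + (Real.sqrt t * (1 + M) / (c ^ 2 + t * (1 + M))) ^ 2 = 1 / (t + c ^ 2 / (1 + M)) := by
    have h1 : (1 : ℝ) + M ≠ 0 := by positivity
    have h2 : t + c ^ 2 / (1 + M) ≠ 0 := by positivity
    rw [div_pow, div_pow, mul_pow, hst]
    field_simp
    ring
  have hvec := vec_diag (coef m c θ) (sig m t) (fun i => (sig_pos m t ht i).ne') a
    (c / (c ^ 2 + t * (1 + M))) (Real.sqrt t * (1 + M) / (c ^ 2 + t * (1 + M))) M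
    (by
      rw [coef_diag, sig_diag]
      field_simp
      rw [hst]
      ring)
    (by
      have h1 : ∀ b ∈ Finset.univ.filter (fun b : Fin m => b ≠ a),
          (2 * (coef m c θ (a, b) / sig m t (a, b)) ^ 2 + (coef m c θ (b, a) / sig m t (b, a)) ^ 2)
            ≤ 3 * θ ^ 2 := by
        intro b hb
        rw [Finset.mem_filter] at hb
        have hb' : a ≠ b := hb.2.symm
        rw [coef_off m c θ a b hb', coef_off m c θ b a hb.2, sig_off m t a b hb',
          sig_off m t b a hb.2, div_pow, Real.sq_sqrt (by positivity)]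
        have h2 : θ ^ 2 / (1 + t) ≤ θ ^ 2 := div_le_self (by positivity) (by linarith)
        linarith
      refine (Finset.sum_le_sum h1).trans ?_
      rw [Finset.sum_const, nsmul_eq_mul, Finset.filter_ne', Finset.card_erase_of_mem
        (Finset.mem_univ a), Finset.card_univ, Fintype.card_fin, Nat.cast_sub a.pos, hM]
      push_cast
      apply le_of_eq
      ring)
  obtain ⟨η, hη1, hη2⟩ := hvec
  refine conjNormSq_le_of_vec (coef m c θ) (sig m t) (a, a)
    (Real.toNNReal (1 / (t + c ^ 2 / (1 + M)))) (fun D => ⟨η, fun Q _ => hη1 Q, ?_⟩)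
  rw [Real.coe_toNNReal _ (by positivity), ← hfin]
  exact hη2

/-- off-diagonal coordinates, trivial bound -/
theorem conjNormSq_offdiag_le (m : ℕ) (c θ t : ℝ) (hc : 0 < c) (hθ : 0 ≤ θ) (ht : 0 < t)
    (a b : Fin m) (hab : a ≠ b) :
    conjNormSq (lawX m c θ t) (a, b) ≤ ENNReal.ofReal (1 / (1 + t)) := by
  refine conjNormSq_le_of_vec (coef m c θ) (sig m t) (a, b)
    (Real.toNNReal (1 / (1 + t))) (fun D => ⟨((sig m t (a, b))⁻¹ : ℂ) • bas [Sum.inr (a, b)],
      fun Q _ => vec_offdiag_trivial (coef m c θ) (sig m t) (a, b)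
        (sig_pos m t ht (a, b)).ne' Q, ?_⟩)
  rw [Real.coe_toNNReal _ (by positivity), norm_smul, norm_bas, mul_one, norm_inv,
    Complex.norm_real, Real.norm_eq_abs, inv_pow, sq_abs, sig_off m t a b hab,
    Real.sq_sqrt (by positivity), one_div]

/-- off-diagonal coordinates, good bound for `t ≥ t0 = 1/4` -/
theorem conjNormSq_offdiag_le' (m : ℕ) (c θ t : ℝ) (hθ : θ = 1 / 10 ^ 12) (hc : c = 1 / 8000)
    (hm : ((m : ℝ) - 1) * θ ^ 2 = 8) (ht : 1 / 4 ≤ t)
    (a b : Fin m) (hab : a ≠ b) :
    conjNormSq (lawX m c θ t) (a, b) ≤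
      ENNReal.ofReal (1 / (1 + t) * (1 - θ ^ 2 / (1 + t) * (99 / 100))) := by
  have ht0 : 0 < t := by linarith
  have hθ0 : 0 ≤ θ := by rw [hθ]; positivity
  have hc0 : 0 ≤ c := by rw [hc]; positivity
  have hs1 : 1 ≤ Real.sqrt (1 + t) := by
    rw [Real.one_le_sqrt]; linarith
  have hs2 : 1 / 2 ≤ Real.sqrt t := by
    apply Real.le_sqrt_of_sq_le
    norm_num
    linarith
  have hK : ∀ D, ∑ l ∈ Finset.range (D + 1), ∑ w ∈ wl (Idx m) l,
      gc (fun i => coef m c θ i / sig m t i) [a, b, a] w ^ 2 ≤ 1 / 100 := by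
    intro D
    refine sum_gc_sq_le _ θ ?_ ?_ ?_ hθ0 hθ.le hm.le a b hab D
    · intro i
      refine div_nonneg ?_ (sig_pos m t ht0 i).le
      unfold coef
      split_ifs <;> assumption
    · intro a
      rw [coef_diag, sig_diag, div_le_iff₀ (by linarith), hc]
      linarith
    · intro a b hab
      rw [coef_off m c θ a b hab, sig_off m t a b hab]
      exact div_le_self hθ0 hs1
  have h0 : 0 ≤ 1 / (1 + t) * (1 - θ ^ 2 / (1 + t) * (99 / 100)) := by
    have h1 : θ ^ 2 / (1 + t) ≤ 1 := by
      rw [div_le_one (by linarith), hθ]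
      norm_num
      linarith
    have h2 : 0 ≤ 1 - θ ^ 2 / (1 + t) * (99 / 100) := by
      have : 0 ≤ θ ^ 2 / (1 + t) := by positivity
      linarith
    positivity
  refine conjNormSq_le_of_vec (coef m c θ) (sig m t) (a, b)
    (Real.toNNReal (1 / (1 + t) * (1 - θ ^ 2 / (1 + t) * (99 / 100)))) (fun D => ?_)
  obtain ⟨η, h1, h2⟩ := vec_offdiag (coef m c θ) (sig m t) (fun i => (sig_pos m t ht0 i).ne')
    a b hab (1 / 100) hK D
  refine ⟨η, h1, h2.trans (le_of_eq ?_)⟩
  rw [Real.coe_toNNReal _ h0, coef_off m c θ a b hab, sig_off m t a b hab,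
    Real.sq_sqrt (by positivity)]
  field_simp
  ring

end Vale.Agent.P087
end
end

section

section

/-! Task I. Lower bound for the non-microstates entropy by integration. -/

open MeasureTheory Filter
open scoped ENNReal NNReal Topology

namespace Vale.Agent.P087

/-- general comparison principle -/
theorem chiStar_ge {ι : Type} [Fintype ι] [DecidableEq ι] (ν : ℝ → List ι → ℂ) (U : ℝ → ℝ)
    (hU0 : ∀ t, 0 < t → 0 ≤ U t) (hU : ∀ t, 0 < t → fisher (ν t) ≤ ENNReal.ofReal (U t))
    (hint : IntegrableOn (fun t => (Fintype.card ι : ℝ) / (1 + t) - U t) (Set.Ioi 0)) :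
    (((1 / 2) * (∫ t in Set.Ioi (0 : ℝ), ((Fintype.card ι : ℝ) / (1 + t) - U t))
        + (Fintype.card ι : ℝ) / 2 * Real.log (2 * Real.pi * Real.exp 1) : ℝ) : EReal) ≤ chiStar ν := by
  set f : ℝ → ℝ := fun t => (Fintype.card ι : ℝ) / (1 + t) - U t with hf
  have hpos : (∫⁻ t in Set.Ioi (0 : ℝ), ENNReal.ofReal (f t)) ≤
      ∫⁻ t in Set.Ioi (0 : ℝ), (ENNReal.ofReal (Fintype.card ι / (1 + t)) - fisher (ν t)) := by
    refine setLIntegral_mono' measurableSet_Ioi fun t ht => ?_
    rw [hf]
    simp only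
    rw [ENNReal.ofReal_sub _ (hU0 t ht)]
    exact tsub_le_tsub_left (hU t ht) _
  have hneg : (∫⁻ t in Set.Ioi (0 : ℝ), (fisher (ν t) - ENNReal.ofReal (Fintype.card ι / (1 + t))))
      ≤ ∫⁻ t in Set.Ioi (0 : ℝ), ENNReal.ofReal (-f t) := by
    refine setLIntegral_mono' measurableSet_Ioi fun t ht => ?_
    have h1 : -f t = U t - (Fintype.card ι : ℝ) / (1 + t) := by
      rw [hf]
      simp only
      ring
    rw [h1, ENNReal.ofReal_sub]
    · exact tsub_le_tsub_right (hU t ht) _
    · have : (0 : ℝ) < 1 + t := by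
        have : (0 : ℝ) < t := ht
        linarith
      positivity
  have hfin1 : (∫⁻ t in Set.Ioi (0 : ℝ), ENNReal.ofReal (f t)) ≠ ⊤ := by
    have h := hint.lintegral_lt_top
    exact h.ne
  have hfin2 : (∫⁻ t in Set.Ioi (0 : ℝ), ENNReal.ofReal (-f t)) ≠ ⊤ := by
    have h := hint.neg.lintegral_lt_top
    exact h.ne
  have hintf : ∫ t in Set.Ioi (0 : ℝ), f t =
      (∫⁻ t in Set.Ioi (0 : ℝ), ENNReal.ofReal (f t)).toReal
        - (∫⁻ t in Set.Ioi (0 : ℝ), ENNReal.ofReal (-f t)).toReal :=
    integral_eq_lintegral_pos_part_sub_lintegral_neg_part hint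
  unfold chiStar
  rw [EReal.coe_add]
  refine add_le_add ?_ le_rfl
  rw [EReal.coe_mul]
  refine mul_le_mul_of_nonneg_left ?_ ?_
  · rw [hintf, EReal.coe_sub]
    refine EReal.sub_le_sub ?_ ?_
    · have h1 : (((∫⁻ t in Set.Ioi (0 : ℝ), ENNReal.ofReal (f t)).toReal : ℝ) : EReal) =
          ((∫⁻ t in Set.Ioi (0 : ℝ), ENNReal.ofReal (f t) : ℝ≥0∞) : EReal) :=
        EReal.coe_ennreal_toReal hfin1
      rw [h1]
      exact EReal.coe_ennreal_le_coe_ennreal_iff.2 hpos
    · have h1 : (((∫⁻ t in Set.Ioi (0 : ℝ), ENNReal.ofReal (-f t)).toReal : ℝ) : EReal) =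
          ((∫⁻ t in Set.Ioi (0 : ℝ), ENNReal.ofReal (-f t) : ℝ≥0∞) : EReal) :=
        EReal.coe_ennreal_toReal hfin2
      rw [h1]
      exact EReal.coe_ennreal_le_coe_ennreal_iff.2 hneg
  · exact EReal.coe_nonneg.2 (by norm_num)

/-- `∫₀^∞ (1/(1+t) - 1/(t+g)) dt = log g` for `0 < g ≤ 1`. -/
theorem integral_inv_sub_inv (g : ℝ) (hg : 0 < g) (hg1 : g ≤ 1) :
    IntegrableOn (fun t : ℝ => 1 / (1 + t) - 1 / (t + g)) (Set.Ioi 0) ∧
      ∫ t in Set.Ioi (0 : ℝ), (1 / (1 + t) - 1 / (t + g)) = Real.log g := by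
  have hderiv : ∀ x ∈ Set.Ici (0 : ℝ),
      HasDerivAt (fun t : ℝ => Real.log (1 + t) - Real.log (t + g)) (1 / (1 + x) - 1 / (x + g)) x := by
    intro x hx
    have hx0 : (0 : ℝ) ≤ x := hx
    have h1 : HasDerivAt (fun t : ℝ => Real.log (1 + t)) (1 / (1 + x)) x := by
      have h := ((hasDerivAt_id x).const_add 1).log (by simp only [id]; positivity)
      simpa using h
    have h2 : HasDerivAt (fun t : ℝ => Real.log (t + g)) (1 / (x + g)) x := by
      have h := ((hasDerivAt_id x).add_const g).log (by simp only [id]; positivity)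
      simpa using h
    exact h1.sub h2
  have hneg : ∀ x ∈ Set.Ioi (0 : ℝ), 1 / (1 + x) - 1 / (x + g) ≤ 0 := by
    intro x hx
    have hx0 : (0 : ℝ) < x := hx
    have : 1 / (1 + x) ≤ 1 / (x + g) := by
      apply one_div_le_one_div_of_le
      · positivity
      · linarith
    linarith
  have hlim : Tendsto (fun t : ℝ => Real.log (1 + t) - Real.log (t + g)) atTop (𝓝 0) := by
    have h1 : Tendsto (fun t : ℝ => (1 + t) / (t + g)) atTop (𝓝 1) := by
      have h2 : Tendsto (fun t : ℝ => 1 + (1 - g) / (t + g)) atTop (𝓝 (1 + 0)) := by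
        apply Tendsto.add tendsto_const_nhds
        apply Tendsto.div_atTop tendsto_const_nhds
        exact tendsto_atTop_add_const_right _ _ tendsto_id
      rw [add_zero] at h2
      refine h2.congr' ?_
      filter_upwards [eventually_gt_atTop (0 : ℝ)] with t ht
      have : t + g ≠ 0 := by positivity
      field_simp
      ring
    have h3 := (Real.continuousAt_log (one_ne_zero)).tendsto.comp h1
    rw [Real.log_one] at h3
    refine h3.congr' ?_
    filter_upwards [eventually_gt_atTop (0 : ℝ)] with t ht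
    have ha : (1 + t) ≠ 0 := by positivity
    have hb : (t + g) ≠ 0 := by positivity
    simp only [Function.comp]
    rw [Real.log_div ha hb]
  refine ⟨integrableOn_Ioi_deriv_of_nonpos' hderiv hneg hlim, ?_⟩
  rw [integral_Ioi_of_hasDerivAt_of_nonpos' hderiv hneg hlim]
  simp

/-- `∫_b^∞ 1/(1+t)² dt = 1/(1+b)`. -/
theorem integral_inv_sq (b : ℝ) (hb : 0 ≤ b) :
    IntegrableOn (fun t : ℝ => 1 / (1 + t) ^ 2) (Set.Ioi b) ∧
      ∫ t in Set.Ioi b, 1 / (1 + t) ^ 2 = 1 / (1 + b) := by
  have hderiv : ∀ x ∈ Set.Ici b,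
      HasDerivAt (fun t : ℝ => -(1 / (1 + t))) (1 / (1 + x) ^ 2) x := by
    intro x hx
    have hx0 : b ≤ x := hx
    have h0 : (1 + x) ≠ 0 := by
      have : 0 < 1 + x := by linarith
      exact this.ne'
    have h : HasDerivAt (fun t : ℝ => -(1 + t)⁻¹) (-(-1 / (1 + x) ^ 2)) x :=
      (HasDerivAt.inv (c := fun t : ℝ => 1 + t) ((hasDerivAt_id x).const_add 1) h0).neg
    simp only [one_div]
    convert h using 1
    ring
  have hpos : ∀ x ∈ Set.Ioi b, 0 ≤ 1 / (1 + x) ^ 2 := by
    intro x _
    positivity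
  have hlim : Tendsto (fun t : ℝ => -(1 / (1 + t))) atTop (𝓝 0) := by
    have : Tendsto (fun t : ℝ => (1 / (1 + t))) atTop (𝓝 0) := by
      apply Tendsto.div_atTop tendsto_const_nhds
      exact tendsto_atTop_add_const_left _ _ tendsto_id
    simpa using this.neg
  refine ⟨integrableOn_Ioi_deriv_of_nonneg' hderiv hpos hlim, ?_⟩
  rw [integral_Ioi_of_hasDerivAt_of_nonneg' hderiv hpos hlim]
  simp

theorem chiStar_lawX_ge (m : ℕ) (c θ : ℝ) (hθ : θ = 1 / 10 ^ 12) (hc : c = 1 / 8000)
    (hm : ((m : ℝ) - 1) * θ ^ 2 = 8) :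
    (((m : ℝ) / 2 * Real.log (2 * Real.pi * Real.exp 1 * c ^ 2)
        + ((m : ℝ) ^ 2 - m) / 2 * Real.log (2 * Real.pi * Real.exp 1)
        + (m : ℝ) / 2 * (8 * (99 / 100) / (1 + 1 / 4) - Real.log 25) : ℝ) : EReal)
      ≤ chiStar (lawX m c θ) := by
  have hc0 : 0 < c := by rw [hc]; norm_num
  have hθ0 : 0 < θ := by rw [hθ]; norm_num
  have hm1 : (1 : ℝ) < m := by
    by_contra h
    push Not at h
    have : ((m : ℝ) - 1) * θ ^ 2 ≤ 0 := mul_nonpos_of_nonpos_of_nonneg (by linarith) (by positivity)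
    linarith
  have hmm : (0 : ℝ) ≤ (m : ℝ) ^ 2 - m := by nlinarith
  set g : ℝ := c ^ 2 / 25 with hgdef
  have hg : 0 < g := by positivity
  have hg1 : g ≤ 1 := by rw [hgdef, hc]; norm_num
  have hcard : (Fintype.card (Idx m) : ℝ) = (m : ℝ) ^ 2 := by
    simp [Idx, sq]
  set D : ℝ := θ ^ 2 * (99 / 100) with hD
  have hD1 : D ≤ 1 := by rw [hD, hθ]; norm_num
  have hD0 : 0 ≤ D := by positivity
  let U : ℝ → ℝ := fun t => (m : ℝ) * (1 / (t + g)) + ((m : ℝ) ^ 2 - m) * (1 / (1 + t)) -
    (Set.Ioi (1 / 4 : ℝ)).indicator (fun t => ((m : ℝ) ^ 2 - m) * D * (1 / (1 + t) ^ 2)) t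
  have hUeq : ∀ t, (Fintype.card (Idx m) : ℝ) / (1 + t) - U t =
      (m : ℝ) * (1 / (1 + t) - 1 / (t + g)) +
      (Set.Ioi (1 / 4 : ℝ)).indicator (fun t => ((m : ℝ) ^ 2 - m) * D * (1 / (1 + t) ^ 2)) t := by
    intro t
    simp only [U]
    rw [hcard]
    ring
  obtain ⟨hi1, he1⟩ := integral_inv_sub_inv g hg hg1
  obtain ⟨hi2, he2⟩ := integral_inv_sq (1 / 4) (by norm_num)
  have hU0 : ∀ t, 0 < t → 0 ≤ U t := by
    intro t ht
    simp only [U]
    have h1 : 0 ≤ (m : ℝ) * (1 / (t + g)) := by positivity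
    have h2 : 0 ≤ ((m : ℝ) ^ 2 - m) * (1 / (1 + t)) := by positivity
    by_cases hmem : t ∈ Set.Ioi (1 / 4 : ℝ)
    · rw [Set.indicator_of_mem hmem]
      have h3 : ((m : ℝ) ^ 2 - m) * D * (1 / (1 + t) ^ 2) ≤ ((m : ℝ) ^ 2 - m) * (1 / (1 + t)) := by
        rw [mul_assoc]
        apply mul_le_mul_of_nonneg_left _ hmm
        rw [one_div, one_div, ← div_eq_mul_inv, div_le_iff₀ (by positivity)]
        have : (1 + t)⁻¹ * (1 + t) ^ 2 = 1 + t := by
          have : (1 + t) ≠ 0 := by positivity
          field_simp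
        rw [this]
        linarith
      linarith
    · rw [Set.indicator_of_notMem hmem]
      linarith
  have hF : ∀ t, 0 < t → fisher (lawX m c θ t) ≤ ENNReal.ofReal (U t) := by
    intro t ht
    set q : ℝ := 1 / (1 + t) - (Set.Ioi (1 / 4 : ℝ)).indicator (fun t => D * (1 / (1 + t) ^ 2)) t
      with hq
    have hb : ∀ j : Idx m, conjNormSq (lawX m c θ t) j ≤
        ENNReal.ofReal (q + if j.1 = j.2 then 1 / (t + g) - q else 0) := by
      rintro ⟨a, b⟩
      by_cases hab : a = b
      · subst hab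
        have h := conjNormSq_diag_le m c θ t hc0 hθ0.le ht a
        rw [hm] at h
        refine h.trans (ENNReal.ofReal_le_ofReal ?_)
        simp only [if_true]
        rw [hgdef]
        norm_num
      · simp only [if_neg hab, add_zero]
        by_cases hmem : t ∈ Set.Ioi (1 / 4 : ℝ)
        · have h := conjNormSq_offdiag_le' m c θ t hθ hc hm (le_of_lt hmem) a b hab
          refine h.trans (ENNReal.ofReal_le_ofReal (le_of_eq ?_))
          rw [hq, Set.indicator_of_mem hmem, hD]
          have : (1 + t) ≠ 0 := by positivity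
          field_simp
        · have h := conjNormSq_offdiag_le m c θ t hc0 hθ0.le ht a b hab
          refine h.trans (ENNReal.ofReal_le_ofReal (le_of_eq ?_))
          rw [hq, Set.indicator_of_notMem hmem, sub_zero]
    have hqnn : 0 ≤ q := by
      rw [hq]
      by_cases hmem : t ∈ Set.Ioi (1 / 4 : ℝ)
      · rw [Set.indicator_of_mem hmem]
        have h3 : D * (1 / (1 + t) ^ 2) ≤ (1 / (1 + t)) := by
          rw [one_div, one_div, ← div_eq_mul_inv, div_le_iff₀ (by positivity)]
          have : (1 + t)⁻¹ * (1 + t) ^ 2 = 1 + t := by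
            have : (1 + t) ≠ 0 := by positivity
            field_simp
          rw [this]
          linarith
        linarith
      · rw [Set.indicator_of_notMem hmem, sub_zero]
        positivity
    calc fisher (lawX m c θ t) = ∑ j, conjNormSq (lawX m c θ t) j := rfl
      _ ≤ ∑ j : Idx m, ENNReal.ofReal (q + if j.1 = j.2 then 1 / (t + g) - q else 0) :=
        Finset.sum_le_sum fun j _ => hb j
      _ = ENNReal.ofReal (∑ j : Idx m, (q + if j.1 = j.2 then 1 / (t + g) - q else 0)) := by
        rw [ENNReal.ofReal_sum_of_nonneg]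
        intro j _
        split_ifs
        · have : 0 ≤ 1 / (t + g) := by positivity
          linarith
        · linarith
      _ = ENNReal.ofReal (U t) := by
        congr 1
        rw [Finset.sum_add_distrib, Finset.sum_const, Finset.card_univ, nsmul_eq_mul, hcard,
          Fintype.sum_prod_type]
        simp only [Finset.sum_ite_eq, Finset.mem_univ, if_true, Finset.sum_const, Finset.card_univ,
          Fintype.card_fin, nsmul_eq_mul]
        simp only [U]
        rw [hq]
        by_cases hmem : t ∈ Set.Ioi (1 / 4 : ℝ)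
        · rw [Set.indicator_of_mem hmem, Set.indicator_of_mem hmem]
          ring
        · rw [Set.indicator_of_notMem hmem, Set.indicator_of_notMem hmem]
          ring
  have hsub : Set.Ioi (1 / 4 : ℝ) ⊆ Set.Ioi 0 := Set.Ioi_subset_Ioi (by norm_num)
  have hinter : Set.Ioi (0 : ℝ) ∩ Set.Ioi (1 / 4 : ℝ) = Set.Ioi (1 / 4 : ℝ) :=
    Set.inter_eq_self_of_subset_right hsub
  have hI1 : IntegrableOn (fun t : ℝ => (m : ℝ) * (1 / (1 + t) - 1 / (t + g))) (Set.Ioi 0) :=
    hi1.const_mul _
  have hI2 : IntegrableOn (fun t : ℝ => ((m : ℝ) ^ 2 - m) * D * (1 / (1 + t) ^ 2))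
      (Set.Ioi (1 / 4)) := hi2.const_mul _
  have hI3 : IntegrableOn ((Set.Ioi (1 / 4 : ℝ)).indicator
      (fun t => ((m : ℝ) ^ 2 - m) * D * (1 / (1 + t) ^ 2))) (Set.Ioi 0) := by
    rw [IntegrableOn, integrable_indicator_iff measurableSet_Ioi, IntegrableOn,
      Measure.restrict_restrict measurableSet_Ioi, Set.inter_comm, hinter]
    exact hI2
  have hint : IntegrableOn (fun t => (Fintype.card (Idx m) : ℝ) / (1 + t) - U t) (Set.Ioi 0) := by
    refine (hI1.add hI3).congr (ae_of_all _ fun t => ?_)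
    simp only [Pi.add_apply]
    rw [hUeq t]
  have hval : ∫ t in Set.Ioi (0 : ℝ), ((Fintype.card (Idx m) : ℝ) / (1 + t) - U t) =
      m * Real.log g + ((m : ℝ) ^ 2 - m) * D * (1 / (1 + 1 / 4)) := by
    simp_rw [hUeq]
    rw [integral_add hI1 hI3, integral_const_mul, he1, integral_indicator measurableSet_Ioi,
      Measure.restrict_restrict measurableSet_Ioi, Set.inter_comm, hinter, integral_const_mul, he2]
  have hmain := chiStar_ge (lawX m c θ) U hU0 hF hint
  refine le_trans (le_of_eq ?_) hmain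
  rw [hval, hcard]
  congr 1
  have hlog1 : Real.log (2 * Real.pi * Real.exp 1 * c ^ 2) =
      Real.log (2 * Real.pi * Real.exp 1) + Real.log (c ^ 2) :=
    Real.log_mul (by positivity) (by positivity)
  have hlog2 : Real.log g = Real.log (c ^ 2) - Real.log 25 := by
    rw [hgdef, Real.log_div (by positivity) (by norm_num)]
  have hprod : ((m : ℝ) ^ 2 - m) * D = m * (8 * (99 / 100)) := by
    rw [hD, ← hm]
    ring
  rw [hlog1, hlog2, hprod]
  ring

end Vale.Agent.P087
end
end

section

section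

/-! Task V, part 2: freeness of the algebras generated by disjoint sets of semicirculars. -/

open scoped InnerProductSpace

namespace Vale.Agent.P087.VN

open Vale.Agent.P087

variable {J : Type} [DecidableEq J]

/-- finite span of the words with all letters in `G` -/
noncomputable def VG (G : Set J) : Submodule ℂ (Fock J) :=
  Submodule.span ℂ (bas '' {w : List J | ∀ x ∈ w, x ∈ G})

/-- right tensoring by `δ_w` -/
noncomputable def tens (w : List J) : Fock J →L[ℂ] Fock J :=
  (inj (fun u => u ++ w) (List.append_left_injective w)).toContinuousLinearMap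

@[simp] theorem tens_bas (w u : List J) : tens w (bas u) = bas (u ++ w) :=
  inj_bas (fun u => u ++ w) (List.append_left_injective w) u

/-- `w` does not start with a letter in `G` -/
def NotStart (G : Set J) (w : List J) : Prop := ∀ x, w.head? = some x → x ∉ G

/-- local operators -/
def locAlg (G : Set J) : Subalgebra ℂ (Fock J →L[ℂ] Fock J) where
  carrier := {T | ∀ ψ ∈ VG G, T ψ ∈ VG G ∧ ∀ w, NotStart G w → T (tens w ψ) = tens w (T ψ)}
  mul_mem' := by
    intro S T hS hT ψ hψ
    have h1 := hT ψ hψ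
    have h2 := hS (T ψ) h1.1
    refine ⟨h2.1, ?_⟩
    intro w hw
    show S (T (tens w ψ)) = tens w (S (T ψ))
    rw [h1.2 w hw, h2.2 w hw]
  add_mem' := by
    intro S T hS hT ψ hψ
    have h1 := hT ψ hψ
    have h2 := hS ψ hψ
    refine ⟨Submodule.add_mem _ h2.1 h1.1, ?_⟩
    intro w hw
    show S (tens w ψ) + T (tens w ψ) = tens w (S ψ + T ψ)
    rw [h1.2 w hw, h2.2 w hw, map_add]
  algebraMap_mem' := by
    intro r ψ hψ
    have e : ∀ φ : Fock J, (algebraMap ℂ (Fock J →L[ℂ] Fock J) r) φ = r • φ := by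
      intro φ
      rw [Algebra.algebraMap_eq_smul_one]
      rfl
    refine ⟨?_, ?_⟩
    · rw [e]
      exact Submodule.smul_mem _ _ hψ
    · intro w hw
      rw [e, e, map_smul]

theorem semL_locAlg {G : Set J} {x : J} (hx : x ∈ G) : semL x ∈ locAlg G := by
  intro ψ hψ
  have key : ∀ u : List J, (∀ y ∈ u, y ∈ G) → semL x (bas u) ∈ VG G ∧
      ∀ w, NotStart G w → semL x (tens w (bas u)) = tens w (semL x (bas u)) := by
    intro u hu
    cases u with
    | nil =>
      refine ⟨?_, ?_⟩
      · rw [semL_nil]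
        apply Submodule.subset_span
        refine ⟨[x], ?_, rfl⟩
        intro y hy
        rw [List.mem_singleton] at hy
        rw [hy]; exact hx
      · intro w hw
        rw [semL_nil, tens_bas, tens_bas, List.nil_append, List.singleton_append]
        cases w with
        | nil => simp
        | cons z w =>
          have hz : ¬ x = z := by
            intro h
            exact hw z (by simp) (h ▸ hx)
          rw [semL_cons]
          simp [hz]
    | cons y u =>
      refine ⟨?_, ?_⟩
      · rw [semL_cons]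
        apply Submodule.add_mem
        · apply Submodule.subset_span
          refine ⟨x :: y :: u, ?_, rfl⟩
          intro z hz
          rw [List.mem_cons] at hz
          rcases hz with rfl | hz
          · exact hx
          · exact hu z hz
        · by_cases h : x = y
          · rw [if_pos h]
            apply Submodule.subset_span
            refine ⟨u, ?_, rfl⟩
            intro z hz
            exact hu z (List.mem_cons_of_mem _ hz)
          · rw [if_neg h]
            exact Submodule.zero_mem _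
      · intro w hw
        rw [tens_bas, List.cons_append, semL_cons, semL_cons, map_add, tens_bas]
        by_cases h : x = y
        · simp [h]
        · simp [h]
  induction hψ using Submodule.span_induction with
  | mem φ hφ =>
    obtain ⟨u, hu, rfl⟩ := hφ
    exact key u hu
  | zero =>
    refine ⟨by rw [map_zero]; exact Submodule.zero_mem _, ?_⟩
    intro w _
    simp
  | add φ φ' _ _ h h' =>
    refine ⟨by rw [map_add]; exact Submodule.add_mem _ h.1 h'.1, ?_⟩
    intro w hw
    rw [map_add, map_add, map_add, map_add, h.2 w hw, h'.2 w hw]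
  | smul a φ _ h =>
    refine ⟨by rw [map_smul]; exact Submodule.smul_mem _ _ h.1, ?_⟩
    intro w hw
    rw [map_smul, map_smul, map_smul, map_smul, h.2 w hw]

/-- vectors spanned by words starting in `G` -/
noncomputable def St (G : Set J) : Submodule ℂ (Fock J) :=
  Submodule.span ℂ (bas '' {w : List J | ∃ x ∈ G, w.head? = some x})

theorem inner_St {G : Set J} {ψ : Fock J} (h : ψ ∈ St G) : ⟪bas ([] : List J), ψ⟫_ℂ = 0 := by
  induction h using Submodule.span_induction with
  | mem φ hφ =>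
    obtain ⟨u, ⟨x, _, hu⟩, rfl⟩ := hφ
    rw [inner_bas, if_neg]
    rintro rfl
    simp at hu
  | zero => exact inner_zero_right _
  | add φ φ' _ _ h h' => rw [inner_add_right, h, h', add_zero]
  | smul a φ _ h => rw [inner_smul_right, h, mul_zero]

theorem VG_centered {G : Set J} {ψ : Fock J} (h : ψ ∈ VG G) (w : List J) :
    tens w (ψ - ⟪bas ([] : List J), ψ⟫_ℂ • bas []) ∈ St G := by
  induction h using Submodule.span_induction with
  | mem φ hφ =>
    obtain ⟨u, hu, rfl⟩ := hφ
    cases u with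
    | nil => rw [inner_bas]; simp
    | cons x u =>
      have : ⟪bas ([] : List J), bas (x :: u)⟫_ℂ = 0 := by rw [inner_bas]; simp
      rw [this, zero_smul, sub_zero, tens_bas]
      apply Submodule.subset_span
      exact ⟨x :: u ++ w, ⟨x, hu x (by simp), by simp⟩, rfl⟩
  | zero => simp
  | add φ φ' _ _ h h' =>
    have e : tens w (φ + φ' - ⟪bas ([] : List J), φ + φ'⟫_ℂ • bas []) =
        tens w (φ - ⟪bas ([] : List J), φ⟫_ℂ • bas []) +
        tens w (φ' - ⟪bas ([] : List J), φ'⟫_ℂ • bas []) := by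
      rw [← map_add, inner_add_right, add_smul]
      congr 1
      abel
    rw [e]
    exact Submodule.add_mem _ h h'
  | smul a φ _ h =>
    have e : tens w (a • φ - ⟪bas ([] : List J), a • φ⟫_ℂ • bas []) =
        a • tens w (φ - ⟪bas ([] : List J), φ⟫_ℂ • bas []) := by
      rw [← map_smul, inner_smul_right, smul_sub, mul_smul]
    rw [e]
    exact Submodule.smul_mem _ _ h

/-- a centered local operator maps vectors starting outside `G` to vectors starting in `G` -/
theorem loc_step {G : Set J} {T : Fock J →L[ℂ] Fock J} (hT : T ∈ locAlg G)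
    (h0 : ⟪bas ([] : List J), T (bas [])⟫_ℂ = 0) {w : List J} (hw : NotStart G w) :
    T (bas w) ∈ St G := by
  have hΩ : bas ([] : List J) ∈ VG G := by
    apply Submodule.subset_span
    exact ⟨[], by simp, rfl⟩
  have h1 := hT (bas []) hΩ
  have h2 := h1.2 w hw
  rw [tens_bas, List.nil_append] at h2
  rw [h2]
  have h3 := VG_centered h1.1 w
  rw [h0, zero_smul, sub_zero] at h3
  exact h3

theorem loc_step_St {G G' : Set J} {T : Fock J →L[ℂ] Fock J} (hT : T ∈ locAlg G)
    (h0 : ⟪bas ([] : List J), T (bas [])⟫_ℂ = 0) (hd : Disjoint G G')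
    {ψ : Fock J} (hψ : ψ ∈ St G') : T ψ ∈ St G := by
  induction hψ using Submodule.span_induction with
  | mem φ hφ =>
    obtain ⟨u, ⟨x, hx, hu⟩, rfl⟩ := hφ
    apply loc_step hT h0
    intro y hy hyG
    rw [hu] at hy
    have : x = y := by simpa using hy
    subst this
    exact Set.disjoint_left.mp hd hyG hx
  | zero => rw [map_zero]; exact Submodule.zero_mem _
  | add φ φ' _ _ h h' => rw [map_add]; exact Submodule.add_mem _ h h'
  | smul a φ _ h => rw [map_smul]; exact Submodule.smul_mem _ _ h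

theorem alt_prod {κ : Type} (G : κ → Set J) (hG : ∀ p q, p ≠ q → Disjoint (G p) (G q)) :
    ∀ (n : ℕ) (i : Fin (n + 1) → κ) (a : Fin (n + 1) → (Fock J →L[ℂ] Fock J)),
    (∀ k, a k ∈ locAlg (G (i k))) → (∀ k, ⟪bas ([] : List J), a k (bas [])⟫_ℂ = 0) →
    (∀ k : Fin n, i k.castSucc ≠ i k.succ) →
      (List.ofFn a).prod (bas []) ∈ St (G (i 0)) := by
  intro n
  induction n with
  | zero =>
    intro i a ha h0 _
    have : (List.ofFn a).prod = a 0 := by simp
    rw [this]
    exact loc_step (ha 0) (h0 0) (by intro x hx; simp at hx)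
  | succ n ih =>
    intro i a ha h0 hi
    rw [List.ofFn_succ, List.prod_cons]
    show a 0 ((List.ofFn fun k => a (Fin.succ k)).prod (bas [])) ∈ _
    have h1 := ih (fun k => i k.succ) (fun k => a k.succ) (fun k => ha k.succ)
      (fun k => h0 k.succ) (fun k => hi k.succ)
    apply loc_step_St (ha 0) (h0 0) _ h1
    apply hG
    exact hi 0

theorem freeFamily_of_loc {κ : Type} (G : κ → Set J) (hG : ∀ p q, p ≠ q → Disjoint (G p) (G q))
    (B : κ → Subalgebra ℂ (vna J).toStarSubalgebra)
    (hB : ∀ p, ∀ T ∈ B p, (T : Fock J →L[ℂ] Fock J) ∈ locAlg (G p)) :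
    FreeFamily (vac J) B := by
  intro n i a ha h0 hi
  have h1 := alt_prod G hG n i (fun k => (a k : Fock J →L[ℂ] Fock J))
    (fun k => hB _ _ (ha k)) (fun k => by rw [← vac_apply]; exact h0 k) hi
  have h2 := inner_St h1
  rw [vac_apply]
  have e : (((List.ofFn a).prod : (vna J).toStarSubalgebra) : Fock J →L[ℂ] Fock J) =
      (List.ofFn fun k => (a k : Fock J →L[ℂ] Fock J)).prod := by
    have := map_list_prod ((vna J).toStarSubalgebra.subtype) (List.ofFn a)
    rw [List.map_ofFn] at this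
    exact this
  rw [e]
  exact h2

theorem adjoin_loc {G : Set J} {s : Set (vna J).toStarSubalgebra}
    (hs : ∀ T ∈ s, (T : Fock J →L[ℂ] Fock J) ∈ locAlg G) :
    ∀ T ∈ Algebra.adjoin ℂ s, (T : Fock J →L[ℂ] Fock J) ∈ locAlg G := by
  intro T hT
  induction hT using Algebra.adjoin_induction with
  | mem x hx => exact hs x hx
  | algebraMap r => exact (locAlg G).algebraMap_mem r
  | add x y _ _ hx hy => exact (locAlg G).add_mem hx hy
  | mul x y _ _ hx hy => exact (locAlg G).mul_mem hx hy

end Vale.Agent.P087.VN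
end
end

section

section

/-! Task V, part 3: joint moments of linear combinations of semicirculars. -/

open scoped InnerProductSpace

namespace Vale.Agent.P087.VN

open Vale.Agent.P087

variable {J L : Type} [DecidableEq J] [DecidableEq L]

theorem semi_nil : semi ([] : List L) = 1 := by
  rw [semi]

theorem semi_cons (x : L) (w : List L) : semi (x :: w) = ∑ k : Fin w.length,
    if w.get k = x then semi (w.take k) * semi (w.drop (k + 1)) else 0 := by
  rw [semi]

/-- `ρ_l` acts as a derivation-like operation on words -/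
theorem ann_word (g ρ : L → Fock J →L[ℂ] Fock J) (σ : L → ℝ)
    (hcomm : ∀ l l', ρ l * g l' = g l' * ρ l + if l = l' then ((σ l : ℂ) ^ 2) • vacProj else 0)
    (hρ : ∀ l, ρ l (bas []) = 0) (x : L) :
    ∀ w : List L, ρ x ((w.map g).prod (bas [])) =
      ∑ k : Fin w.length, if w.get k = x then
        ((σ x : ℂ) ^ 2 * ⟪bas ([] : List J), ((w.drop (k + 1)).map g).prod (bas [])⟫_ℂ) •
          ((w.take k).map g).prod (bas []) else 0 := by
  intro w
  induction w with
  | nil => simpa using hρ x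
  | cons y w ih =>
    rw [List.map_cons, List.prod_cons]
    show (ρ x * g y) ((w.map g).prod (bas [])) = _
    rw [hcomm]
    show g y (ρ x ((w.map g).prod (bas []))) +
      (if x = y then ((σ x : ℂ) ^ 2) • vacProj else (0 : Fock J →L[ℂ] Fock J))
        ((w.map g).prod (bas [])) = _
    have hsplit : ∀ f : Fin (y :: w).length → Fock J,
        ∑ k, f k = f ⟨0, Nat.succ_pos _⟩ + ∑ k : Fin w.length, f k.succ := fun f =>
      Fin.sum_univ_succ (n := w.length) f
    rw [ih, hsplit, map_sum, add_comm]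
    congr 1
    · by_cases h : x = y
      · subst h
        simp [vacProj_apply, smul_smul]
      · have h' : ¬ y = x := fun e => h e.symm
        simp [h, h']
    · apply Finset.sum_congr rfl
      intro k _
      by_cases h : w.get k = x
      · have h' : (y :: w).get k.succ = x := h
        rw [if_pos h, if_pos h', map_smul]
        rfl
      · have h' : ¬ (y :: w).get k.succ = x := h
        rw [if_neg h, if_neg h', map_zero]

theorem moment_word (g ρ : L → Fock J →L[ℂ] Fock J) (σ : L → ℝ)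
    (hcomm : ∀ l l', ρ l * g l' = g l' * ρ l + if l = l' then ((σ l : ℂ) ^ 2) • vacProj else 0)
    (hρ : ∀ l, ρ l (bas []) = 0)
    (hadj : ∀ l ψ, ⟪bas ([] : List J), g l ψ⟫_ℂ = ⟪bas ([] : List J), ρ l ψ⟫_ℂ) :
    ∀ (n : ℕ) (w : List L), w.length = n →
      ⟪bas ([] : List J), (w.map g).prod (bas [])⟫_ℂ =
        (((w.map σ).prod * semi w : ℝ) : ℂ) := by
  intro n
  induction n using Nat.strong_induction_on with
  | _ n ih =>
    intro w hw
    cases w with
    | nil =>
      have : ((List.map g ([] : List L)).prod) (bas []) = bas ([] : List J) := by simp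
      rw [this, inner_bas, semi_nil]
      simp
    | cons x w =>
      rw [List.map_cons, List.prod_cons]
      show ⟪bas ([] : List J), g x ((w.map g).prod (bas []))⟫_ℂ = _
      rw [hadj, ann_word g ρ σ hcomm hρ x w, inner_sum, semi_cons, Finset.mul_sum,
        Complex.ofReal_sum]
      apply Finset.sum_congr rfl
      intro k _
      have hk := k.2
      have hw' : w.length < n := by rw [List.length_cons] at hw; omega
      by_cases h : w.get k = x
      · rw [if_pos h, if_pos h, inner_smul_right]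
        rw [ih (w.drop (k + 1)).length (by rw [List.length_drop]; omega) _ rfl,
          ih (w.take k).length (by rw [List.length_take]; omega) _ rfl]
        have e : (List.map σ w).prod =
            ((w.take k).map σ).prod * (σ x * ((w.drop (k + 1)).map σ).prod) := by
          conv_lhs => rw [← List.take_append_drop (k : ℕ) w]
          rw [List.map_append, List.prod_append, List.drop_eq_getElem_cons hk, List.map_cons,
            List.prod_cons]
          have : w[(k : ℕ)] = x := h
          rw [this]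
        rw [List.map_cons, List.prod_cons, e]
        push_cast
        ring
      · rw [if_neg h, if_neg h, inner_zero_right]
        simp

/-- moments of one semicircular -/
theorem semi_replicate (x : L) : ∀ (n : ℕ),
    semi (List.replicate n x) = if Even n then (catalan (n / 2) : ℝ) else 0 := by
  intro n
  induction n using Nat.strong_induction_on with
  | _ n ih =>
    cases n with
    | zero => simp [semi_nil]
    | succ n =>
      rw [List.replicate_succ, semi_cons]
      have e1 : ∀ k : Fin (List.replicate n x).length,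
          (if (List.replicate n x).get k = x then
            semi ((List.replicate n x).take k) * semi ((List.replicate n x).drop (k + 1)) else 0) =
          (if Even (k : ℕ) then (catalan ((k : ℕ) / 2) : ℝ) else 0) *
            (if Even (n - 1 - (k : ℕ)) then (catalan ((n - 1 - (k : ℕ)) / 2) : ℝ) else 0) := by
        intro k
        have hk : (k : ℕ) < n := lt_of_lt_of_eq k.2 List.length_replicate
        rw [if_pos (by simp), List.take_replicate, List.drop_replicate, ih _ (by omega),
          ih _ (by omega)]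
        have h1 : min (k : ℕ) n = k := by omega
        have h2 : n - ((k : ℕ) + 1) = n - 1 - k := by omega
        rw [h1, h2]
      rw [Finset.sum_congr rfl (fun k _ => e1 k)]
      rw [Fin.sum_univ_eq_sum_range (fun k : ℕ => (if Even k then (catalan (k / 2) : ℝ) else 0) *
            (if Even (n - 1 - k) then (catalan ((n - 1 - k) / 2) : ℝ) else 0)),
        List.length_replicate]
      rcases Nat.even_or_odd n with hn | hn
      · -- n even, n+1 odd
        have : ¬ Even (n + 1) := by
          rw [Nat.not_even_iff_odd]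
          exact hn.add_one
        rw [if_neg this]
        apply Finset.sum_eq_zero
        intro k hk
        have hk' : k < n := Finset.mem_range.mp hk
        by_cases he : Even k
        · have : ¬ Even (n - 1 - k) := by
            rw [Nat.not_even_iff_odd]
            obtain ⟨a, ha⟩ := hn
            obtain ⟨b, hb⟩ := he
            exact ⟨a - 1 - b, by omega⟩
          rw [if_neg this, mul_zero]
        · rw [if_neg he, zero_mul]
      · obtain ⟨p, rfl⟩ := hn
        have he : Even (2 * p + 1 + 1) := ⟨p + 1, by ring⟩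
        rw [if_pos he]
        have hd : (2 * p + 1 + 1) / 2 = p + 1 := by omega
        rw [hd, catalan_succ]
        push_cast
        rw [Fin.sum_univ_eq_sum_range (fun i : ℕ => (catalan i : ℝ) * (catalan (p - i) : ℝ))]
        have hs : ∀ q : ℕ, ∑ k ∈ Finset.range (2 * q + 1),
            (if Even k then (catalan (k / 2) : ℝ) else 0) *
            (if Even (2 * p - k) then (catalan ((2 * p - k) / 2) : ℝ) else 0) =
            ∑ i ∈ Finset.range (q + 1), (if Even (2 * p - 2 * i) then
              (catalan i : ℝ) * (catalan ((2 * p - 2 * i) / 2) : ℝ) else 0) := by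
          intro q
          induction q with
          | zero => simp
          | succ q ihq =>
            rw [show 2 * (q + 1) + 1 = 2 * q + 1 + 1 + 1 by ring, Finset.sum_range_succ,
              Finset.sum_range_succ, ihq, Finset.sum_range_succ _ (q + 1)]
            have h1 : ¬ Even (2 * q + 1) := by
              rw [Nat.not_even_iff_odd]; exact ⟨q, rfl⟩
            have h2 : Even (2 * q + 1 + 1) := ⟨q + 1, by ring⟩
            rw [if_neg h1, zero_mul, add_zero, if_pos h2]
            have h3 : (2 * q + 1 + 1) / 2 = q + 1 := by omega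
            have h4 : 2 * p - (2 * q + 1 + 1) = 2 * p - 2 * (q + 1) := by omega
            rw [h3, h4, mul_ite, mul_zero]
        rw [hs p]
        apply Finset.sum_congr rfl
        intro i hi
        have hi' : i < p + 1 := Finset.mem_range.mp hi
        have h1 : 2 * p - 2 * i = 2 * (p - i) := by omega
        rw [h1, if_pos ⟨p - i, by ring⟩]
        have h2 : 2 * (p - i) / 2 = p - i := by omega
        rw [h2]

end Vale.Agent.P087.VN
end
end

section

section

/-! Task V. The tuple lives in a tracial von Neumann algebra. -/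

open scoped InnerProductSpace

namespace Vale.Agent.P087

namespace VN

variable {J : Type} [DecidableEq J]

theorem inner_semL_vac (x : J) (ψ : Fock J) :
    ⟪bas ([] : List J), semL x ψ⟫_ℂ = ⟪bas ([] : List J), annR x ψ⟫_ℂ := by
  rw [semL_inner, semL_nil, annR, ContinuousLinearMap.adjoint_inner_right, creR_bas]
  rfl

theorem star_gen (x : J) : star (gen x) = gen x := by
  apply Subtype.ext
  exact isSelfAdjoint_semL x

theorem vac_gen_pow (x : J) (n : ℕ) :
    vac J (gen x ^ n) = ((if Even n then (catalan (n / 2) : ℝ) else 0 : ℝ) : ℂ) := by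
  have h := moment_word (fun x : J => semL x) (fun x => annR x) (fun _ => 1)
    (fun l l' => by rw [annR_mul_semL]; simp)
    (fun l => annR_nil l) (fun l ψ => inner_semL_vac l ψ) _ (List.replicate n x) rfl
  rw [semi_replicate] at h
  rw [vac_apply]
  have e : ((gen x ^ n : (vna J).toStarSubalgebra) : Fock J →L[ℂ] Fock J) = semL x ^ n := by
    induction n with
    | zero => rfl
    | succ n ih =>
      rw [pow_succ, pow_succ]
      show ((gen x ^ n : (vna J).toStarSubalgebra) : Fock J →L[ℂ] Fock J) * semL x = _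
      rw [ih]
      exact moment_word (fun x : J => semL x) (fun x => annR x) (fun _ => 1)
        (fun l l' => by rw [annR_mul_semL]; simp)
        (fun l => annR_nil l) (fun l ψ => inner_semL_vac l ψ) _ (List.replicate n x) rfl |>.trans
        (by rw [semi_replicate])
  rw [e]
  simpa using h

end VN

open VN

/-- letters: hidden, noise, heat flow -/
abbrev Big (m : ℕ) := Fin m ⊕ (Idx m ⊕ Idx m)

/-- coefficient of the noise at time `0` -/
noncomputable def sig0 {m : ℕ} (i : Idx m) : ℝ := if i.1 = i.2 then 0 else 1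

/-- the tuple `X` -/
noncomputable def tupX (m : ℕ) (c θ : ℝ) (i : Idx m) : (vna (Big m)).toStarSubalgebra :=
  (coef m c θ i : ℂ) • ((yw i).map (fun a => gen (Sum.inl a : Big m))).prod +
    (sig0 i : ℂ) • gen (Sum.inr (Sum.inl i) : Big m)

/-- the heat flow semicirculars -/
noncomputable def tupS (m : ℕ) (i : Idx m) : (vna (Big m)).toStarSubalgebra :=
  gen (Sum.inr (Sum.inr i) : Big m)

theorem tupX_selfAdjoint (m : ℕ) (c θ : ℝ) (i : Idx m) : IsSelfAdjoint (tupX m c θ i) := by
  rw [IsSelfAdjoint, tupX, star_add, star_smul, star_smul, star_gen]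
  have e : star ((yw i).map (fun a => gen (Sum.inl a : Big m))).prod =
      ((yw i).map (fun a => gen (Sum.inl a : Big m))).prod := by
    by_cases h : i.1 = i.2
    · simp [yw, h, star_gen]
    · simp [yw, h, star_gen, mul_assoc]
  rw [e]
  simp

/-- operators for the merged letters -/
noncomputable def gOp (m : ℕ) (t : ℝ) : Letter m → (Fock (Big m) →L[ℂ] Fock (Big m))
  | Sum.inl a => semL (Sum.inl a : Big m)
  | Sum.inr i => (sig0 i : ℂ) • semL (Sum.inr (Sum.inl i) : Big m) +
      ((Real.sqrt t : ℝ) : ℂ) • semL (Sum.inr (Sum.inr i) : Big m)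

/-- annihilators for the merged letters -/
noncomputable def rOp (m : ℕ) (t : ℝ) : Letter m → (Fock (Big m) →L[ℂ] Fock (Big m))
  | Sum.inl a => annR (Sum.inl a : Big m)
  | Sum.inr i => (sig0 i : ℂ) • annR (Sum.inr (Sum.inl i) : Big m) +
      ((Real.sqrt t : ℝ) : ℂ) • annR (Sum.inr (Sum.inr i) : Big m)

/-- standard deviations -/
noncomputable def sOp (m : ℕ) (t : ℝ) : Letter m → ℝ
  | Sum.inl _ => 1
  | Sum.inr i => sig m t i

theorem sig_sq (m : ℕ) {t : ℝ} (ht : 0 ≤ t) (i : Idx m) :
    (sig m t i) ^ 2 = sig0 i * sig0 i + Real.sqrt t * Real.sqrt t := by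
  unfold sig sig0
  rw [Real.mul_self_sqrt ht]
  by_cases h : i.1 = i.2
  · rw [if_pos h, if_pos h, Real.sq_sqrt ht]
    ring
  · rw [if_neg h, if_neg h, Real.sq_sqrt (by linarith)]
    ring

theorem rOp_gOp (m : ℕ) {t : ℝ} (ht : 0 ≤ t) (l l' : Letter m) :
    rOp m t l * gOp m t l' = gOp m t l' * rOp m t l +
      if l = l' then ((sOp m t l : ℂ) ^ 2) • vacProj else 0 := by
  rcases l with a | i <;> rcases l' with b | j
  · simp only [rOp, gOp, sOp]
    rw [annR_mul_semL]
    simp
  · simp only [rOp, gOp, sOp]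
    rw [mul_add, mul_smul_comm, mul_smul_comm, annR_mul_semL, annR_mul_semL, add_mul,
      smul_mul_assoc, smul_mul_assoc]
    simp
  · simp only [rOp, gOp, sOp]
    rw [add_mul, smul_mul_assoc, smul_mul_assoc, annR_mul_semL, annR_mul_semL, mul_add,
      mul_smul_comm, mul_smul_comm]
    simp
  · simp only [rOp, gOp, sOp]
    rw [add_mul, mul_add, mul_add, add_mul, mul_add, mul_add]
    simp only [smul_mul_assoc, mul_smul_comm, annR_mul_semL]
    by_cases h : i = j
    · subst h
      have e : ((sig m t i : ℝ) : ℂ) ^ 2 =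
          (sig0 i : ℂ) * (sig0 i : ℂ) + ((Real.sqrt t : ℝ) : ℂ) * ((Real.sqrt t : ℝ) : ℂ) := by
        rw [← Complex.ofReal_pow, sig_sq m ht]
        push_cast
        ring
      rw [e]
      simp only [if_true, Sum.inr.injEq, reduceCtorEq, if_false, add_zero, smul_add, add_smul,
        smul_smul]
      rw [mul_comm ((Real.sqrt t : ℝ) : ℂ) (sig0 i : ℂ)]
      abel
    · simp only [Sum.inr.injEq, Sum.inl.injEq, reduceCtorEq, if_false, add_zero, h, smul_smul]
      simp only [mul_comm]
      abel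

theorem gOp_adj (m : ℕ) (t : ℝ) (l : Letter m) (ψ : Fock (Big m)) :
    ⟪bas ([] : List (Big m)), gOp m t l ψ⟫_ℂ = ⟪bas ([] : List (Big m)), rOp m t l ψ⟫_ℂ := by
  rcases l with a | i
  · exact inner_semL_vac _ ψ
  · show ⟪bas ([] : List (Big m)), (sig0 i : ℂ) • semL (Sum.inr (Sum.inl i) : Big m) ψ +
      ((Real.sqrt t : ℝ) : ℂ) • semL (Sum.inr (Sum.inr i) : Big m) ψ⟫_ℂ =
      ⟪bas ([] : List (Big m)), (sig0 i : ℂ) • annR (Sum.inr (Sum.inl i) : Big m) ψ +
      ((Real.sqrt t : ℝ) : ℂ) • annR (Sum.inr (Sum.inr i) : Big m) ψ⟫_ℂ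
    rw [inner_add_right, inner_add_right, inner_smul_right, inner_smul_right, inner_smul_right,
      inner_smul_right, inner_semL_vac, inner_semL_vac]

theorem rOp_vac (m : ℕ) (t : ℝ) (l : Letter m) : rOp m t l (bas []) = 0 := by
  rcases l with a | i
  · exact annR_nil _
  · show (sig0 i : ℂ) • annR (Sum.inr (Sum.inl i) : Big m) (bas []) +
      ((Real.sqrt t : ℝ) : ℂ) • annR (Sum.inr (Sum.inr i) : Big m) (bas []) = 0
    simp

/-- the tuple at time `t` as operators -/
noncomputable def xOp (m : ℕ) (c θ t : ℝ) (i : Idx m) : Fock (Big m) →L[ℂ] Fock (Big m) :=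
  (coef m c θ i : ℂ) • (((yw i).map Sum.inl).map (gOp m t)).prod + gOp m t (Sum.inr i)

theorem xOp_moment (m : ℕ) (c θ : ℝ) {t : ℝ} (ht : 0 ≤ t) :
    ∀ (w : List (Idx m)) (pre : List (Letter m)),
      ⟪bas ([] : List (Big m)),
        ((pre.map (gOp m t)).prod * (w.map (xOp m c θ t)).prod) (bas [])⟫_ℂ =
      (((pre.map (sOp m t)).prod * expMom (coef m c θ) (sig m t) pre w : ℝ) : ℂ) := by
  intro w
  induction w with
  | nil =>
    intro pre
    rw [List.map_nil, List.prod_nil, mul_one,
      moment_word (gOp m t) (rOp m t) (sOp m t) (rOp_gOp m ht) (rOp_vac m t) (gOp_adj m t) _ pre rfl]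
    rw [expMom]
  | cons i w ih =>
    intro pre
    have h1 := ih (pre ++ (yw i).map Sum.inl)
    have h2 := ih (pre ++ [Sum.inr i])
    rw [List.map_append, List.prod_append] at h1 h2
    rw [List.map_cons, List.prod_cons]
    have e : (pre.map (gOp m t)).prod * (xOp m c θ t i * (w.map (xOp m c θ t)).prod) =
        (coef m c θ i : ℂ) • ((pre.map (gOp m t)).prod * (((yw i).map Sum.inl).map (gOp m t)).prod *
          (w.map (xOp m c θ t)).prod) +
        (pre.map (gOp m t)).prod * (([Sum.inr i] : List (Letter m)).map (gOp m t)).prod *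
          (w.map (xOp m c θ t)).prod := by
      rw [xOp, add_mul, mul_add, smul_mul_assoc, mul_smul_comm]
      simp only [List.map_cons, List.map_nil, List.prod_cons, List.prod_nil, mul_one, mul_assoc]
    rw [e]
    show ⟪bas ([] : List (Big m)),
      (coef m c θ i : ℂ) • ((pre.map (gOp m t)).prod * (((yw i).map Sum.inl).map (gOp m t)).prod *
          (w.map (xOp m c θ t)).prod) (bas []) +
        ((pre.map (gOp m t)).prod * (([Sum.inr i] : List (Letter m)).map (gOp m t)).prod *
          (w.map (xOp m c θ t)).prod) (bas [])⟫_ℂ = _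
    rw [inner_add_right, inner_smul_right, h1, h2, expMom, List.map_append, List.prod_append,
      List.map_append, List.prod_append]
    have e2 : (((yw i).map (Sum.inl : Fin m → Letter m)).map (sOp m t)).prod = 1 := by
      rw [List.map_map]
      apply List.prod_eq_one
      intro x hx
      rw [List.mem_map] at hx
      obtain ⟨a, _, rfl⟩ := hx
      rfl
    have e3 : (([Sum.inr i] : List (Letter m)).map (sOp m t)).prod = sig m t i := by
      simp [sOp]
    rw [e2, e3]
    push_cast
    ring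

theorem law_tupX (m : ℕ) (c θ : ℝ) {t : ℝ} (ht : 0 ≤ t) (w : List (Idx m)) :
    law (vac (Big m)) (fun i => tupX m c θ i + ((Real.sqrt t : ℝ) : ℂ) • tupS m i) w =
      lawX m c θ t w := by
  have h := xOp_moment m c θ ht w []
  rw [law, vac_apply, lawX]
  have e1 : ∀ i : Idx m, ((tupX m c θ i + ((Real.sqrt t : ℝ) : ℂ) • tupS m i :
      (vna (Big m)).toStarSubalgebra) : Fock (Big m) →L[ℂ] Fock (Big m)) = xOp m c θ t i := by
    intro i
    have e2 : (((yw i).map (fun a => gen (Sum.inl a : Big m))).prod :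
        (vna (Big m)).toStarSubalgebra).1 = (((yw i).map Sum.inl).map (gOp m t)).prod := by
      have := map_list_prod ((vna (Big m)).toStarSubalgebra.subtype)
        ((yw i).map (fun a => gen (Sum.inl a : Big m)))
      rw [List.map_map] at this
      rw [List.map_map]
      exact this
    show (coef m c θ i : ℂ) • (((yw i).map (fun a => gen (Sum.inl a : Big m))).prod :
        (vna (Big m)).toStarSubalgebra).1 + (sig0 i : ℂ) • semL (Sum.inr (Sum.inl i) : Big m) +
        ((Real.sqrt t : ℝ) : ℂ) • semL (Sum.inr (Sum.inr i) : Big m) = _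
    rw [e2, xOp, add_assoc]
    rfl
  have e3 : (((w.map (fun i => tupX m c θ i + ((Real.sqrt t : ℝ) : ℂ) • tupS m i)).prod :
      (vna (Big m)).toStarSubalgebra) : Fock (Big m) →L[ℂ] Fock (Big m)) =
      (w.map (xOp m c θ t)).prod := by
    have := map_list_prod ((vna (Big m)).toStarSubalgebra.subtype)
      (w.map (fun i => tupX m c θ i + ((Real.sqrt t : ℝ) : ℂ) • tupS m i))
    rw [List.map_map] at this
    refine this.trans ?_
    congr 1
    apply List.map_congr_left
    intro i _
    exact e1 i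
  rw [e3]
  simpa using h

/-- letters of the algebra of `X` and of the algebra of each `S j` -/
def grp {m : ℕ} : Option (Idx m) → Set (Big m)
  | none => {x | ∀ j, x ≠ Sum.inr (Sum.inr j)}
  | some j => {Sum.inr (Sum.inr j)}

theorem grp_disjoint {m : ℕ} (p q : Option (Idx m)) (h : p ≠ q) : Disjoint (grp p) (grp q) := by
  rw [Set.disjoint_left]
  intro x hx hy
  rcases p with _ | j <;> rcases q with _ | k
  · exact h rfl
  · exact hx k hy
  · exact hy j hx
  · have h1 : x = Sum.inr (Sum.inr j) := hx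
    have h2 : x = Sum.inr (Sum.inr k) := hy
    rw [h1] at h2
    have : j = k := by simpa using h2
    exact h (by rw [this])

theorem free_tup (m : ℕ) (c θ : ℝ) : FreeFamily (vac (Big m)) (fun o : Option (Idx m) =>
    o.elim (Algebra.adjoin ℂ (Set.range (tupX m c θ)))
      (fun j => Algebra.adjoin ℂ {tupS m j})) := by
  apply freeFamily_of_loc grp grp_disjoint
  intro o
  rcases o with _ | j
  · apply adjoin_loc
    rintro _ ⟨i, rfl⟩
    have hA : ∀ a : Fin m, semL (Sum.inl a : Big m) ∈ locAlg (grp (none : Option (Idx m))) :=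
      fun a => semL_locAlg (by intro j; simp)
    have hS : semL (Sum.inr (Sum.inl i) : Big m) ∈ locAlg (grp (none : Option (Idx m))) :=
      semL_locAlg (by intro j; simp)
    have e2 : (((yw i).map (fun a => gen (Sum.inl a : Big m))).prod :
        (vna (Big m)).toStarSubalgebra).1 =
        ((yw i).map (fun a => semL (Sum.inl a : Big m))).prod := by
      have := map_list_prod ((vna (Big m)).toStarSubalgebra.subtype)
        ((yw i).map (fun a => gen (Sum.inl a : Big m)))
      rw [List.map_map] at this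
      exact this
    show (coef m c θ i : ℂ) • (((yw i).map (fun a => gen (Sum.inl a : Big m))).prod :
        (vna (Big m)).toStarSubalgebra).1 + (sig0 i : ℂ) • semL (Sum.inr (Sum.inl i) : Big m) ∈ _
    rw [e2]
    apply Subalgebra.add_mem
    · apply Subalgebra.smul_mem
      apply Subalgebra.list_prod_mem
      intro x hx
      rw [List.mem_map] at hx
      obtain ⟨a, _, rfl⟩ := hx
      exact hA a
    · exact Subalgebra.smul_mem _ hS _
  · apply adjoin_loc
    intro T hT
    rw [Set.mem_singleton_iff] at hT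
    rw [hT]
    exact semL_locAlg rfl

theorem realization (m : ℕ) (c θ : ℝ) :
    ∃ (H : Type) (_ : NormedAddCommGroup H) (_ : InnerProductSpace ℂ H) (_ : CompleteSpace H)
      (M : VonNeumannAlgebra H) (τ : M.toStarSubalgebra →ₗ[ℂ] ℂ)
      (X S : Idx m → M.toStarSubalgebra),
      IsFNTState M τ ∧ (∀ i, IsSelfAdjoint (X i)) ∧ IsFreeSemicircularFrom τ X S ∧
      (∀ w, law τ X w = lawX m c θ 0 w) ∧
      ∀ t : ℝ, 0 < t → ∀ w,
        law τ (fun i => X i + ((Real.sqrt t : ℝ) : ℂ) • S i) w = lawX m c θ t w := by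
  refine ⟨Fock (Big m), inferInstance, inferInstance, inferInstance, vna (Big m), vac (Big m),
    tupX m c θ, tupS m, isFNTState (Big m), tupX_selfAdjoint m c θ, ?_, ?_, ?_⟩
  · refine ⟨fun j => star_gen _, ?_, ?_, free_tup m c θ⟩
    · intro j k
      show vac (Big m) (gen _ ^ (2 * k)) = _
      rw [vac_gen_pow, if_pos ⟨k, by ring⟩, Nat.mul_div_cancel_left k (by norm_num)]
      simp
    · intro j k
      show vac (Big m) (gen _ ^ (2 * k + 1)) = _
      have : ¬ Even (2 * k + 1) := by
        rw [Nat.not_even_iff_odd]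
        exact ⟨k, rfl⟩
      rw [vac_gen_pow, if_neg this]
      simp
  · intro w
    have h := law_tupX m c θ (le_refl (0 : ℝ)) w
    have e : (fun i => tupX m c θ i + ((Real.sqrt 0 : ℝ) : ℂ) • tupS m i) = tupX m c θ := by
      funext i
      simp
    rw [e] at h
    exact h
  · intro t ht w
    exact law_tupX m c θ ht.le w

end Vale.Agent.P087
end
end

section

section

/-! Transport of all notions along an equivalence of index types. -/

open MeasureTheory Filter
open scoped ENNReal NNReal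

namespace Vale.Agent.P087

set_option linter.unusedSectionVars false

section

variable {ι κ : Type} [Fintype ι] [DecidableEq ι] [Fintype κ] [DecidableEq κ]

theorem microstates_reindex (e : κ ≃ ι) (μ : List ι → ℂ) (R : ℝ) (m k : ℕ) (ε : ℝ) :
    microstates (fun w : List κ => μ (w.map e)) R m k ε =
      (MeasurableEquiv.piCongrLeft (fun _ : ι => Fin k → Fin k → ℝ) e) ⁻¹'
        microstates μ R m k ε := by
  have key : ∀ (x : κ → Fin k → Fin k → ℝ) (j : κ),
      (MeasurableEquiv.piCongrLeft (fun _ : ι => Fin k → Fin k → ℝ) e) x (e j) = x j := by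
    intro x j
    exact Equiv.piCongrLeft_apply_apply (fun _ : ι => Fin k → Fin k → ℝ) e x j
  ext x
  simp only [microstates, Set.mem_ofPred_eq, Set.mem_preimage]
  constructor
  · rintro ⟨h1, h2⟩
    refine ⟨fun i => ?_, fun w hw1 hw2 => ?_⟩
    · obtain ⟨j, rfl⟩ := e.surjective i
      rw [key]; exact h1 j
    · have h := h2 (w.map e.symm) (by simpa using hw1) (by simpa using hw2)
      have e1 : (w.map e.symm).map e = w := by
        rw [List.map_map]; simp
      rw [e1] at h
      have e2 : (w.map e.symm).map (fun j => herm k (x j)) = w.map (fun j => herm k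
          ((MeasurableEquiv.piCongrLeft (fun _ : ι => Fin k → Fin k → ℝ) e) x j)) := by
        rw [List.map_map]
        apply List.map_congr_left
        intro a _
        simp only [Function.comp]
        conv_rhs => rw [← e.apply_symm_apply a, key]
      rw [e2] at h
      exact h
  · rintro ⟨h1, h2⟩
    refine ⟨fun j => ?_, fun w hw1 hw2 => ?_⟩
    · have := h1 (e j)
      rwa [key] at this
    · have h := h2 (w.map e) (by simpa using hw1) (by simpa using hw2)
      have e2 : (w.map e).map (fun j => herm k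
          ((MeasurableEquiv.piCongrLeft (fun _ : ι => Fin k → Fin k → ℝ) e) x j)) =
          w.map (fun j => herm k (x j)) := by
        rw [List.map_map]
        apply List.map_congr_left
        intro a _
        simp only [Function.comp]
        rw [key]
      rw [e2] at h
      exact h

theorem volume_microstates_reindex (e : κ ≃ ι) (μ : List ι → ℂ) (R : ℝ) (m k : ℕ) (ε : ℝ) :
    volume (microstates (fun w : List κ => μ (w.map e)) R m k ε) =
      volume (microstates μ R m k ε) := by
  rw [microstates_reindex]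
  exact (volume_measurePreserving_piCongrLeft (fun _ : ι => Fin k → Fin k → ℝ) e).measure_preimage_equiv _

theorem chiR_reindex (e : κ ≃ ι) (μ : List ι → ℂ) (R : ℝ) :
    chiR (fun w : List κ => μ (w.map e)) R = chiR μ R := by
  unfold chiR
  simp_rw [volume_microstates_reindex e μ, Fintype.card_congr e]

theorem chi_reindex (e : κ ≃ ι) (μ : List ι → ℂ) :
    chi (fun w : List κ => μ (w.map e)) = chi μ := by
  unfold chi
  simp_rw [chiR_reindex e μ]

theorem dqWord_reindex (e : κ ≃ ι) (μ : List ι → ℂ) (j : κ) (w : List κ) :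
    dqWord (fun w : List κ => μ (w.map e)) j w = dqWord μ (e j) (w.map e) := by
  unfold dqWord
  refine Fintype.sum_equiv (finCongr (List.length_map e).symm) _ _ fun l => ?_
  simp [List.map_take, List.map_drop]

theorem dq_reindex (e : κ ≃ ι) (μ : List ι → ℂ) (j : κ) (p : List κ →₀ ℂ) :
    dq (fun w : List κ => μ (w.map e)) j p = dq μ (e j) (p.mapDomain (List.map e)) := by
  unfold dq
  rw [Finsupp.sum_mapDomain_index]
  · refine Finsupp.sum_congr fun w _ => ?_
    rw [dqWord_reindex]
  · intro w; simp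
  · intro w a b; ring

theorem normSq_reindex (e : κ ≃ ι) (μ : List ι → ℂ) (p : List κ →₀ ℂ) :
    normSq (fun w : List κ => μ (w.map e)) p = normSq μ (p.mapDomain (List.map e)) := by
  unfold normSq
  congr 1
  rw [Finsupp.sum_mapDomain_index]
  · refine Finsupp.sum_congr fun v _ => ?_
    rw [Finsupp.sum_mapDomain_index]
    · refine Finsupp.sum_congr fun w _ => ?_
      simp [List.map_reverse]
    · intro w; simp
    · intro w a b; ring
  · intro w; simp
  · intro w a b
    rw [← Finsupp.sum_add]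
    refine Finsupp.sum_congr fun v _ => ?_
    rw [map_add]; ring

theorem conjNormSq_reindex (e : κ ≃ ι) (μ : List ι → ℂ) (j : κ) :
    conjNormSq (fun w : List κ => μ (w.map e)) j = conjNormSq μ (e j) := by
  unfold conjNormSq
  congr 1
  funext C
  have hiff : (∀ p : List κ →₀ ℂ, ‖dq (fun w : List κ => μ (w.map e)) j p‖ ^ 2 ≤
        C * normSq (fun w : List κ => μ (w.map e)) p) ↔
      (∀ p : List ι →₀ ℂ, ‖dq μ (e j) p‖ ^ 2 ≤ C * normSq μ p) := by
    constructor
    · intro h p
      have := h (p.mapDomain (List.map e.symm))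
      rw [dq_reindex, normSq_reindex, ← Finsupp.mapDomain_comp] at this
      have e1 : (List.map e) ∘ (List.map e.symm) = (id : List ι → List ι) := by
        funext w; simp
      rw [e1, Finsupp.mapDomain_id] at this
      exact this
    · intro h p
      rw [dq_reindex, normSq_reindex]
      exact h _
  exact iInf_congr_Prop hiff fun _ => rfl

theorem fisher_reindex (e : κ ≃ ι) (μ : List ι → ℂ) :
    fisher (fun w : List κ => μ (w.map e)) = fisher μ := by
  unfold fisher
  exact Fintype.sum_equiv e _ _ fun j => conjNormSq_reindex e μ j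

theorem chiStar_reindex (e : κ ≃ ι) (ν : ℝ → List ι → ℂ) :
    chiStar (fun t => fun w : List κ => ν t (w.map e)) = chiStar ν := by
  unfold chiStar
  simp_rw [fisher_reindex e, Fintype.card_congr e]

end

section

variable {A ι κ : Type} [Ring A] [StarRing A] [Algebra ℂ A]

theorem IsFreeSemicircularFrom.reindex {τ : A →ₗ[ℂ] ℂ} {X S : ι → A} (e : κ ≃ ι)
    (h : IsFreeSemicircularFrom τ X S) :
    IsFreeSemicircularFrom τ (fun j => X (e j)) (fun j => S (e j)) where
  selfAdjoint j := h.selfAdjoint (e j)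
  even j k := h.even (e j) k
  odd j k := h.odd (e j) k
  free := by
    intro n i a ha h0 hne
    refine h.free n (fun k => (i k).map e) a (fun k => ?_) h0 (fun k => ?_)
    · have hk := ha k
      cases hik : i k with
      | none =>
        rw [hik] at hk
        have hr : Set.range (fun j => X (e j)) = Set.range X := e.surjective.range_comp X
        simp only [Option.elim] at hk
        rw [hr] at hk
        simpa [hik] using hk
      | some j =>
        rw [hik] at hk
        simpa [hik] using hk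
    · intro hcontra
      exact hne k (Option.map_injective e.injective hcontra)

theorem law_reindex (τ : A →ₗ[ℂ] ℂ) (X : ι → A) (e : κ → ι) (w : List κ) :
    law τ (fun j => X (e j)) w = law τ X (w.map e) := by
  unfold law
  rw [List.map_map]
  rfl

end

end Vale.Agent.P087
end
end

section

section

/-! Assembly of the main theorem. -/

open MeasureTheory Filter
open scoped ENNReal NNReal

namespace Vale.Agent.P087

theorem chiStar_congr {ι : Type} [Fintype ι] [DecidableEq ι] {ν ν' : ℝ → List ι → ℂ}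
    (h : ∀ t, 0 < t → ν t = ν' t) : chiStar ν = chiStar ν' := by
  unfold chiStar
  have h1 : (∫⁻ t in Set.Ioi (0 : ℝ), (ENNReal.ofReal (Fintype.card ι / (1 + t)) - fisher (ν t)))
      = ∫⁻ t in Set.Ioi (0 : ℝ), (ENNReal.ofReal (Fintype.card ι / (1 + t)) - fisher (ν' t)) :=
    setLIntegral_congr_fun measurableSet_Ioi fun t ht => by
      simp only [h t ht]
  have h2 : (∫⁻ t in Set.Ioi (0 : ℝ), (fisher (ν t) - ENNReal.ofReal (Fintype.card ι / (1 + t))))
      = ∫⁻ t in Set.Ioi (0 : ℝ), (fisher (ν' t) - ENNReal.ofReal (Fintype.card ι / (1 + t))) :=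
    setLIntegral_congr_fun measurableSet_Ioi fun t ht => by
      simp only [h t ht]
  rw [h1, h2]

theorem log_25_lt : Real.log 25 < 6 := by
  have h : Real.log 25 = 2 * Real.log 5 := by
    rw [show (25 : ℝ) = 5 ^ 2 by norm_num, Real.log_pow]; norm_num
  have h5 : Real.log 5 < 5 / 2 := by
    rw [Real.log_lt_iff_lt_exp (by norm_num)]
    have h1 : (2.7 : ℝ) < Real.exp 1 := by
      have := Real.exp_one_gt_d9; linarith
    have h2 : Real.exp (5 / 2) = Real.exp 1 ^ 2 * Real.exp (1 / 2) := by
      rw [← Real.exp_nat_mul, ← Real.exp_add]; norm_num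
    have h3 : (1 : ℝ) ≤ Real.exp (1 / 2) := Real.one_le_exp (by norm_num)
    rw [h2]
    nlinarith [Real.exp_pos 1, sq_nonneg (Real.exp 1)]
  linarith

theorem main :
    ∃ (n : ℕ) (H : Type) (_ : NormedAddCommGroup H) (_ : InnerProductSpace ℂ H)
      (_ : CompleteSpace H) (M : VonNeumannAlgebra H) (τ : M.toStarSubalgebra →ₗ[ℂ] ℂ)
      (X S : Fin n → M.toStarSubalgebra),
      1 ≤ n ∧ IsFNTState M τ ∧ (∀ i, IsSelfAdjoint (X i)) ∧ IsFreeSemicircularFrom τ X S ∧
      ⊥ < chi (law τ X) ∧
      chi (law τ X) < chiStar (fun t => law τ (fun i => X i + ((Real.sqrt t : ℝ) : ℂ) • S i)) := by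
  obtain ⟨m, hm⟩ : ∃ m : ℕ, m = 8 * 10 ^ 24 + 1 := ⟨_, rfl⟩
  have hm0 : 0 < m := by omega
  have hmR : (m : ℝ) = 8 * 10 ^ 24 + 1 := by rw [hm]; push_cast; norm_num
  set θ : ℝ := 1 / 10 ^ 12 with hθ
  set c : ℝ := 1 / 8000 with hc
  have hcpos : 0 < c := by rw [hc]; norm_num
  have hmθ : ((m : ℝ) - 1) * θ ^ 2 = 8 := by rw [hmR, hθ]; norm_num
  obtain ⟨H, i1, i2, i3, M, τ, X, S, hst, hsa, hfree, hlaw0, hlawt⟩ := realization m c θ
  let e : Fin (m * m) ≃ Idx m := finProdFinEquiv.symm
  have hlawX : law τ (fun j => X (e j)) = fun w : List (Fin (m * m)) => lawX m c θ 0 (w.map e) := by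
    funext w
    rw [law_reindex, hlaw0]
  have hchi : chi (law τ (fun j => X (e j))) = chi (lawX m c θ 0) := by
    rw [hlawX]; exact chi_reindex e _
  have hstar : chiStar (fun t => law τ (fun j => X (e j) + ((Real.sqrt t : ℝ) : ℂ) • S (e j)))
      = chiStar (lawX m c θ) := by
    rw [← chiStar_reindex e]
    refine chiStar_congr fun t ht => ?_
    funext w
    rw [← hlawt t ht, ← law_reindex]
  refine ⟨m * m, H, i1, i2, i3, M, τ, fun j => X (e j), fun j => S (e j), ?_, hst,
    fun j => hsa (e j), hfree.reindex e, ?_, ?_⟩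
  · exact Nat.mul_pos hm0 hm0
  · rw [hchi]; exact bot_lt_chi m hm0 c θ hcpos
  · rw [hchi, hstar]
    refine lt_of_le_of_lt (chi_le m c θ hcpos) (lt_of_lt_of_le ?_ (chiStar_lawX_ge m c θ hθ hc hmθ))
    rw [EReal.coe_lt_coe_iff]
    have h1 : 0 < (m : ℝ) / 2 * (8 * (99 / 100) / (1 + 1 / 4) - Real.log 25) := by
      apply mul_pos
      · rw [hmR]; norm_num
      · have := log_25_lt; norm_num; linarith
    linarith

end Vale.Agent.P087
end
end

section

section

/-! Bridge between `FinalDefs.lean` and the development. -/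

open MeasureTheory Filter
open scoped ENNReal NNReal

namespace Vale.Agent.P087.FD

theorem normLe_iff {k : ℕ} (A : Matrix (Fin k) (Fin k) ℂ) (R : ℝ) (hR : 0 ≤ R) :
    NormLe A R ↔ ‖Matrix.toEuclideanCLM (n := Fin k) (𝕜 := ℂ) A‖ ≤ R := by
  have key : ∀ v : Fin k → ℂ, (∑ a, ‖A.mulVec v a‖ ^ 2 ≤ R ^ 2 * ∑ a, ‖v a‖ ^ 2 ↔
      ‖Matrix.toEuclideanCLM (n := Fin k) (𝕜 := ℂ) A (WithLp.toLp 2 v)‖ ≤
        R * ‖(WithLp.toLp 2 v : EuclideanSpace ℂ (Fin k))‖) := by
    intro v
    have h1 : ∑ a, ‖A.mulVec v a‖ ^ 2 =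
        ‖Matrix.toEuclideanCLM (n := Fin k) (𝕜 := ℂ) A (WithLp.toLp 2 v)‖ ^ 2 := by
      rw [EuclideanSpace.norm_sq_eq]
      rfl
    have h2 : ∑ a, ‖v a‖ ^ 2 = ‖(WithLp.toLp 2 v : EuclideanSpace ℂ (Fin k))‖ ^ 2 := by
      rw [EuclideanSpace.norm_sq_eq]
    rw [h1, h2, ← mul_pow]
    exact pow_le_pow_iff_left₀ (norm_nonneg _) (mul_nonneg hR (norm_nonneg _)) two_ne_zero
  constructor
  · intro h
    refine ContinuousLinearMap.opNorm_le_bound _ hR fun x => ?_
    exact (key x.ofLp).1 (h x.ofLp)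
  · intro h v
    refine (key v).2 ?_
    exact (ContinuousLinearMap.le_opNorm _ _).trans (mul_le_mul_of_nonneg_right h (norm_nonneg _))

section Law

variable {ι : Type} [Fintype ι] [DecidableEq ι]

theorem microstates_eq (μ : List ι → ℂ) (R : ℝ) (hR : 0 ≤ R) (m k : ℕ) (ε : ℝ) :
    microstates μ R m k ε = Vale.Agent.P087.microstates μ R m k ε := by
  ext x
  show ((∀ j, NormLe (herm k (x j)) R) ∧ _) ↔ ((∀ j, _) ∧ _)
  refine and_congr (forall_congr' fun j => ?_) Iff.rfl
  exact normLe_iff _ R hR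

theorem chi_eq (μ : List ι → ℂ) : chi μ = Vale.Agent.P087.chi μ := by
  unfold chi Vale.Agent.P087.chi
  refine iSup_congr fun R => iSup_congr fun hR => ?_
  unfold chiR Vale.Agent.P087.chiR
  simp only [microstates_eq μ R hR.le]

end Law

theorem final :
    ∃ (H : Type) (_ : NormedAddCommGroup H) (_ : InnerProductSpace ℂ H) (_ : CompleteSpace H),
      Gap H := by
  obtain ⟨n, H, i1, i2, i3, M, τ, X, S, hn, hst, hsa, hfree, hlt, hlt2⟩ := Vale.Agent.P087.main
  refine ⟨H, i1, i2, i3, Gap.intro M τ n X S ⟨hst.map_one, hst.tracial, hst.faithful⟩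
    ⟨hst.normal⟩ hn hsa ⟨hfree.selfAdjoint, hfree.even, hfree.odd, hfree.free⟩ ?_ ?_⟩
  · rw [chi_eq]; exact hlt
  · rw [chi_eq]; exact hlt2

end Vale.Agent.P087.FD
end
end
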